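import Claimed.Agent.R257.Tree.GeoK

/-!
# ROW 257, package FR2, unit INST, post GEO, file 2: THE KERNELS OF A CONCRETE TREE      (owner helper238)
Paper-free.  Prefix `tg_`.   `D : TDat c`, `hc : c.Ok`, `hD : D.Good`.   All constants depend only on `(k, A, c.Cc)`.
* `tg_fib`          sums over the cells of one label = sums over lattice points
* `tg_conv_wA`      one step of `p:convolution` for the one-step kernels;   `tg_conv_ker`  for the kernels to the root (two-step below the transition height)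
* `tg_ker_le`       the kernels are bounded;   `tg_ker_anti`  monotone in the order
* `tg_far_edge`, `tg_far_root`   long edges
-/

set_option autoImplicit false

namespace Claimed.Agent.R257.Tree

open Claimed.Agent.R257 Claimed.Agent.R257.FR2
open scoped BigOperators Classical

noncomputable section

variable {k : ℕ}

/-- sums over the cells of one label -/
theorem tg_fib {Λ : Type} (W : Finset (Λ × Lat k)) (v : Λ) (F : Lat k → ℝ) :
    ∑ T ∈ W, (if v = T.1 then F T.2 else 0) = ∑ m ∈ (W.filter fun T => v = T.1).image Prod.snd, F m := by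
  rw [← Finset.sum_filter, Finset.sum_image]
  intro T hT T' hT' e
  have h1 := (Finset.mem_filter.1 hT).2
  have h2 := (Finset.mem_filter.1 hT').2
  exact Prod.ext (h1.symm.trans h2) e

variable {c : TCls k} (D : TDat c)

theorem tg_wA_eq (A : ℝ) (i : ℕ) (T : D.Lb i × Lat k) (z : ST k) : D.wA A i T z = pw A (D.κ i) (D.fr i T.1) (lat T.2) z := rfl

theorem tg_wA_nonneg (A : ℝ) (i : ℕ) (T : D.Lb i × Lat k) (z : ST k) : 0 ≤ D.wA A i T z :=
  Real.rpow_nonneg (by positivity) _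

theorem tg_wA_pos (A : ℝ) (i : ℕ) (T : D.Lb i × Lat k) (z : ST k) : 0 < D.wA A i T z :=
  Real.rpow_pos_of_pos (by positivity) _

theorem tg_wA_le_one {A : ℝ} (hA : 0 ≤ A) (i : ℕ) (T : D.Lb i × Lat k) (z : ST k) : D.wA A i T z ≤ 1 :=
  Real.rpow_le_one_of_one_le_of_nonpos (by linarith [norm_nonneg (D.X i T z)]) (by linarith)

theorem tg_wA_anti {A B : ℝ} (h : A ≤ B) (i : ℕ) (T : D.Lb i × Lat k) (z : ST k) : D.wA B i T z ≤ D.wA A i T z :=
  Real.rpow_le_rpow_of_exponent_le (by linarith [norm_nonneg (D.X i T z)]) (by linarith)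

theorem tg_edge_nonneg (A : ℝ) (i : ℕ) (T' : D.Lb i × Lat k) (T : D.Lb (i + 1) × Lat k) : 0 ≤ D.edge A i T' T := by
  unfold TDat.edge
  split_ifs
  · exact tg_wA_nonneg D _ _ _ _
  · exact le_rfl

theorem tg_ker_nonneg (A : ℝ) (i : ℕ) (T : D.Lb i × Lat k) (z : ST k) : 0 ≤ D.ker A i T z := by
  unfold TDat.ker
  split_ifs
  · refine Finset.sum_nonneg fun S _ => ?_
    split_ifs
    · exact mul_nonneg (tg_wA_nonneg D _ _ _ _) (tg_wA_nonneg D _ _ _ _)
    · exact le_rfl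
  · exact tg_wA_nonneg D _ _ _ _

variable {D}

/-- one step of `p:convolution`, one-step kernels -/
theorem tg_conv_wA (k : ℕ) {A Cc : ℝ} (hA : (k : ℝ) + 2 ≤ A) (hCc : 0 ≤ Cc) :
    ∃ C : ℝ, 1 ≤ C ∧ ∀ (c : TCls k) (D : TDat c), c.Cc = Cc → D.Good → ∀ (i : ℕ) (T' : D.Lb i × Lat k) (z : ST k),
      ∑ T ∈ D.W (i + 1), D.edge A i T' T * D.wA A (i + 1) T z ≤ C * D.wA A i T' z := by
  obtain ⟨C, hC, H⟩ := tg_bc k hA hCc
  refine ⟨C, hC, fun c D hcc hD i T' z => ?_⟩
  have h1 : ∀ T ∈ D.W (i + 1), D.edge A i T' T * D.wA A (i + 1) T z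
      = if D.par i T'.1 = T.1 then pw A (D.κ (i + 1)) (D.fr (i + 1) (D.par i T'.1)) (lat T.2) z
          * pw A (D.κ i) (D.fr i T'.1) (lat T'.2) (natI (D.κ (i + 1)) (D.fr (i + 1) (D.par i T'.1)) (lat T.2)) else 0 := by
    intro T _
    unfold TDat.edge
    split_ifs with h
    · rw [mul_comm, tg_wA_eq, tg_wA_eq, h]
      rfl
    · rw [zero_mul]
  rw [Finset.sum_congr rfl h1, tg_fib (D.W (i + 1)) (D.par i T'.1) fun m =>
    pw A (D.κ (i + 1)) (D.fr (i + 1) (D.par i T'.1)) (lat m) z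
      * pw A (D.κ i) (D.fr i T'.1) (lat T'.2) (natI (D.κ (i + 1)) (D.fr (i + 1) (D.par i T'.1)) (lat m))]
  exact H _ _ _ _ _ _ _ (hD.one_le_κ _) (hD.κ_anti i) (hcc ▸ hD.par_near i T'.1)

/-- the two-step kernel through the cells of the height `j` -/
def tgK2 {c : TCls k} (D : TDat c) (A : ℝ) (j i : ℕ) (T : D.Lb i × Lat k) (z : ST k) : ℝ :=
  ∑ S ∈ D.W j, if D.bin j S.1 = D.bin i T.1 then D.wA A j S z * D.wA A i T (D.ctr j S) else 0

theorem tg_ker_lt {c : TCls k} (D : TDat c) (A : ℝ) {i : ℕ} (h : i < c.tr) (T : D.Lb i × Lat k) (z : ST k) :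
    D.ker A i T z = tgK2 D A c.tr i T z := by
  unfold TDat.ker tgK2
  rw [if_pos h]

theorem tg_ker_ge {c : TCls k} (D : TDat c) (A : ℝ) {i : ℕ} (h : ¬ i < c.tr) (T : D.Lb i × Lat k) (z : ST k) :
    D.ker A i T z = D.wA A i T z := by
  unfold TDat.ker
  rw [if_neg h]

/-- the crossing of the transition height is an identity -/
theorem tg_conv_cross {c : TCls k} (D : TDat c) (A : ℝ) (i j : ℕ) (hj : i + 1 = j) (hinj : Function.Injective (D.bin j))
    (hpar : ∀ v, D.bin (i + 1) (D.par i v) = D.bin i v) (T' : D.Lb i × Lat k) (z : ST k) :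
    ∑ T ∈ D.W (i + 1), D.edge A i T' T * D.wA A (i + 1) T z = tgK2 D A j i T' z := by
  subst hj
  unfold tgK2 TDat.edge
  refine Finset.sum_congr rfl fun T _ => ?_
  by_cases h : D.par i T'.1 = T.1
  · rw [if_pos h, if_pos (by rw [← h, hpar]), mul_comm]
  · rw [if_neg h, if_neg (fun e => h (hinj (by rw [hpar, e]))), zero_mul]

/-- one step of `p:convolution`, kernels to the root -/
theorem tg_conv_ker (k : ℕ) {A Cc : ℝ} (hA : (k : ℝ) + 2 ≤ A) (hCc : 0 ≤ Cc) :
    ∃ C : ℝ, 1 ≤ C ∧ ∀ (c : TCls k) (D : TDat c), c.Cc = Cc → D.Good → ∀ (i : ℕ) (T' : D.Lb i × Lat k) (z : ST k),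
      ∑ T ∈ D.W (i + 1), D.edge A i T' T * D.ker A (i + 1) T z ≤ C * D.ker A i T' z := by
  obtain ⟨C, hC, H⟩ := tg_conv_wA k hA hCc
  refine ⟨C, hC, fun c D hcc hD i T' z => ?_⟩
  rcases lt_trichotomy (i + 1) c.tr with h | h | h
  · -- below the transition height
    have hi : i < c.tr := by omega
    rw [tg_ker_lt D A hi]
    have h1 : ∀ T ∈ D.W (i + 1), D.edge A i T' T * D.ker A (i + 1) T z
        = ∑ S ∈ D.W c.tr, if D.bin c.tr S.1 = D.bin i T'.1 then D.wA A c.tr S z * (D.edge A i T' T * D.wA A (i + 1) T (D.ctr c.tr S)) else 0 := by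
      intro T _
      rw [tg_ker_lt D A h, tgK2, Finset.mul_sum]
      refine Finset.sum_congr rfl fun S _ => ?_
      by_cases hp : D.par i T'.1 = T.1
      · have hb : D.bin (i + 1) T.1 = D.bin i T'.1 := by rw [← hp, hD.bin_par i (by omega)]
        rw [hb]
        split_ifs
        · ring
        · rw [mul_zero]
      · have he : D.edge A i T' T = 0 := by unfold TDat.edge; rw [if_neg hp]
        rw [he]
        simp
    rw [Finset.sum_congr rfl h1, Finset.sum_comm, tgK2, Finset.mul_sum]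
    refine Finset.sum_le_sum fun S _ => ?_
    split_ifs with hb
    · rw [← Finset.mul_sum]
      calc D.wA A c.tr S z * ∑ T ∈ D.W (i + 1), D.edge A i T' T * D.wA A (i + 1) T (D.ctr c.tr S)
          ≤ D.wA A c.tr S z * (C * D.wA A i T' (D.ctr c.tr S)) :=
            mul_le_mul_of_nonneg_left (H c D hcc hD i T' _) (tg_wA_nonneg D _ _ _ _)
        _ = _ := by ring
    · simp
  · -- the crossing
    have hi : i < c.tr := by omega
    have h2 : ¬ i + 1 < c.tr := by omega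
    rw [tg_ker_lt D A hi, ← tg_conv_cross D A i c.tr h hD.bin_inj (hD.bin_par i (by omega)) T' z]
    have h3 : ∑ T ∈ D.W (i + 1), D.edge A i T' T * D.ker A (i + 1) T z = ∑ T ∈ D.W (i + 1), D.edge A i T' T * D.wA A (i + 1) T z :=
      Finset.sum_congr rfl fun T _ => by rw [tg_ker_ge D A h2]
    rw [h3]
    have h4 : 0 ≤ ∑ T ∈ D.W (i + 1), D.edge A i T' T * D.wA A (i + 1) T z :=
      Finset.sum_nonneg fun T _ => mul_nonneg (tg_edge_nonneg D _ _ _ _) (tg_wA_nonneg D _ _ _ _)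
    nlinarith
  · -- above
    have hi : ¬ i < c.tr := by omega
    have h2 : ¬ i + 1 < c.tr := by omega
    rw [tg_ker_ge D A hi]
    have h3 : ∑ T ∈ D.W (i + 1), D.edge A i T' T * D.ker A (i + 1) T z = ∑ T ∈ D.W (i + 1), D.edge A i T' T * D.wA A (i + 1) T z :=
      Finset.sum_congr rfl fun T _ => by rw [tg_ker_ge D A h2]
    rw [h3]
    exact H c D hcc hD i T' z

/-! ## bounds, monotonicity -/

theorem tg_ker_anti {c : TCls k} (D : TDat c) {A B : ℝ} (h : A ≤ B) (i : ℕ) (T : D.Lb i × Lat k) (z : ST k) : D.ker B i T z ≤ D.ker A i T z := by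
  unfold TDat.ker
  split_ifs
  · refine Finset.sum_le_sum fun S _ => ?_
    split_ifs
    · exact mul_le_mul (tg_wA_anti D h _ _ _) (tg_wA_anti D h _ _ _) (tg_wA_nonneg D _ _ _ _) (tg_wA_nonneg D _ _ _ _)
    · exact le_rfl
  · exact tg_wA_anti D h _ _ _

/-- the kernels are bounded -/
theorem tg_ker_le (k : ℕ) {A : ℝ} (hA : (k : ℝ) + 1 < A) :
    ∃ C : ℝ, 1 ≤ C ∧ ∀ (c : TCls k) (D : TDat c), D.Good → ∀ (i : ℕ) (T : D.Lb i × Lat k) (z : ST k), D.ker A i T z ≤ C := by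
  have hA0 : 0 ≤ A := by have : (0 : ℝ) ≤ k := Nat.cast_nonneg k; linarith
  obtain ⟨C, hC, H⟩ := tg_sum_lat k hA
  refine ⟨1 + C, by linarith, fun c D hD i T z => ?_⟩
  by_cases hi : i < c.tr
  · rw [tg_ker_lt D A hi, tgK2]
    by_cases hv : ∃ v0, D.bin c.tr v0 = D.bin i T.1
    · obtain ⟨v0, hv0⟩ := hv
      have h1 : ∀ S ∈ D.W c.tr, (if D.bin c.tr S.1 = D.bin i T.1 then D.wA A c.tr S z * D.wA A i T (D.ctr c.tr S) else 0)
          ≤ if v0 = S.1 then (1 + ‖natX (D.κ c.tr) (D.fr c.tr v0) z - lat S.2‖) ^ (-A) else 0 := by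
        intro S _
        by_cases hb : D.bin c.tr S.1 = D.bin i T.1
        · have e : v0 = S.1 := hD.bin_inj (hv0.trans hb.symm)
          rw [if_pos hb, if_pos e]
          calc D.wA A c.tr S z * D.wA A i T (D.ctr c.tr S) ≤ D.wA A c.tr S z * 1 :=
                mul_le_mul_of_nonneg_left (tg_wA_le_one D hA0 _ _ _) (tg_wA_nonneg D _ _ _ _)
            _ = _ := by rw [mul_one, e]; rfl
        · rw [if_neg hb]
          split_ifs
          · exact Real.rpow_nonneg (by positivity) _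
          · exact le_rfl
      refine (Finset.sum_le_sum h1).trans ?_
      rw [tg_fib (D.W c.tr) v0 fun m => (1 + ‖natX (D.κ c.tr) (D.fr c.tr v0) z - lat m‖) ^ (-A)]
      linarith [H (natX (D.κ c.tr) (D.fr c.tr v0) z) (((D.W c.tr).filter fun T => v0 = T.1).image Prod.snd)]
    · have : ∑ S ∈ D.W c.tr, (if D.bin c.tr S.1 = D.bin i T.1 then D.wA A c.tr S z * D.wA A i T (D.ctr c.tr S) else 0) = 0 :=
        Finset.sum_eq_zero fun S _ => if_neg fun e => hv ⟨S.1, e⟩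
      rw [this]
      linarith
  · rw [tg_ker_ge D A hi]
    linarith [tg_wA_le_one D hA0 i T z]

/-! ## long edges -/

theorem tg_X_sub {c : TCls k} (D : TDat c) (i : ℕ) (T : D.Lb i × Lat k) (z z' : ST k) :
    D.X i T z - D.X i T z' = natX (D.κ i) (D.fr i T.1) (z - z') := by
  unfold TDat.X
  rw [natX_sub]
  abel

theorem tg_X_ctr {c : TCls k} {D : TDat c} (hD : D.Good) (i : ℕ) (T : D.Lb i × Lat k) (z : ST k) :
    natX (D.κ i) (D.fr i T.1) (z - D.ctr i T) = D.X i T z := by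
  have h0 : D.κ i ≠ 0 := by have := hD.one_le_κ i; positivity
  unfold TDat.X TDat.ctr
  rw [natX_sub, natX_natI h0]

/-- the child distance of `z` and of the centre of a parent cell -/
theorem tg_child_parent {c : TCls k} {D : TDat c} (hD : D.Good) (i : ℕ) (T' : D.Lb i × Lat k) (T : D.Lb (i + 1) × Lat k)
    (hp : D.par i T'.1 = T.1) (z : ST k) : ‖D.X i T' z - D.X i T' (D.ctr (i + 1) T)‖ ≤ (1 + 2 * c.Cc) * ‖D.X (i + 1) T z‖ := by
  rw [tg_X_sub, ← tg_X_ctr hD (i + 1) T z]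
  exact tg_lip (hD.one_le_κ _) (hD.κ_anti i) (hp ▸ hD.par_near i T'.1) _

theorem tg_mask_of_near {c : TCls k} {D : TDat c} (i j : ℕ) (hj : i + 1 = j) (T : D.Lb (i + 1) × Lat k) (hT : T ∈ D.W (i + 1)) (z : ST k)
    (h : ‖D.X (i + 1) T z‖ ≤ D.G (i + 1)) {β : D.Bin} (hβ : D.bin (i + 1) T.1 = β) :
    ∃ S ∈ D.W j, D.bin j S.1 = β ∧ ‖D.X j S z‖ ≤ D.G j := by
  subst hj
  exact ⟨T, hT, hβ, h⟩

/-- a child far from `z` under a parent near `z`: the child distance of the centre of the parent is large -/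
theorem tg_far_dist {c : TCls k} {D : TDat c} (hD : D.Good) (i : ℕ) (hil : i < c.ℓ) (T' : D.Lb i × Lat k) (T : D.Lb (i + 1) × Lat k) (hT : T ∈ D.W (i + 1))
    (hp : D.par i T'.1 = T.1) (z : ST k) (h1 : D.near (i + 1) z T) (h2 : ¬ D.near i z T') : D.G i / 2 ≤ ‖D.X i T' (D.ctr (i + 1) T)‖ := by
  have hm : i < c.tr → ∃ S ∈ D.W c.tr, D.bin c.tr S.1 = D.bin i T'.1 ∧ ‖D.X c.tr S z‖ ≤ D.G c.tr := by
    intro hi
    have hb : D.bin (i + 1) T.1 = D.bin i T'.1 := by rw [← hp, hD.bin_par i (by omega)]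
    rcases Nat.lt_or_ge (i + 1) c.tr with h | h
    · obtain ⟨S, hS, e, hn⟩ := h1.2 h
      exact ⟨S, hS, e.trans hb, hn⟩
    · exact tg_mask_of_near i c.tr (by omega) T hT z h1.1 hb
  have hfar : D.G i < ‖D.X i T' z‖ := by
    by_contra hcon
    exact h2 ⟨not_lt.1 hcon, hm⟩
  have h3 := tg_child_parent hD i T' T hp z
  have h4 : (1 + 2 * c.Cc) * ‖D.X (i + 1) T z‖ ≤ D.G i / 2 := by
    have h5 := hD.G_step i hil
    have h6 : 0 ≤ 1 + 2 * c.Cc := by
      have a1 := (norm_nonneg _).trans (hD.par_near i T'.1)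
      have a2 : 0 < D.κ (i + 1) := by have := hD.one_le_κ (i + 1); linarith
      have a3 : 0 ≤ c.Cc := by
        rw [le_div_iff₀ a2, zero_mul] at a1
        exact a1
      linarith
    calc (1 + 2 * c.Cc) * ‖D.X (i + 1) T z‖ ≤ (1 + 2 * c.Cc) * D.G (i + 1) := mul_le_mul_of_nonneg_left h1.1 h6
      _ ≤ D.G i / 2 := by linarith
  have h7 : ‖D.X i T' z‖ ≤ ‖D.X i T' z - D.X i T' (D.ctr (i + 1) T)‖ + ‖D.X i T' (D.ctr (i + 1) T)‖ := by
    have := norm_add_le (D.X i T' z - D.X i T' (D.ctr (i + 1) T)) (D.X i T' (D.ctr (i + 1) T))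
    rwa [sub_add_cancel] at this
  linarith

/-- gain of the larger order at distance `≥ g` -/
theorem tg_gain {P Q g d : ℝ} (hPQ : P ≤ Q) (hg : 0 ≤ g) (hd : g ≤ d) : (1 + d) ^ (-Q) ≤ (1 + g) ^ (-(Q - P)) * (1 + d) ^ (-P) := by
  have h1 : (0 : ℝ) < 1 + d := by linarith
  have e : -Q = -(Q - P) + -P := by ring
  rw [e, Real.rpow_add h1]
  exact mul_le_mul_of_nonneg_right (Real.rpow_le_rpow_of_nonpos (by linarith) (by linarith) (by linarith)) (Real.rpow_nonneg h1.le _)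

theorem tg_far_edge {c : TCls k} {D : TDat c} (hD : D.Good) {P Q : ℝ} (hPQ : P ≤ Q) (i : ℕ) (hil : i < c.ℓ) (T' : D.Lb i × Lat k) (T : D.Lb (i + 1) × Lat k)
    (hT : T ∈ D.W (i + 1)) (z : ST k) (h1 : D.near (i + 1) z T) (h2 : ¬ D.near i z T') :
    D.edge Q i T' T ≤ (1 + D.G i / 2) ^ (-(Q - P)) * D.edge P i T' T := by
  unfold TDat.edge
  by_cases hp : D.par i T'.1 = T.1
  · rw [if_pos hp, if_pos hp]
    have := hD.one_le_G i hil.le
    exact tg_gain hPQ (by linarith) (tg_far_dist hD i hil T' T hT hp z h1 h2)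
  · rw [if_neg hp, if_neg hp, mul_zero]

theorem tg_far_root {c : TCls k} {D : TDat c} (hD : D.Good) {P Q : ℝ} (hPQ : P ≤ Q) {i : ℕ} (hil : i ≤ c.ℓ) (hi : ¬ i < c.tr) (T : D.Lb i × Lat k) (z : ST k)
    (h : ¬ D.near i z T) : D.ker Q i T z ≤ (1 + D.G i) ^ (-(Q - P)) * D.ker P i T z := by
  rw [tg_ker_ge D Q hi, tg_ker_ge D P hi]
  have hfar : D.G i < ‖D.X i T z‖ := by
    by_contra hcon
    exact h ⟨not_lt.1 hcon, fun h' => absurd h' hi⟩
  have := hD.one_le_G i hil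
  exact tg_gain hPQ (by linarith) hfar.le

end

end Claimed.Agent.R257.Tree
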