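import Claimed.Agent.R257.Tree.Cau
import Claimed.Agent.R257.Tree.GeoD

/-!
# ROW 257, unit INST, file 7: THE POSITIVE KERNELS AND THE REFERENCE WEIGHTS      (architect helper155)          CONTRACT

Fields `dom`, `sq_le`, `inc_le` of `TSys.Ok`, field `conv` of `TGeo.Ok`.   Paper: H `packets.tex` l.881-888, `frame.tex` l.540-560, l.812-826.   Every `sorry` is a leaf `L-257-TI-W*`.
-/

set_option autoImplicit false

namespace Claimed.Agent.R257.Tree

open Claimed.Agent.R257 Claimed.Agent.R257.FR2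
open scoped BigOperators Classical BoundedContinuousFunction

noncomputable section

variable {k : ℕ}

/-- **LEAF L-257-TI-W1: one-step convolution of the plain weights.**   PLAN: `ti_conv` with `K = κ (i+1)`, `K' = κ i`, `v = fr (i+1) (par T'.1)`, `t` = the lattice points of the cells of `W (i+1)` with that label
(`Finset.sum_coe_sort`, `Finset.sum_filter`, `Finset.sum_image`/`sum_bij` onto `t`); the summands with another label vanish (`TDat.edge`). -/
theorem ti_wA_conv {c : TCls k} (hc : c.Ok) {A : ℝ} (hA : (k : ℝ) + 2 < A) : ∃ C : ℝ, 1 ≤ C ∧ ∀ D : TDat c, D.Good → ∀ (i : ℕ) (T' : D.Lb i × Lat k) (z : ST k),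
    ∑ T : D.Cl (i + 1), D.edge A i T' T.1 * D.wA A (i + 1) T.1 z ≤ C * D.wA A i T' z := by
  obtain ⟨C, hC, H⟩ := tg_conv_wA k hA.le (by linarith [hc.one_le_Cc] : (0 : ℝ) ≤ c.Cc)
  refine ⟨C, hC, fun D hD i T' z => ?_⟩
  rw [Finset.sum_coe_sort (D.W (i + 1)) fun T => D.edge A i T' T * D.wA A (i + 1) T z]
  exact H c D rfl hD i T' z

/-- **LEAF L-257-TI-W2: the kernel inequality** (`TGeo.Ok.conv` for `A = Q`; `sq_le` uses `A = P`).
PLAN.  `tr ≤ i`: both kernels are plain: `ti_wA_conv`.   `i + 1 = tr`: EQUALITY (`ker A i T' z` is by definition the sum over `W tr`; `bin tr T.1 = bin i T'.1 ↔ par i T'.1 = T.1` by `hD.bin_par`, `hD.bin_inj`; handle `i + 1 = c.tr` through a lemma `∀ j, j = c.tr → …`, `subst`).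
`i + 1 < tr`: exchange the sums; for fixed `S`: `∑_T edge A i T' T * wA A (i+1) T (ctr S) ≤ C wA A i T' (ctr S)` (`ti_wA_conv` at the point `ctr S`); `bin (i+1) T.1 = bin i T'.1` when `edge ≠ 0`. -/
theorem ti_ker_conv {c : TCls k} (hc : c.Ok) {A : ℝ} (hA : (k : ℝ) + 2 < A) : ∃ C : ℝ, 1 ≤ C ∧ ∀ D : TDat c, D.Good → ∀ (i : ℕ) (T' : D.Lb i × Lat k) (z : ST k),
    ∑ T : D.Cl (i + 1), D.edge A i T' T.1 * D.ker A (i + 1) T.1 z ≤ C * D.ker A i T' z := by
  obtain ⟨C, hC, H⟩ := tg_conv_ker k hA.le (by linarith [hc.one_le_Cc] : (0 : ℝ) ≤ c.Cc)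
  refine ⟨C, hC, fun D hD i T' z => ?_⟩
  rw [Finset.sum_coe_sort (D.W (i + 1)) fun T => D.edge A i T' T * D.ker A (i + 1) T z]
  exact H c D rfl hD i T' z

/-- **LEAF L-257-TI-W3: the reference square function of order `P`.**   PLAN: induction on `i` with the constant `C₀^i ≤ C₀^ℓ`: `TDat.bb_succ_sq`, `Finset.sum_comm`, `ti_ker_conv` (`A = P`, `hc.P_gt`); `i = 0`: `hD.sq0` (`Finset.sum_coe_sort`). -/
theorem ti_sqP_le {c : TCls k} (hc : c.Ok) : ∃ C : ℝ, 1 ≤ C ∧ ∀ D : TDat c, D.Good → ∀ i, i ≤ c.ℓ → ∀ y,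
    ∑ T : D.Cl i, D.bb i T ^ 2 * D.ker c.P i T.1 (D.pt y) ≤ C * D.ϖ := by
  obtain ⟨C, hC, H⟩ := ti_ker_conv hc hc.P_gt
  refine ⟨C ^ c.ℓ, one_le_pow₀ hC, fun D hD i hi y => ?_⟩
  have hϖ : 0 ≤ D.ϖ := by linarith [hD.one_le_ϖ]
  have key : ∀ i, ∑ T : D.Cl i, D.bb i T ^ 2 * D.ker c.P i T.1 (D.pt y) ≤ C ^ i * D.ϖ := by
    intro i
    induction i with
    | zero =>
      rw [pow_zero, one_mul]
      have := hD.sq0 y
      rw [← Finset.sum_coe_sort (D.W 0) fun T => D.s0 T ^ 2 * D.ker c.P 0 T (D.pt y)] at this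
      exact this
    | succ i ih =>
      calc ∑ T : D.Cl (i + 1), D.bb (i + 1) T ^ 2 * D.ker c.P (i + 1) T.1 (D.pt y)
          = ∑ T : D.Cl (i + 1), ∑ T' : D.Cl i, D.bb i T' ^ 2 * (D.edge c.P i T'.1 T.1 * D.ker c.P (i + 1) T.1 (D.pt y)) := by
            refine Finset.sum_congr rfl fun T _ => ?_
            rw [D.bb_succ_sq, Finset.sum_mul]
            exact Finset.sum_congr rfl fun T' _ => by ring
        _ = ∑ T' : D.Cl i, D.bb i T' ^ 2 * ∑ T : D.Cl (i + 1), D.edge c.P i T'.1 T.1 * D.ker c.P (i + 1) T.1 (D.pt y) := by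
            rw [Finset.sum_comm]
            exact Finset.sum_congr rfl fun T' _ => by rw [Finset.mul_sum]
        _ ≤ ∑ T' : D.Cl i, D.bb i T' ^ 2 * (C * D.ker c.P i T'.1 (D.pt y)) :=
            Finset.sum_le_sum fun T' _ => mul_le_mul_of_nonneg_left (H D hD i T'.1 _) (sq_nonneg _)
        _ = C * ∑ T' : D.Cl i, D.bb i T' ^ 2 * D.ker c.P i T'.1 (D.pt y) := by
            rw [Finset.mul_sum]
            exact Finset.sum_congr rfl fun T' _ => by ring
        _ ≤ C * (C ^ i * D.ϖ) := mul_le_mul_of_nonneg_left ih (by linarith)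
        _ = C ^ (i + 1) * D.ϖ := by ring
  exact (key i).trans (mul_le_mul_of_nonneg_right (pow_le_pow_right₀ hC hi) hϖ)

/-- **LEAF L-257-TI-W4: the reference squares inside one bin** (heights `≤ tr`).   PLAN: induction on `i`: `TDat.bb_succ_sq`, `ti_wA_conv` (`A = P`), `hD.bin_par`. -/
theorem ti_bin_sq {c : TCls k} (hc : c.Ok) : ∃ C : ℝ, 1 ≤ C ∧ ∀ D : TDat c, D.Good → ∀ i, i ≤ c.tr → ∀ (β : D.Bin) (z : ST k),
    ∑ T : D.Cl i, (if D.bin i T.1.1 = β then D.bb i T ^ 2 * D.wA c.P i T.1 z else 0) ≤ C * D.eb β z := by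
  obtain ⟨C, hC, H⟩ := ti_wA_conv hc hc.P_gt
  refine ⟨C ^ c.tr, one_le_pow₀ hC, fun D hD i hi β z => ?_⟩
  have heb : 0 ≤ D.eb β z := by
    unfold TDat.eb
    refine Finset.sum_nonneg fun T _ => ?_
    split_ifs
    exacts [mul_nonneg (sq_nonneg _) (D.wA_pos _ _ _ _).le, le_rfl]
  have key : ∀ i, i ≤ c.tr → ∑ T : D.Cl i, (if D.bin i T.1.1 = β then D.bb i T ^ 2 * D.wA c.P i T.1 z else 0) ≤ C ^ i * D.eb β z := by
    intro i
    induction i with
    | zero =>
      intro _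
      rw [pow_zero, one_mul]
      unfold TDat.eb
      rw [← Finset.sum_coe_sort (D.W 0) fun T => if D.bin 0 T.1 = β then D.s0 T ^ 2 * D.wA c.P 0 T z else 0]
      exact le_rfl
    | succ i ih =>
      intro hi
      calc ∑ T : D.Cl (i + 1), (if D.bin (i + 1) T.1.1 = β then D.bb (i + 1) T ^ 2 * D.wA c.P (i + 1) T.1 z else 0)
          = ∑ T : D.Cl (i + 1), ∑ T' : D.Cl i, (if D.bin i T'.1.1 = β then D.bb i T' ^ 2 * (D.edge c.P i T'.1 T.1 * D.wA c.P (i + 1) T.1 z) else 0) := by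
            refine Finset.sum_congr rfl fun T _ => ?_
            rw [D.bb_succ_sq, Finset.sum_mul]
            by_cases hb : D.bin (i + 1) T.1.1 = β
            · rw [if_pos hb]
              refine Finset.sum_congr rfl fun T' _ => ?_
              by_cases hp : D.par i T'.1.1 = T.1.1
              · rw [if_pos (by rw [← hD.bin_par i hi, hp, hb])]
                ring
              · have he : D.edge c.P i T'.1 T.1 = 0 := by unfold TDat.edge; rw [if_neg hp]
                rw [he]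
                simp
            · rw [if_neg hb]
              symm
              refine Finset.sum_eq_zero fun T' _ => ?_
              by_cases hp : D.par i T'.1.1 = T.1.1
              · rw [if_neg (fun e => hb (by rw [← hp, hD.bin_par i hi, e]))]
              · have he : D.edge c.P i T'.1 T.1 = 0 := by unfold TDat.edge; rw [if_neg hp]
                rw [he]
                simp
        _ = ∑ T' : D.Cl i, (if D.bin i T'.1.1 = β then D.bb i T' ^ 2 * ∑ T : D.Cl (i + 1), D.edge c.P i T'.1 T.1 * D.wA c.P (i + 1) T.1 z else 0) := by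
            rw [Finset.sum_comm]
            refine Finset.sum_congr rfl fun T' _ => ?_
            split_ifs
            · rw [Finset.mul_sum]
            · simp
        _ ≤ ∑ T' : D.Cl i, (if D.bin i T'.1.1 = β then D.bb i T' ^ 2 * (C * D.wA c.P i T'.1 z) else 0) := by
            refine Finset.sum_le_sum fun T' _ => ?_
            split_ifs
            · exact mul_le_mul_of_nonneg_left (H D hD i T'.1 _) (sq_nonneg _)
            · exact le_rfl
        _ = C * ∑ T' : D.Cl i, (if D.bin i T'.1.1 = β then D.bb i T' ^ 2 * D.wA c.P i T'.1 z else 0) := by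
            rw [Finset.mul_sum]
            refine Finset.sum_congr rfl fun T' _ => ?_
            split_ifs
            · ring
            · simp
        _ ≤ C * (C ^ i * D.eb β z) := mul_le_mul_of_nonneg_left (ih (by omega)) (by linarith)
        _ = C ^ (i + 1) * D.eb β z := by ring
  exact (key i hi).trans (mul_le_mul_of_nonneg_right (pow_le_pow_right₀ hC hi) heb)

/-- **LEAF L-257-TI-W5: eligibility** (H l.893-897): near a retained mask the bin envelope is `≤ C (1 + d)^P M_c`.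
PLAN: termwise `wA P 0 γ z ≤ (1 + 2 ℓ Cc)^P (1 + ‖X tr S z‖)^P wA P 0 γ (ctr S)` (`ti_pw_peetre` with the constant `ℓ Cc`, `ti_bin_near`, `TDat.X_ctr`, `κ tr ≤ κ 0`), then `hD.ret`. -/
theorem ti_eb_near {c : TCls k} (hc : c.Ok) (D : TDat c) (hD : D.Good) (S : D.Lb c.tr × Lat k) (hS : S ∈ D.W c.tr) (z : ST k) :
    D.eb (D.bin c.tr S.1) z ≤ (1 + 2 * (c.ℓ * c.Cc)) ^ c.P * (1 + ‖D.X c.tr S z‖) ^ c.P * D.Mc := by
  have hk : (0 : ℝ) ≤ k := Nat.cast_nonneg k
  have hP0 : 0 ≤ c.P := by linarith [hc.P_gt]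
  have hCc : 0 ≤ (c.ℓ : ℝ) * c.Cc := mul_nonneg (Nat.cast_nonneg _) (by linarith [hc.one_le_Cc])
  have hκ : 0 < D.κ c.tr := by linarith [hD.one_le_κ c.tr]
  have hκκ : D.κ c.tr ≤ D.κ 0 := by
    have : ∀ j, D.κ j ≤ D.κ 0 := by
      intro j
      induction j with
      | zero => exact le_rfl
      | succ j ih => exact (hD.κ_anti j).trans ih
    exact this _
  set R : ℝ := (1 + 2 * (c.ℓ * c.Cc)) ^ c.P * (1 + ‖D.X c.tr S z‖) ^ c.P with hR
  have hR0 : 0 ≤ R := mul_nonneg (Real.rpow_nonneg (by positivity) _) (Real.rpow_nonneg (by positivity) _)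
  have h1 : D.eb (D.bin c.tr S.1) z ≤ R * D.eb (D.bin c.tr S.1) (D.ctr c.tr S) := by
    unfold TDat.eb
    rw [Finset.mul_sum]
    refine Finset.sum_le_sum fun γ _ => ?_
    split_ifs with hb
    · have h2 := ti_pw_peetre hκ hκκ hCc hP0 (ti_bin_near hc D hD 0 (Nat.zero_le _) γ.1 S.1 hb.symm) (lat γ.2) (D.ctr c.tr S) z
      have h3 : natX (D.κ c.tr) (D.fr c.tr S.1) (D.ctr c.tr S) - natX (D.κ c.tr) (D.fr c.tr S.1) z = -D.X c.tr S z := by
        unfold TDat.X TDat.ctr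
        rw [natX_natI hκ.ne']
        abel
      rw [h3, norm_neg] at h2
      calc D.s0 γ ^ 2 * D.wA c.P 0 γ z ≤ D.s0 γ ^ 2 * (R * D.wA c.P 0 γ (D.ctr c.tr S)) := mul_le_mul_of_nonneg_left h2 (sq_nonneg _)
        _ = _ := by ring
    · rw [mul_zero]
  exact h1.trans (mul_le_mul_of_nonneg_left (hD.ret S hS) hR0)

/-- **LEAF L-257-TI-W6: the reference squares of the cells incident to a witness** (field `inc_le`).
PLAN.  `near` gives `1 ≤ (1 + G i)^P wA P i T z`, `G i ≤ G 0` (`hD.G_step`, `hD.one_le_G`), `1 + G ≤ 2 G`.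
`tr ≤ i`: `ker P i = wA P i`, `ti_sqP_le`.
`i < tr`: group by the bins `β = bin tr v`, `v : Lb tr` (every `T` with `near` has such a bin, with a retained mask `S`, `‖X tr S z‖ ≤ G tr`); `ti_bin_sq`; `ti_eb_near`: `eb β z ≤ Me := C (1 + G tr)^P M_c`, so `eb β z = min (eb β z) Me ≤ (Me / M_c) min (eb β z) M_c` (`Me ≥ M_c`); `hD.clip`. -/
theorem ti_inc_le {c : TCls k} (hc : c.Ok) : ∃ C : ℝ, 1 ≤ C ∧ ∀ D : TDat c, D.Good → ∀ i, i ≤ c.ℓ → ∀ y,
    ∑ T : D.Cl i, (if D.near i (D.pt y) T.1 then D.bb i T ^ 2 else 0) ≤ C * D.G 0 ^ (2 * c.P) * D.ϖ := by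
  have hk : (0 : ℝ) ≤ k := Nat.cast_nonneg k
  have hP0 : 0 ≤ c.P := by linarith [hc.P_gt]
  have hCc : 0 ≤ (c.ℓ : ℝ) * c.Cc := mul_nonneg (Nat.cast_nonneg _) (by linarith [hc.one_le_Cc])
  obtain ⟨C₃, hC₃, H₃⟩ := ti_sqP_le hc
  obtain ⟨C₄, hC₄, H₄⟩ := ti_bin_sq hc
  set L : ℝ := (1 + 2 * (c.ℓ * c.Cc)) ^ c.P with hL
  have hL1 : 1 ≤ L := Real.one_le_rpow (by linarith) hP0
  have h2P : (1 : ℝ) ≤ 2 ^ c.P := Real.one_le_rpow (by norm_num) hP0
  refine ⟨2 ^ c.P * C₃ + 2 ^ c.P * 2 ^ c.P * C₄ * L, by nlinarith [mul_nonneg (mul_nonneg (mul_nonneg (by linarith : (0:ℝ) ≤ 2 ^ c.P) (by linarith : (0:ℝ) ≤ 2 ^ c.P)) (by linarith : (0:ℝ) ≤ C₄)) (by linarith : (0:ℝ) ≤ L)], fun D hD i hi y => ?_⟩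
  set z := D.pt y with hz
  have hϖ : 0 ≤ D.ϖ := by linarith [hD.one_le_ϖ]
  have hG0 : 1 ≤ D.G 0 := hD.one_le_G 0 (Nat.zero_le _)
  have hGle : ∀ j, j ≤ c.ℓ → D.G j ≤ D.G 0 := by
    intro j
    induction j with
    | zero => intro _; exact le_rfl
    | succ j ih =>
      intro hj
      have h1 := hD.G_step j (by omega)
      have h2 := hD.one_le_G (j + 1) hj
      have h3 := hc.one_le_Cc
      have h4 : D.G (j + 1) ≤ 2 * (1 + 2 * c.Cc) * D.G (j + 1) := by nlinarith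
      exact (h4.trans h1).trans (ih (by omega))
  have hGP : ∀ j, j ≤ c.ℓ → (1 + D.G j) ^ c.P ≤ 2 ^ c.P * D.G 0 ^ c.P := by
    intro j hj
    rw [← Real.mul_rpow (by norm_num) (by linarith)]
    exact Real.rpow_le_rpow (by linarith [hD.one_le_G j hj]) (by linarith [hD.one_le_G j hj, hGle j hj]) hP0
  have hGPP : D.G 0 ^ (2 * c.P) = D.G 0 ^ c.P * D.G 0 ^ c.P := by
    rw [← Real.rpow_add (by linarith)]
    congr 1
    ring
  have hG1 : 1 ≤ D.G 0 ^ c.P := Real.one_le_rpow hG0 hP0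
  -- the weight is large on the incident cells
  have hnear : ∀ T : D.Cl i, (if D.near i z T.1 then D.bb i T ^ 2 else 0)
      ≤ (1 + D.G i) ^ c.P * (if D.near i z T.1 then D.bb i T ^ 2 * D.wA c.P i T.1 z else 0) := by
    intro T
    split_ifs with hn
    · have h1 : (1 + D.G i) ^ (-c.P) ≤ D.wA c.P i T.1 z :=
        Real.rpow_le_rpow_of_nonpos (by positivity) (by linarith [hn.1]) (by linarith)
      have h2 : (1 + D.G i) ^ c.P * (1 + D.G i) ^ (-c.P) = 1 := by
        rw [← Real.rpow_add (by linarith [hD.one_le_G i hi]), add_neg_cancel, Real.rpow_zero]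
      have h3 : 0 ≤ (1 + D.G i) ^ c.P := Real.rpow_nonneg (by linarith [hD.one_le_G i hi]) _
      calc D.bb i T ^ 2 = D.bb i T ^ 2 * ((1 + D.G i) ^ c.P * (1 + D.G i) ^ (-c.P)) := by rw [h2, mul_one]
        _ ≤ D.bb i T ^ 2 * ((1 + D.G i) ^ c.P * D.wA c.P i T.1 z) :=
            mul_le_mul_of_nonneg_left (mul_le_mul_of_nonneg_left h1 h3) (sq_nonneg _)
        _ = _ := by ring
    · rw [mul_zero]
  have hstep : ∑ T : D.Cl i, (if D.near i z T.1 then D.bb i T ^ 2 else 0)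
      ≤ (1 + D.G i) ^ c.P * ∑ T : D.Cl i, (if D.near i z T.1 then D.bb i T ^ 2 * D.wA c.P i T.1 z else 0) := by
    rw [Finset.mul_sum]
    exact Finset.sum_le_sum fun T _ => hnear T
  have hGi0 : 0 ≤ (1 + D.G i) ^ c.P := Real.rpow_nonneg (by linarith [hD.one_le_G i hi]) _
  refine hstep.trans ?_
  by_cases htr : i < c.tr
  · -- below the transition height
    have heb0 : ∀ β, 0 ≤ D.eb β z := by
      intro β
      unfold TDat.eb
      refine Finset.sum_nonneg fun T _ => ?_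
      split_ifs
      exacts [mul_nonneg (sq_nonneg _) (D.wA_pos _ _ _ _).le, le_rfl]
    set V : Finset (D.Lb c.tr) := Finset.univ.filter fun v => ∃ S ∈ D.W c.tr, S.1 = v ∧ ‖D.X c.tr S z‖ ≤ D.G c.tr with hV
    set R : ℝ := L * (1 + D.G c.tr) ^ c.P with hR
    have hGtr1 : 1 ≤ (1 + D.G c.tr) ^ c.P := Real.one_le_rpow (by linarith [hD.one_le_G c.tr hc.tr_le]) hP0
    have hR1 : 1 ≤ R := by nlinarith
    have h1 : ∑ T : D.Cl i, (if D.near i z T.1 then D.bb i T ^ 2 * D.wA c.P i T.1 z else 0)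
        ≤ ∑ T : D.Cl i, ∑ v ∈ V, (if D.bin i T.1.1 = D.bin c.tr v then D.bb i T ^ 2 * D.wA c.P i T.1 z else 0) := by
      refine Finset.sum_le_sum fun T _ => ?_
      have hnn : ∀ v ∈ V, 0 ≤ (if D.bin i T.1.1 = D.bin c.tr v then D.bb i T ^ 2 * D.wA c.P i T.1 z else 0) := by
        intro v _
        split_ifs
        exacts [mul_nonneg (sq_nonneg _) (D.wA_pos _ _ _ _).le, le_rfl]
      split_ifs with hn
      · obtain ⟨S, hS, hb, hd⟩ := hn.2 htr
        have hv : S.1 ∈ V := Finset.mem_filter.2 ⟨Finset.mem_univ _, S, hS, rfl, hd⟩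
        refine le_trans (le_of_eq ?_) (Finset.single_le_sum hnn hv)
        rw [if_pos hb.symm]
      · exact Finset.sum_nonneg hnn
    have h2 : ∀ v ∈ V, D.eb (D.bin c.tr v) z ≤ R * min (D.eb (D.bin c.tr v) z) D.Mc := by
      intro v hv
      obtain ⟨S, hS, rfl, hd⟩ := (Finset.mem_filter.1 hv).2
      have h3 := ti_eb_near hc D hD S hS z
      have h4 : (1 + ‖D.X c.tr S z‖) ^ c.P ≤ (1 + D.G c.tr) ^ c.P := Real.rpow_le_rpow (by positivity) (by linarith) hP0
      have h5 : D.eb (D.bin c.tr S.1) z ≤ R * D.Mc := by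
        refine h3.trans (mul_le_mul_of_nonneg_right ?_ hD.Mc_pos.le)
        exact mul_le_mul_of_nonneg_left h4 (by linarith)
      rcases le_total (D.eb (D.bin c.tr S.1) z) D.Mc with h | h
      · rw [min_eq_left h]
        nlinarith [heb0 (D.bin c.tr S.1)]
      · rw [min_eq_right h]
        exact h5
    have h3 : ∑ T : D.Cl i, (if D.near i z T.1 then D.bb i T ^ 2 * D.wA c.P i T.1 z else 0) ≤ C₄ * (R * D.ϖ) := by
      calc ∑ T : D.Cl i, (if D.near i z T.1 then D.bb i T ^ 2 * D.wA c.P i T.1 z else 0)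
          ≤ ∑ v ∈ V, ∑ T : D.Cl i, (if D.bin i T.1.1 = D.bin c.tr v then D.bb i T ^ 2 * D.wA c.P i T.1 z else 0) := by
            rw [Finset.sum_comm]; exact h1
        _ ≤ ∑ v ∈ V, C₄ * D.eb (D.bin c.tr v) z := Finset.sum_le_sum fun v _ => H₄ D hD i htr.le _ z
        _ ≤ ∑ v ∈ V, C₄ * (R * min (D.eb (D.bin c.tr v) z) D.Mc) :=
            Finset.sum_le_sum fun v hv => mul_le_mul_of_nonneg_left (h2 v hv) (by linarith)
        _ = C₄ * (R * ∑ v ∈ V, min (D.eb (D.bin c.tr v) z) D.Mc) := by rw [Finset.mul_sum, Finset.mul_sum]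
        _ ≤ C₄ * (R * ∑ v : D.Lb c.tr, min (D.eb (D.bin c.tr v) z) D.Mc) := by
            refine mul_le_mul_of_nonneg_left (mul_le_mul_of_nonneg_left ?_ (by linarith)) (by linarith)
            exact Finset.sum_le_sum_of_subset_of_nonneg (Finset.subset_univ _) fun v _ _ => le_min (heb0 _) hD.Mc_pos.le
        _ ≤ C₄ * (R * D.ϖ) := mul_le_mul_of_nonneg_left (mul_le_mul_of_nonneg_left (hD.clip y) (by linarith)) (by linarith)
    have a1 := hGP i hi
    have a2 := hGP c.tr hc.tr_le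
    have hg : 0 ≤ D.G 0 ^ c.P := by linarith
    calc (1 + D.G i) ^ c.P * ∑ T : D.Cl i, (if D.near i z T.1 then D.bb i T ^ 2 * D.wA c.P i T.1 z else 0)
        ≤ (2 ^ c.P * D.G 0 ^ c.P) * (C₄ * (L * (2 ^ c.P * D.G 0 ^ c.P) * D.ϖ)) := by
          refine mul_le_mul a1 (h3.trans ?_) (Finset.sum_nonneg fun T _ => ?_) (by positivity)
          · refine mul_le_mul_of_nonneg_left (mul_le_mul_of_nonneg_right ?_ hϖ) (by linarith)
            exact mul_le_mul_of_nonneg_left a2 (by linarith)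
          · split_ifs
            exacts [mul_nonneg (sq_nonneg _) (D.wA_pos _ _ _ _).le, le_rfl]
      _ = (2 ^ c.P * 2 ^ c.P * C₄ * L) * D.G 0 ^ (2 * c.P) * D.ϖ := by rw [hGPP]; ring
      _ ≤ _ := by
          refine mul_le_mul_of_nonneg_right (mul_le_mul_of_nonneg_right ?_ (by rw [hGPP]; positivity)) hϖ
          nlinarith
  · -- above
    have h1 : ∑ T : D.Cl i, (if D.near i z T.1 then D.bb i T ^ 2 * D.wA c.P i T.1 z else 0) ≤ C₃ * D.ϖ := by
      refine le_trans (Finset.sum_le_sum fun T _ => ?_) (H₃ D hD i hi y)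
      rw [tg_ker_ge D c.P htr]
      split_ifs
      exacts [le_rfl, mul_nonneg (sq_nonneg _) (D.wA_pos _ _ _ _).le]
    have a1 := hGP i hi
    have hg : 0 ≤ D.G 0 ^ c.P := by linarith
    calc (1 + D.G i) ^ c.P * ∑ T : D.Cl i, (if D.near i z T.1 then D.bb i T ^ 2 * D.wA c.P i T.1 z else 0)
        ≤ (2 ^ c.P * D.G 0 ^ c.P) * (C₃ * D.ϖ) := by
          refine mul_le_mul a1 h1 (Finset.sum_nonneg fun T _ => ?_) (by positivity)
          split_ifs
          exacts [mul_nonneg (sq_nonneg _) (D.wA_pos _ _ _ _).le, le_rfl]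
      _ = (2 ^ c.P * C₃) * D.G 0 ^ c.P * D.ϖ := by ring
      _ ≤ (2 ^ c.P * C₃ + 2 ^ c.P * 2 ^ c.P * C₄ * L) * D.G 0 ^ (2 * c.P) * D.ϖ := by
          refine mul_le_mul_of_nonneg_right ?_ hϖ
          have b1 : D.G 0 ^ c.P ≤ D.G 0 ^ (2 * c.P) := by rw [hGPP]; nlinarith
          have b2 : 0 ≤ 2 ^ c.P * 2 ^ c.P * C₄ * L := by positivity
          exact mul_le_mul (by linarith) b1 hg (by positivity)

end

end Claimed.Agent.R257.Tree
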