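import Mathlib

/-!
# ROW 257, unit INST, post ROOT: the abstract ratio-class argument (near-Cauchy count + absolute Cauchy ⇒ weighted root count)      (helper238)
Paper-free, Mathlib only.  Prefix `tg_rs_`.
-/

set_option autoImplicit false

namespace Claimed.Agent.R257.Tree

open scoped BigOperators Classical

noncomputable section

/-- telescoping over a decreasing chain of finite sets -/
theorem tg_rs_tele {ι M : Type} [AddCommMonoid M] (U : ℕ → Finset ι) (hU : ∀ j, U (j + 1) ⊆ U j) (f : ι → M) (J : ℕ) :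
    ∑ T ∈ U 0, f T = ∑ j ∈ Finset.range J, ∑ T ∈ U j \ U (j + 1), f T + ∑ T ∈ U J, f T := by
  induction J with
  | zero => simp
  | succ J ih => rw [ih, Finset.sum_range_succ, add_assoc, Finset.sum_sdiff (hU J)]

/-- the number of dyadic classes -/
theorem tg_rs_J {s : ℝ} (hs : 0 < s) : ∃ c : ℝ, 1 ≤ c ∧ ∀ X : ℝ, 1 ≤ X → ∃ J : ℕ, 0 < J ∧ X ≤ 2 ^ J ∧ (J : ℝ) ≤ c * X ^ s := by
  have hl2 : 0 < Real.log 2 := Real.log_pos (by norm_num)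
  refine ⟨1 / (s * Real.log 2) + 2, by have : 0 < 1 / (s * Real.log 2) := by positivity
                                       linarith, fun X hX => ?_⟩
  have hX0 : 0 < X := by linarith
  refine ⟨⌈Real.logb 2 X⌉₊ + 1, Nat.succ_pos _, ?_, ?_⟩
  · calc X = (2 : ℝ) ^ Real.logb 2 X := (Real.rpow_logb (by norm_num) (by norm_num) hX0).symm
      _ ≤ (2 : ℝ) ^ ((⌈Real.logb 2 X⌉₊ + 1 : ℕ) : ℝ) := by
          refine Real.rpow_le_rpow_of_exponent_le (by norm_num) ?_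
          push_cast
          linarith [Nat.le_ceil (Real.logb 2 X)]
      _ = 2 ^ (⌈Real.logb 2 X⌉₊ + 1) := Real.rpow_natCast _ _
  · have h0 : 0 ≤ Real.logb 2 X := Real.logb_nonneg (by norm_num) hX
    have h1 : (⌈Real.logb 2 X⌉₊ : ℝ) < Real.logb 2 X + 1 := Nat.ceil_lt_add_one h0
    have h2 : Real.log X ≤ X ^ s / s := Real.log_le_rpow_div hX0.le hs
    have h3 : Real.logb 2 X ≤ 1 / (s * Real.log 2) * X ^ s := by
      unfold Real.logb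
      rw [div_le_iff₀ hl2]
      calc Real.log X ≤ X ^ s / s := h2
        _ = 1 / (s * Real.log 2) * X ^ s * Real.log 2 := by field_simp
    have h4 : 1 ≤ X ^ s := Real.one_le_rpow hX hs.le
    push_cast
    nlinarith

/-- one ratio class -/
theorem tg_rs_class {ι Y : Type} {q ε' Cn C₁ : ℝ} (hq : 2 < q) (hε' : 0 < ε') (hCn : 0 ≤ Cn) (hC₁ : 1 ≤ C₁)
    (f : ι → Y → ℂ) (w : ι → Y → ℝ) (a b : ι → ℝ) {Nk : ℝ} (hNk : 0 < Nk) (hw : ∀ T y, 0 ≤ w T y) (ha : ∀ T, 0 ≤ a T) (hb : ∀ T, 0 ≤ b T)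
    (NC : ∀ (S : Finset ι) (Y'' : Finset Y) (σ R : ℝ), 0 < σ → 1 ≤ R → (∀ y ∈ Y'', ∑ T ∈ S, a T ^ 2 * w T y ≤ σ ^ 2 ∧ σ * Nk / R ≤ ‖∑ T ∈ S, f T y‖) →
      (Y''.card : ℝ) ≤ Cn * R ^ (q + ε') * (∑ T ∈ S, a T ^ 2) / σ ^ 2)
    (AC : ∀ (S : Finset ι) (y : Y), ‖∑ T ∈ S, f T y‖ ^ 2 ≤ C₁ * Nk ^ 2 * ∑ T ∈ S, a T ^ 2 * w T y)
    (S : Finset ι) (Y'' : Finset Y) {r s t B : ℝ} (hr : 0 < r) (hs : 0 < s) (ht : 0 < t)
    (hS : ∀ T ∈ S, a T ≤ r * b T ∧ r / 2 * b T < a T)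
    (hsq : ∀ y ∈ Y'', ∑ T ∈ S, b T ^ 2 * w T y ≤ s ^ 2)
    (hV : ∀ y ∈ Y'', t ≤ ‖∑ T ∈ S, f T y‖)
    (hB : r * s * Nk ≤ B * t) :
    (Y''.card : ℝ) ≤ Cn * (C₁ * B) ^ ε' * (C₁ * Nk / t) ^ q * s ^ (q - 2) * 2 ^ (q - 2) * ∑ T ∈ S, a T ^ q * b T ^ (2 - q) := by
  have hC₁0 : 0 < C₁ := by linarith
  have hB0 : 0 < B := by
    have : 0 < r * s * Nk := by positivity
    by_contra h
    rw [not_lt] at h
    nlinarith
  have hh : ∀ T ∈ S, 0 ≤ a T ^ q * b T ^ (2 - q) := fun T _ => mul_nonneg (Real.rpow_nonneg (ha T) _) (Real.rpow_nonneg (hb T) _)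
  have hrhs : 0 ≤ Cn * (C₁ * B) ^ ε' * (C₁ * Nk / t) ^ q * s ^ (q - 2) * 2 ^ (q - 2) * ∑ T ∈ S, a T ^ q * b T ^ (2 - q) := by
    have := Finset.sum_nonneg hh
    positivity
  rcases Y''.eq_empty_or_nonempty with he | ⟨y₀, hy₀⟩
  · rw [he]; simpa using hrhs
  set σ : ℝ := r * s with hσ
  have hσ0 : 0 < σ := by positivity
  have hsqa : ∀ y ∈ Y'', ∑ T ∈ S, a T ^ 2 * w T y ≤ σ ^ 2 := by
    intro y hy
    calc ∑ T ∈ S, a T ^ 2 * w T y ≤ ∑ T ∈ S, r ^ 2 * (b T ^ 2 * w T y) := by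
          refine Finset.sum_le_sum fun T hT => ?_
          have h1 : a T ^ 2 ≤ (r * b T) ^ 2 := pow_le_pow_left₀ (ha T) (hS T hT).1 2
          calc a T ^ 2 * w T y ≤ (r * b T) ^ 2 * w T y := mul_le_mul_of_nonneg_right h1 (hw T y)
            _ = _ := by ring
      _ = r ^ 2 * ∑ T ∈ S, b T ^ 2 * w T y := by rw [Finset.mul_sum]
      _ ≤ r ^ 2 * s ^ 2 := mul_le_mul_of_nonneg_left (hsq y hy) (by positivity)
      _ = σ ^ 2 := by rw [hσ]; ring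
  set E : ℝ := C₁ * Nk / t with hE
  have hE0 : 0 < E := by positivity
  set R : ℝ := E * σ with hR
  have hR0 : 0 < R := by positivity
  have hR1 : 1 ≤ R := by
    have h1 : t ^ 2 ≤ (C₁ * Nk * σ) ^ 2 := by
      calc t ^ 2 ≤ ‖∑ T ∈ S, f T y₀‖ ^ 2 := pow_le_pow_left₀ ht.le (hV y₀ hy₀) 2
        _ ≤ C₁ * Nk ^ 2 * ∑ T ∈ S, a T ^ 2 * w T y₀ := AC S y₀
        _ ≤ C₁ * Nk ^ 2 * σ ^ 2 := mul_le_mul_of_nonneg_left (hsqa y₀ hy₀) (by positivity)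
        _ ≤ C₁ ^ 2 * Nk ^ 2 * σ ^ 2 := by
            have : C₁ ≤ C₁ ^ 2 := by nlinarith
            have h2 : 0 ≤ Nk ^ 2 * σ ^ 2 := by positivity
            nlinarith
        _ = _ := by ring
    have h2 : t ≤ C₁ * Nk * σ := (pow_le_pow_iff_left₀ ht.le (by positivity) (by norm_num)).1 h1
    rw [hR, hE, div_mul_eq_mul_div, le_div_iff₀ ht]
    linarith
  have hRB : R ≤ C₁ * B := by
    rw [hR, hE, div_mul_eq_mul_div, div_le_iff₀ ht]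
    calc C₁ * Nk * σ = C₁ * (r * s * Nk) := by rw [hσ]; ring
      _ ≤ C₁ * (B * t) := mul_le_mul_of_nonneg_left hB hC₁0.le
      _ = _ := by ring
  have key := NC S Y'' σ R hσ0 hR1 fun y hy => ⟨hsqa y hy, by
    refine le_trans ?_ (hV y hy)
    rw [hR, hE, div_le_iff₀ hR0]
    have : t * (C₁ * Nk / t * σ) = C₁ * (σ * Nk) := by field_simp
    rw [this]
    have : 0 < σ * Nk := by positivity
    nlinarith⟩
  have e1 : R ^ (q + ε') = R ^ ε' * (E ^ q * (σ ^ (q - 2) * σ ^ 2)) := by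
    rw [Real.rpow_add hR0, mul_comm]
    congr 1
    rw [hR, Real.mul_rpow hE0.le hσ0.le]
    congr 1
    rw [← Real.rpow_natCast σ 2, ← Real.rpow_add hσ0]
    congr 1
    push_cast
    ring
  have e2 : σ ^ (q - 2) = r ^ (q - 2) * s ^ (q - 2) := by rw [hσ, Real.mul_rpow hr.le hs.le]
  have h3 : R ^ ε' ≤ (C₁ * B) ^ ε' := Real.rpow_le_rpow hR0.le hRB hε'.le
  have h4 : r ^ (q - 2) * ∑ T ∈ S, a T ^ 2 ≤ 2 ^ (q - 2) * ∑ T ∈ S, a T ^ q * b T ^ (2 - q) := by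
    rw [Finset.mul_sum, Finset.mul_sum]
    refine Finset.sum_le_sum fun T hT => ?_
    obtain ⟨g1, g2⟩ := hS T hT
    have hbT : 0 < b T := by
      rcases (hb T).eq_or_lt with h0 | h0
      · rw [← h0] at g1 g2
        linarith
      · exact h0
    have haT : 0 < a T := lt_of_le_of_lt (by positivity) g2
    have h5 : r ≤ 2 * a T / b T := by
      rw [le_div_iff₀ hbT]
      linarith
    have h6 : r ^ (q - 2) ≤ (2 * a T / b T) ^ (q - 2) := Real.rpow_le_rpow hr.le h5 (by linarith)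
    have h7 : (2 * a T / b T) ^ (q - 2) * a T ^ 2 = 2 ^ (q - 2) * (a T ^ q * b T ^ (2 - q)) := by
      rw [Real.div_rpow (by positivity) hbT.le, Real.mul_rpow (by norm_num) haT.le]
      have e3 : b T ^ (2 - q) = (b T ^ (q - 2))⁻¹ := by rw [← Real.rpow_neg hbT.le]; congr 1; ring
      have e4 : a T ^ q = a T ^ (q - 2) * a T ^ 2 := by
        rw [← Real.rpow_natCast (a T) 2, ← Real.rpow_add haT]
        congr 1
        push_cast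
        ring
      rw [e3, e4]
      field_simp
    calc r ^ (q - 2) * a T ^ 2 ≤ (2 * a T / b T) ^ (q - 2) * a T ^ 2 := mul_le_mul_of_nonneg_right h6 (by positivity)
      _ = _ := h7
  have hEq : 0 ≤ E ^ q := Real.rpow_nonneg hE0.le _
  have hsq2 : 0 ≤ s ^ (q - 2) := Real.rpow_nonneg hs.le _
  have hsa : 0 ≤ ∑ T ∈ S, a T ^ 2 := Finset.sum_nonneg fun T _ => sq_nonneg _
  calc (Y''.card : ℝ) ≤ Cn * R ^ (q + ε') * (∑ T ∈ S, a T ^ 2) / σ ^ 2 := key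
    _ = Cn * R ^ ε' * E ^ q * s ^ (q - 2) * (r ^ (q - 2) * ∑ T ∈ S, a T ^ 2) := by
        rw [e1, e2]
        field_simp
    _ ≤ Cn * (C₁ * B) ^ ε' * E ^ q * s ^ (q - 2) * (r ^ (q - 2) * ∑ T ∈ S, a T ^ 2) := by
        have : 0 ≤ r ^ (q - 2) := Real.rpow_nonneg hr.le _
        gcongr
    _ ≤ Cn * (C₁ * B) ^ ε' * E ^ q * s ^ (q - 2) * (2 ^ (q - 2) * ∑ T ∈ S, a T ^ q * b T ^ (2 - q)) := by
        have : 0 ≤ (C₁ * B) ^ ε' := Real.rpow_nonneg (by positivity) _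
        exact mul_le_mul_of_nonneg_left h4 (by positivity)
    _ = _ := by ring

/-- **the ratio-class argument** -/
theorem tg_rs_main {q ε' Cn C₁ : ℝ} (hq : 2 < q) (hε' : 0 < ε') (hCn : 1 ≤ Cn) (hC₁ : 1 ≤ C₁) :
    ∃ C : ℝ, 1 ≤ C ∧ ∀ (ι Y : Type) [Fintype ι] (f : ι → Y → ℂ) (w : ι → Y → ℝ) (a b : ι → ℝ) (Nk : ℝ), 0 < Nk → (∀ T y, 0 ≤ w T y) → (∀ T, 0 ≤ a T) → (∀ T, 0 ≤ b T) →
      (∀ (S : Finset ι) (Y'' : Finset Y) (σ R : ℝ), 0 < σ → 1 ≤ R → (∀ y ∈ Y'', ∑ T ∈ S, a T ^ 2 * w T y ≤ σ ^ 2 ∧ σ * Nk / R ≤ ‖∑ T ∈ S, f T y‖) →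
        (Y''.card : ℝ) ≤ Cn * R ^ (q + ε') * (∑ T ∈ S, a T ^ 2) / σ ^ 2) →
      (∀ (S : Finset ι) (y : Y), ‖∑ T ∈ S, f T y‖ ^ 2 ≤ C₁ * Nk ^ 2 * ∑ T ∈ S, a T ^ 2 * w T y) →
      ∀ Rm : ℝ, 1 ≤ Rm → ∀ (Y' : Finset Y) (θ ϖ ρ : ℝ), 0 < θ → 0 < ϖ → (∀ T, a T ≤ ρ * b T) → ρ ^ 2 * Nk ^ 2 * ϖ ≤ (Rm * θ) ^ 2 →
      (∀ y ∈ Y', θ ≤ ‖∑ T, f T y‖ ∧ ∑ T, b T ^ 2 * w T y ≤ ϖ) →
      (Y'.card : ℝ) ≤ C * Rm ^ (2 * ε') * θ ^ (-q) * ϖ ^ (q / 2 - 1) * (Nk ^ q * ∑ T, a T ^ q * b T ^ (2 - q)) := by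
  have hq0 : 0 < q := by linarith
  have hP : 0 < q + ε' := by linarith
  obtain ⟨c, hc, HJ⟩ := tg_rs_J (s := ε' / (q + ε')) (by positivity)
  have hC₁0 : 0 < C₁ := by linarith
  have k1 : 1 ≤ C₁ ^ (q + ε') := Real.one_le_rpow hC₁ hP.le
  have k2 : (1 : ℝ) ≤ 2 ^ (q - 2) := Real.one_le_rpow (by norm_num) (by linarith)
  have k3 : 1 ≤ (2 * c) ^ (q + ε') := Real.one_le_rpow (by linarith) hP.le
  have k4 : 1 ≤ (2 * C₁) ^ ε' := Real.one_le_rpow (by linarith) hε'.le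
  refine ⟨Cn * C₁ ^ (q + ε') * 2 ^ (q - 2) * (2 * c) ^ (q + ε') * (2 * C₁) ^ ε', ?_, ?_⟩
  · have a1 : 1 ≤ Cn * C₁ ^ (q + ε') := by nlinarith
    have a2 : 1 ≤ Cn * C₁ ^ (q + ε') * 2 ^ (q - 2) := by nlinarith
    have a3 : 1 ≤ Cn * C₁ ^ (q + ε') * 2 ^ (q - 2) * (2 * c) ^ (q + ε') := by nlinarith
    nlinarith
  intro ι Y _ f w a b Nk hNk hw ha hb NC AC Rm hRm Y' θ ϖ ρ hθ hϖ hab hρ hY
  have hh : ∀ T, 0 ≤ a T ^ q * b T ^ (2 - q) := fun T => mul_nonneg (Real.rpow_nonneg (ha T) _) (Real.rpow_nonneg (hb T) _)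
  have hH : 0 ≤ ∑ T, a T ^ q * b T ^ (2 - q) := Finset.sum_nonneg fun T _ => hh T
  rcases Y'.eq_empty_or_nonempty with he | ⟨y₀, hy₀⟩
  · rw [he]
    simp only [Finset.card_empty, Nat.cast_zero]
    positivity
  -- `ρ > 0`
  have hρ0 : 0 < ρ := by
    by_contra hcon
    rw [not_lt] at hcon
    have h0 : ∀ T, a T = 0 := fun T => le_antisymm ((hab T).trans (mul_nonpos_of_nonpos_of_nonneg hcon (hb T))) (ha T)
    have h1 := AC Finset.univ y₀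
    have h2 : ∑ T, a T ^ 2 * w T y₀ = 0 := Finset.sum_eq_zero fun T _ => by rw [h0 T]; ring
    rw [h2, mul_zero] at h1
    have h3 := (hY y₀ hy₀).1
    nlinarith [norm_nonneg (∑ T, f T y₀)]
  set s : ℝ := Real.sqrt ϖ with hs
  have hs0 : 0 < s := Real.sqrt_pos.2 hϖ
  have hs2 : s ^ 2 = ϖ := Real.sq_sqrt hϖ.le
  have hρs : ρ * s * Nk ≤ Rm * θ := by
    refine (pow_le_pow_iff_left₀ (by positivity) (by positivity) (by norm_num : (2 : ℕ) ≠ 0)).1 ?_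
    calc (ρ * s * Nk) ^ 2 = ρ ^ 2 * Nk ^ 2 * s ^ 2 := by ring
      _ = ρ ^ 2 * Nk ^ 2 * ϖ := by rw [hs2]
      _ ≤ _ := hρ
  obtain ⟨J, hJ0, hXJ, hJc⟩ := HJ (2 * C₁ * Rm) (by nlinarith)
  have hJr : (0 : ℝ) < J := by exact_mod_cast hJ0
  set r : ℕ → ℝ := fun j => ρ / 2 ^ j with hr
  have hr0 : ∀ j, 0 < r j := fun j => by rw [hr]; positivity
  have hrs : ∀ j, r (j + 1) = r j / 2 := fun j => by simp only [hr, pow_succ]; field_simp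
  set U : ℕ → Finset ι := fun j => Finset.univ.filter fun T => a T ≤ r j * b T with hU
  have hU0 : U 0 = Finset.univ := by
    rw [hU]
    refine Finset.filter_true_of_mem fun T _ => ?_
    simp only [hr, pow_zero, div_one]
    exact hab T
  have hUs : ∀ j, U (j + 1) ⊆ U j := by
    intro j T hT
    rw [hU] at hT ⊢
    simp only [Finset.mem_filter, Finset.mem_univ, true_and] at hT ⊢
    refine hT.trans (mul_le_mul_of_nonneg_right ?_ (hb T))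
    rw [hrs]
    linarith [hr0 j]
  have hSj : ∀ j, ∀ T ∈ U j \ U (j + 1), a T ≤ r j * b T ∧ r j / 2 * b T < a T := by
    intro j T hT
    rw [Finset.mem_sdiff] at hT
    obtain ⟨h1, h2⟩ := hT
    rw [hU] at h1 h2
    simp only [Finset.mem_filter, Finset.mem_univ, true_and, not_le] at h1 h2
    rw [hrs] at h2
    exact ⟨h1, h2⟩
  have hsqS : ∀ (S : Finset ι), ∀ y ∈ Y', ∑ T ∈ S, b T ^ 2 * w T y ≤ s ^ 2 := by
    intro S y hy
    rw [hs2]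
    exact (Finset.sum_le_univ_sum_of_nonneg fun T => mul_nonneg (sq_nonneg _) (hw T y)).trans (hY y hy).2
  -- the tail
  have htail : ∀ y ∈ Y', ‖∑ T ∈ U J, f T y‖ ≤ θ / 2 := by
    intro y hy
    have h1 : ∑ T ∈ U J, a T ^ 2 * w T y ≤ (r J * s) ^ 2 := by
      calc ∑ T ∈ U J, a T ^ 2 * w T y ≤ ∑ T ∈ U J, r J ^ 2 * (b T ^ 2 * w T y) := by
            refine Finset.sum_le_sum fun T hT => ?_
            rw [hU] at hT
            simp only [Finset.mem_filter, Finset.mem_univ, true_and] at hT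
            have h1 : a T ^ 2 ≤ (r J * b T) ^ 2 := pow_le_pow_left₀ (ha T) hT 2
            calc a T ^ 2 * w T y ≤ (r J * b T) ^ 2 * w T y := mul_le_mul_of_nonneg_right h1 (hw T y)
              _ = _ := by ring
        _ = r J ^ 2 * ∑ T ∈ U J, b T ^ 2 * w T y := by rw [Finset.mul_sum]
        _ ≤ r J ^ 2 * s ^ 2 := mul_le_mul_of_nonneg_left (hsqS _ y hy) (by positivity)
        _ = _ := by ring
    have h2 : ‖∑ T ∈ U J, f T y‖ ^ 2 ≤ (C₁ * Nk * (r J * s)) ^ 2 := by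
      calc ‖∑ T ∈ U J, f T y‖ ^ 2 ≤ C₁ * Nk ^ 2 * ∑ T ∈ U J, a T ^ 2 * w T y := AC _ y
        _ ≤ C₁ * Nk ^ 2 * (r J * s) ^ 2 := mul_le_mul_of_nonneg_left h1 (by positivity)
        _ ≤ C₁ ^ 2 * Nk ^ 2 * (r J * s) ^ 2 := by
            have : C₁ ≤ C₁ ^ 2 := by nlinarith
            have h2 : 0 ≤ Nk ^ 2 * (r J * s) ^ 2 := by positivity
            nlinarith
        _ = _ := by ring
    have hrJ := hr0 J
    have h3 : ‖∑ T ∈ U J, f T y‖ ≤ C₁ * Nk * (r J * s) := (pow_le_pow_iff_left₀ (norm_nonneg _) (by positivity) (by norm_num)).1 h2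
    refine h3.trans ?_
    have h4 : C₁ * Nk * (r J * s) = C₁ * (ρ * s * Nk) / 2 ^ J := by simp only [hr]; field_simp
    rw [h4, div_le_iff₀ (by positivity)]
    calc C₁ * (ρ * s * Nk) ≤ C₁ * (Rm * θ) := mul_le_mul_of_nonneg_left hρs hC₁0.le
      _ = θ / 2 * (2 * C₁ * Rm) := by ring
      _ ≤ θ / 2 * 2 ^ J := mul_le_mul_of_nonneg_left hXJ (by positivity)
  set t : ℝ := θ / (2 * J) with ht
  have ht0 : 0 < t := by positivity
  -- pigeonhole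
  have hpig : ∀ y ∈ Y', ∃ j ∈ Finset.range J, t ≤ ‖∑ T ∈ U j \ U (j + 1), f T y‖ := by
    intro y hy
    by_contra hcon
    have hcon' : ∀ j ∈ Finset.range J, ‖∑ T ∈ U j \ U (j + 1), f T y‖ < t := by
      intro j hj
      by_contra h
      exact hcon ⟨j, hj, not_lt.1 h⟩
    have h1 := tg_rs_tele U hUs (fun T => f T y) J
    rw [hU0] at h1
    have h2 : ‖∑ T, f T y‖ ≤ ∑ j ∈ Finset.range J, ‖∑ T ∈ U j \ U (j + 1), f T y‖ + ‖∑ T ∈ U J, f T y‖ := by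
      rw [h1]
      exact (norm_add_le _ _).trans (add_le_add (norm_sum_le _ _) le_rfl)
    have h3 : ∑ j ∈ Finset.range J, ‖∑ T ∈ U j \ U (j + 1), f T y‖ < ∑ _j ∈ Finset.range J, t :=
      Finset.sum_lt_sum_of_nonempty (Finset.nonempty_range_iff.2 hJ0.ne') hcon'
    have h4 : ∑ _j ∈ Finset.range J, t = θ / 2 := by
      rw [Finset.sum_const, Finset.card_range, nsmul_eq_mul, ht]
      field_simp
    linarith [(hY y hy).1, htail y hy]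
  set Yj : ℕ → Finset Y := fun j => Y'.filter fun y => t ≤ ‖∑ T ∈ U j \ U (j + 1), f T y‖ with hYj
  have hcover : Y' ⊆ (Finset.range J).biUnion Yj := by
    intro y hy
    obtain ⟨j, hj, h⟩ := hpig y hy
    exact Finset.mem_biUnion.2 ⟨j, hj, Finset.mem_filter.2 ⟨hy, h⟩⟩
  set K : ℝ := Cn * (C₁ * (2 * J * Rm)) ^ ε' * (C₁ * Nk / t) ^ q * s ^ (q - 2) * 2 ^ (q - 2) with hK
  have hK0 : 0 ≤ K := by positivity
  have hclass : ∀ j, ((Yj j).card : ℝ) ≤ K * ∑ T ∈ U j \ U (j + 1), a T ^ q * b T ^ (2 - q) := by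
    intro j
    refine tg_rs_class hq hε' (by linarith) hC₁ f w a b hNk hw ha hb NC AC (U j \ U (j + 1)) (Yj j) (hr0 j) hs0 ht0 (hSj j)
      (fun y hy => hsqS _ y (Finset.mem_filter.1 hy).1) (fun y hy => (Finset.mem_filter.1 hy).2) ?_
    have h1 : r j ≤ ρ := by
      simp only [hr]
      exact div_le_self hρ0.le (one_le_pow₀ (by norm_num))
    calc r j * s * Nk ≤ ρ * s * Nk := by gcongr
      _ ≤ Rm * θ := hρs
      _ = 2 * J * Rm * t := by rw [ht]; field_simp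
  have hsum : ∑ j ∈ Finset.range J, ∑ T ∈ U j \ U (j + 1), a T ^ q * b T ^ (2 - q) ≤ ∑ T, a T ^ q * b T ^ (2 - q) := by
    have h1 := tg_rs_tele U hUs (fun T => a T ^ q * b T ^ (2 - q)) J
    rw [hU0] at h1
    rw [h1]
    exact le_add_of_nonneg_right (Finset.sum_nonneg fun T _ => hh T)
  have hcard : (Y'.card : ℝ) ≤ K * ∑ T, a T ^ q * b T ^ (2 - q) := by
    calc (Y'.card : ℝ) ≤ (((Finset.range J).biUnion Yj).card : ℝ) := by exact_mod_cast Finset.card_le_card hcover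
      _ ≤ ((∑ j ∈ Finset.range J, (Yj j).card : ℕ) : ℝ) := by exact_mod_cast Finset.card_biUnion_le
      _ = ∑ j ∈ Finset.range J, ((Yj j).card : ℝ) := by push_cast; rfl
      _ ≤ ∑ j ∈ Finset.range J, K * ∑ T ∈ U j \ U (j + 1), a T ^ q * b T ^ (2 - q) := Finset.sum_le_sum fun j _ => hclass j
      _ = K * ∑ j ∈ Finset.range J, ∑ T ∈ U j \ U (j + 1), a T ^ q * b T ^ (2 - q) := by rw [Finset.mul_sum]
      _ ≤ _ := mul_le_mul_of_nonneg_left hsum hK0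
  -- the constant
  have hRm0 : 0 < Rm := by linarith
  have e1 : (C₁ * (2 * J * Rm)) ^ ε' = C₁ ^ ε' * (2 * J) ^ ε' * Rm ^ ε' := by
    rw [Real.mul_rpow hC₁0.le (by positivity), Real.mul_rpow (by positivity) hRm0.le]
    ring
  have e2 : (C₁ * Nk / t) ^ q = C₁ ^ q * Nk ^ q * (2 * J) ^ q * θ ^ (-q) := by
    have : C₁ * Nk / t = C₁ * Nk * (2 * J) / θ := by rw [ht]; field_simp
    rw [this, Real.div_rpow (by positivity) hθ.le, Real.mul_rpow (by positivity) (by positivity), Real.mul_rpow hC₁0.le hNk.le, Real.rpow_neg hθ.le]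
    rfl
  have e3 : s ^ (q - 2) = ϖ ^ (q / 2 - 1) := by
    rw [hs, Real.sqrt_eq_rpow, ← Real.rpow_mul hϖ.le]
    congr 1
    ring
  have e4 : (2 * (J : ℝ)) ^ ε' * (2 * J) ^ q = (2 * J) ^ (q + ε') := by
    rw [Real.rpow_add (by positivity), mul_comm]
  have e5 : C₁ ^ ε' * C₁ ^ q = C₁ ^ (q + ε') := by rw [Real.rpow_add hC₁0, mul_comm]
  have h6 : (2 * (J : ℝ)) ^ (q + ε') ≤ (2 * c) ^ (q + ε') * ((2 * C₁) ^ ε' * Rm ^ ε') := by
    have hX0 : 0 < 2 * C₁ * Rm := by positivity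
    calc (2 * (J : ℝ)) ^ (q + ε') ≤ (2 * (c * (2 * C₁ * Rm) ^ (ε' / (q + ε')))) ^ (q + ε') :=
          Real.rpow_le_rpow (by positivity) (by linarith) hP.le
      _ = (2 * c) ^ (q + ε') * ((2 * C₁ * Rm) ^ (ε' / (q + ε'))) ^ (q + ε') := by
          rw [← mul_assoc, Real.mul_rpow (by positivity) (Real.rpow_nonneg hX0.le _)]
      _ = (2 * c) ^ (q + ε') * (2 * C₁ * Rm) ^ ε' := by
          rw [← Real.rpow_mul hX0.le, div_mul_cancel₀ _ hP.ne']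
      _ = _ := by rw [Real.mul_rpow (by positivity) hRm0.le]
  have e7 : Rm ^ (2 * ε') = Rm ^ ε' * Rm ^ ε' := by rw [← Real.rpow_add hRm0]; congr 1; ring
  have hKle : K ≤ Cn * C₁ ^ (q + ε') * 2 ^ (q - 2) * (2 * c) ^ (q + ε') * (2 * C₁) ^ ε' * Rm ^ (2 * ε') * θ ^ (-q) * ϖ ^ (q / 2 - 1) * Nk ^ q := by
    have g1 : 0 ≤ Rm ^ ε' := Real.rpow_nonneg hRm0.le _
    have g2 : 0 ≤ θ ^ (-q) := Real.rpow_nonneg hθ.le _
    have g3 : 0 ≤ ϖ ^ (q / 2 - 1) := Real.rpow_nonneg hϖ.le _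
    have g4 : 0 ≤ Nk ^ q := Real.rpow_nonneg hNk.le _
    calc K = Cn * (C₁ ^ ε' * C₁ ^ q) * 2 ^ (q - 2) * ((2 * (J : ℝ)) ^ ε' * (2 * J) ^ q) * Rm ^ ε' * θ ^ (-q) * ϖ ^ (q / 2 - 1) * Nk ^ q := by
          rw [hK, e1, e2, e3]; ring
      _ = Cn * C₁ ^ (q + ε') * 2 ^ (q - 2) * (2 * (J : ℝ)) ^ (q + ε') * Rm ^ ε' * θ ^ (-q) * ϖ ^ (q / 2 - 1) * Nk ^ q := by rw [e4, e5]
      _ ≤ Cn * C₁ ^ (q + ε') * 2 ^ (q - 2) * ((2 * c) ^ (q + ε') * ((2 * C₁) ^ ε' * Rm ^ ε')) * Rm ^ ε' * θ ^ (-q) * ϖ ^ (q / 2 - 1) * Nk ^ q := by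
          gcongr
      _ = _ := by rw [e7]; ring
  calc (Y'.card : ℝ) ≤ K * ∑ T, a T ^ q * b T ^ (2 - q) := hcard
    _ ≤ (Cn * C₁ ^ (q + ε') * 2 ^ (q - 2) * (2 * c) ^ (q + ε') * (2 * C₁) ^ ε' * Rm ^ (2 * ε') * θ ^ (-q) * ϖ ^ (q / 2 - 1) * Nk ^ q) * ∑ T, a T ^ q * b T ^ (2 - q) :=
        mul_le_mul_of_nonneg_right hKle hH
    _ = _ := by ring

end

end Claimed.Agent.R257.Tree
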