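import Claimed.Agent.R257.Tree.Cau
import Claimed.Agent.R257.Tree.RootK

/-!
# ROW 257, unit INST, file 6: THE ROOT COUNT      (architect helper155)          CONTRACT

Field `root` of `TSys.Ok` for `TDat.sys`.   POWER CASE: `p:weighted` in discrete form (`WtAt`, order `Q`), loss `κ_ℓ^ε`.   SUBPOWER CASE: `p:near-cauchy` (`NcAt`) + ratio classes, loss `Rm^ε` (H `frame.tex` l.566-575, l.645-660).
`ℓ ≥ tr` (`hc.tr_le`), so at the height `ℓ`: `msk = 1`, `ker Q ℓ = wA Q ℓ`, `Ev ℓ g z = ∑_T g T z`.   Every `sorry` is a leaf `L-257-TI-R*`.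
-/

set_option autoImplicit false

namespace Claimed.Agent.R257.Tree

open Claimed.Agent.R257 Claimed.Agent.R257.FR2
open scoped BigOperators Classical BoundedContinuousFunction

noncomputable section

variable {k : ℕ}

theorem ti_r1_qk_gt (hk : 1 ≤ k) : 2 < qk k := by
  unfold qk
  have : (0 : ℝ) < k := by exact_mod_cast hk
  rw [lt_div_iff₀ this]
  linarith

theorem ti_r1_ker {c : TCls k} (hc : c.Ok) (D : TDat c) (A : ℝ) (T : D.Lb c.ℓ × Lat k) (z : ST k) : D.ker A c.ℓ T z = D.wA A c.ℓ T z := by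
  unfold TDat.ker
  rw [if_neg (not_lt.2 hc.tr_le)]

theorem ti_r1_Ev {c : TCls k} (hc : c.Ok) (D : TDat c) (g : D.Cl c.ℓ → (ST k →ᵇ ℂ)) (z : ST k) : D.Ev c.ℓ g z = ∑ T : D.Cl c.ℓ, g T z := by
  unfold TDat.Ev TDat.msk
  simp only [if_neg (not_lt.2 hc.tr_le), one_mul]

theorem ti_r1_usep {c : TCls k} (D : TDat c) (hD : D.Good) (Y' : Finset D.Y) : USep (Y'.image D.pt) := by
  intro z hz z' hz' hne
  obtain ⟨y, _, rfl⟩ := Finset.mem_image.1 hz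
  obtain ⟨y', _, rfl⟩ := Finset.mem_image.1 hz'
  exact hD.sep y y' fun e => hne (by rw [e])

theorem ti_r1_inj {c : TCls k} (D : TDat c) (hD : D.Good) : Function.Injective D.pt := by
  intro y y' h
  by_contra hne
  have := hD.sep y y' hne
  rw [h, sub_self, norm_zero] at this
  linarith

/-- **LEAF L-257-TI-R1: the root count, power case.**
PLAN.  `hW (c.ρ c.ℓ) c.Cc c.Cm ε` with `N = κ ℓ`, `Λ = D.Lb ℓ`, `fr = D.fr ℓ` (`hD.top_bdd`, `hD.mult`), `s = D.W ℓ`, functions extended by `0`, `Y = Y'.image D.pt` (`USep` and injectivity from `hD.sep`).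
At `z = pt y`, `y ∈ Y'`: `B² := ∑ b² wA Q ≤ ϖ` and `B² > 0` (the field is `≠ 0`, so some `a_T ≠ 0`, `b_T > 0`), hence `(B²)^((2-q)/2) ≥ ϖ^((2-q)/2)`; `‖field‖^q ≥ θ^q`.   So `card Y' · ϖ^((2-q)/2) θ^q ≤ C κ^ε κ^(k+2) ∑ a^q b^(2-q)`. -/
theorem ti_root_pow {c : TCls k} (hc : c.Ok) (hW : WtAt k (qk k) c.Q c.M) {ε : ℝ} (hε : 0 < ε) : ∃ C : ℝ, 1 ≤ C ∧ ∀ D : TDat c, D.Good →
    ∀ (g : D.Cl c.ℓ → (ST k →ᵇ ℂ)) (a : D.Cl c.ℓ → ℝ), D.Adm c.ℓ g a → ∀ b : D.Cl c.ℓ → ℝ, (∀ T, 0 ≤ b T) → (∀ T, a T ≠ 0 → 0 < b T) →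
    ∀ (Y' : Finset D.Y) (θ ϖ : ℝ), 0 < θ → 0 < ϖ → (∀ y ∈ Y', θ ≤ ‖D.Ev c.ℓ g (D.pt y)‖ ∧ ∑ T : D.Cl c.ℓ, b T ^ 2 * D.ker c.Q c.ℓ T.1 (D.pt y) ≤ ϖ) →
      (Y'.card : ℝ) ≤ C * D.κ c.ℓ ^ ε * θ ^ (-qk k) * ϖ ^ (qk k / 2 - 1) * ∑ T : D.Cl c.ℓ, D.κ c.ℓ ^ (k + 2) * a T ^ qk k * b T ^ (2 - qk k) := by
  obtain ⟨C, hC, h⟩ := hW (c.ρ c.ℓ) c.Cc c.Cm ε hε
  refine ⟨C, hC, ?_⟩
  intro D hD g a hAdm b hb hab Y' θ ϖ hθ hϖ hY
  have hq : 2 < qk k := ti_r1_qk_gt hc.k_pos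
  have key := h (D.κ c.ℓ) (hD.one_le_κ _) (D.Lb c.ℓ) (D.fr c.ℓ) (hD.mult c.ℓ) (D.W c.ℓ) (fun T => if h : T ∈ D.W c.ℓ then a ⟨T, h⟩ else 0)
    (fun T => if h : T ∈ D.W c.ℓ then b ⟨T, h⟩ else 0) (fun T z => if h : T ∈ D.W c.ℓ then g ⟨T, h⟩ z else 0)
    (fun T _ => hD.top_bdd T.1)
    (fun T hT => by simp only [dif_pos hT]; exact hAdm ⟨T, hT⟩)
    (fun T hT => by simp only [dif_pos hT]; exact hb _)
    (fun T hT => by simp only [dif_pos hT]; exact hab _)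
    (Y'.image D.pt) (ti_r1_usep D hD Y')
  rw [Finset.sum_image (fun y _ y' _ e => ti_r1_inj D hD e)] at key
  -- rewrite the sums over the window as sums over the cells
  have e1 : ∀ z, ∑ T ∈ D.W c.ℓ, (if h : T ∈ D.W c.ℓ then b ⟨T, h⟩ else 0) ^ 2 * pw c.Q (D.κ c.ℓ) (D.fr c.ℓ T.1) (lat T.2) z
      = ∑ T : D.Cl c.ℓ, b T ^ 2 * D.ker c.Q c.ℓ T.1 z := by
    intro z
    rw [← Finset.sum_coe_sort (D.W c.ℓ)]
    refine Finset.sum_congr rfl fun T _ => ?_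
    rw [dif_pos T.2, ti_r1_ker hc, TDat.wA_eq_pw]
  have e2 : ∀ z, ∑ T ∈ D.W c.ℓ, (if h : T ∈ D.W c.ℓ then g ⟨T, h⟩ z else 0) = D.Ev c.ℓ g z := by
    intro z
    rw [ti_r1_Ev hc, ← Finset.sum_coe_sort (D.W c.ℓ)]
    refine Finset.sum_congr rfl fun T _ => ?_
    rw [dif_pos T.2]
  have e3 : ∑ T ∈ D.W c.ℓ, (if h : T ∈ D.W c.ℓ then a ⟨T, h⟩ else 0) ^ qk k * (if h : T ∈ D.W c.ℓ then b ⟨T, h⟩ else 0) ^ (2 - qk k)
      = ∑ T : D.Cl c.ℓ, a T ^ qk k * b T ^ (2 - qk k) := by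
    rw [← Finset.sum_coe_sort (D.W c.ℓ)]
    refine Finset.sum_congr rfl fun T _ => ?_
    rw [dif_pos T.2, dif_pos T.2]
  simp only [e1, e2] at key
  rw [e3] at key
  -- lower bound of every term
  have hterm : ∀ y ∈ Y', ϖ ^ ((2 - qk k) / 2) * θ ^ qk k
      ≤ (∑ T : D.Cl c.ℓ, b T ^ 2 * D.ker c.Q c.ℓ T.1 (D.pt y)) ^ ((2 - qk k) / 2) * ‖D.Ev c.ℓ g (D.pt y)‖ ^ qk k := by
    intro y hy
    obtain ⟨h1, h2⟩ := hY y hy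
    have hpos : 0 < ∑ T : D.Cl c.ℓ, b T ^ 2 * D.ker c.Q c.ℓ T.1 (D.pt y) := by
      have hne : D.Ev c.ℓ g (D.pt y) ≠ 0 := by
        intro h0
        rw [h0, norm_zero] at h1
        linarith
      rw [ti_r1_Ev hc] at hne
      obtain ⟨T, -, hT⟩ := Finset.exists_ne_zero_of_sum_ne_zero hne
      have haT : a T ≠ 0 := by
        intro h0
        have := ti_pk_le (hAdm T) (D.pt y)
        rw [h0, zero_mul] at this
        exact hT (norm_le_zero_iff.1 this)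
      refine Finset.sum_pos' (fun T _ => mul_nonneg (sq_nonneg _) (D.ker_nonneg _ _ _ _)) ⟨T, Finset.mem_univ _, ?_⟩
      rw [ti_r1_ker hc]
      exact mul_pos (pow_pos (hab T haT) 2) (D.wA_pos _ _ _ _)
    exact mul_le_mul (Real.rpow_le_rpow_of_nonpos hpos h2 (by linarith)) (Real.rpow_le_rpow hθ.le h1 (by linarith)) (by positivity)
      (Real.rpow_nonneg hpos.le _)
  have hsum : (Y'.card : ℝ) * (ϖ ^ ((2 - qk k) / 2) * θ ^ qk k)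
      ≤ C * D.κ c.ℓ ^ ε * D.κ c.ℓ ^ (k + 2) * ∑ T : D.Cl c.ℓ, a T ^ qk k * b T ^ (2 - qk k) := by
    refine le_trans ?_ key
    rw [← nsmul_eq_mul, ← Finset.sum_const]
    exact Finset.sum_le_sum hterm
  have e4 : θ ^ (-qk k) * ϖ ^ (qk k / 2 - 1) * (ϖ ^ ((2 - qk k) / 2) * θ ^ qk k) = 1 := by
    have : θ ^ (-qk k) * ϖ ^ (qk k / 2 - 1) * (ϖ ^ ((2 - qk k) / 2) * θ ^ qk k)
        = (θ ^ (-qk k) * θ ^ qk k) * (ϖ ^ (qk k / 2 - 1) * ϖ ^ ((2 - qk k) / 2)) := by ring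
    rw [this, ← Real.rpow_add hθ, ← Real.rpow_add hϖ]
    have e5 : qk k / 2 - 1 + (2 - qk k) / 2 = 0 := by ring
    rw [e5]
    simp
  calc (Y'.card : ℝ) = (Y'.card : ℝ) * (ϖ ^ ((2 - qk k) / 2) * θ ^ qk k) * (θ ^ (-qk k) * ϖ ^ (qk k / 2 - 1)) := by
        rw [mul_assoc, mul_comm (ϖ ^ ((2 - qk k) / 2) * θ ^ qk k), e4, mul_one]
    _ ≤ C * D.κ c.ℓ ^ ε * D.κ c.ℓ ^ (k + 2) * (∑ T : D.Cl c.ℓ, a T ^ qk k * b T ^ (2 - qk k)) * (θ ^ (-qk k) * ϖ ^ (qk k / 2 - 1)) := by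
        gcongr
    _ = _ := by
        have : ∑ T : D.Cl c.ℓ, D.κ c.ℓ ^ (k + 2) * a T ^ qk k * b T ^ (2 - qk k) = D.κ c.ℓ ^ (k + 2) * ∑ T : D.Cl c.ℓ, a T ^ qk k * b T ^ (2 - qk k) := by
          rw [Finset.mul_sum]
          exact Finset.sum_congr rfl fun T _ => by ring
        rw [this]
        ring

/-- scaling of a packet by a nonnegative real. -/
theorem ti_r2_pk_smul {ρ M N : ℝ} {v : E k} {u : ST k} {a : ℝ} {f : ST k → ℂ} (h : IsPk ρ M N v u a f) {t : ℝ} (ht : 0 ≤ t) :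
    IsPk ρ M N v u (t * a) (fun z => (t : ℂ) * f z) := by
  obtain ⟨F, h1, h2, h3⟩ := h
  refine ⟨fun X => (t : ℂ) * F X, h1.const_mul _, fun X => ?_, fun z => ?_⟩
  · rw [norm_mul, Complex.norm_real, Real.norm_of_nonneg ht, mul_assoc]
    exact mul_le_mul_of_nonneg_left (h2 X) ht
  · show (t : ℂ) * f z = car v z * ((t : ℂ) * F (natX N v z))
    rw [h3 z]
    ring

/-- **LEAF L-257-TI-R2: near-Cauchy for a subfamily of the top layer, with a normalisation `σ`.**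
PLAN: `hN (c.ρ c.ℓ) c.Cc c.Cm ε` for the packets `σ⁻¹ • g T`, amplitudes `a T / σ` (scaling of `IsPk`: multiply the profile by `σ⁻¹`, `bdu_FS_const_mul`), `s = S.map Subtype.val`-image, `Y = Y'.image D.pt`. -/
theorem ti_nc_top {c : TCls k} (hc : c.Ok) (hN : NcAt k c.Q c.M) {ε : ℝ} (hε : 0 < ε) : ∃ C : ℝ, 1 ≤ C ∧ ∀ D : TDat c, D.Good →
    ∀ (g : D.Cl c.ℓ → (ST k →ᵇ ℂ)) (a : D.Cl c.ℓ → ℝ), D.Adm c.ℓ g a → ∀ (S : Finset (D.Cl c.ℓ)) (Y' : Finset D.Y) (σ R : ℝ), 0 < σ → 1 ≤ R →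
    (∀ y ∈ Y', ∑ T ∈ S, a T ^ 2 * D.wA c.Q c.ℓ T.1 (D.pt y) ≤ σ ^ 2 ∧ σ * D.κ c.ℓ ^ ((k : ℝ) / 2) / R ≤ ‖∑ T ∈ S, g T (D.pt y)‖) →
      (Y'.card : ℝ) ≤ C * R ^ (qk k + ε) * (∑ T ∈ S, a T ^ 2) / σ ^ 2 := by
  obtain ⟨C, hC, h⟩ := hN (c.ρ c.ℓ) c.Cc c.Cm ε hε
  refine ⟨C, hC, ?_⟩
  intro D hD g a hAdm S Y' σ R hσ hR hY
  have hmem : ∀ T ∈ S.image Subtype.val, T ∈ D.W c.ℓ := by
    intro T hT
    obtain ⟨T', _, rfl⟩ := Finset.mem_image.1 hT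
    exact T'.2
  have key := h (D.κ c.ℓ) (hD.one_le_κ _) (D.Lb c.ℓ) (D.fr c.ℓ) (hD.mult c.ℓ) (S.image Subtype.val)
    (fun T => if h : T ∈ D.W c.ℓ then σ⁻¹ * a ⟨T, h⟩ else 0) (fun T z => if h : T ∈ D.W c.ℓ then ((σ⁻¹ : ℝ) : ℂ) * g ⟨T, h⟩ z else 0)
    (fun T _ => hD.top_bdd T.1)
    (fun T hT => by
      simp only [dif_pos (hmem T hT)]
      exact ti_r2_pk_smul (hAdm ⟨T, hmem T hT⟩) (inv_nonneg.2 hσ.le))
    (Y'.image D.pt) (ti_r1_usep D hD Y') R hR ?_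
  · rw [Finset.card_image_of_injective _ (ti_r1_inj D hD), Finset.sum_image (fun T _ T' _ e => Subtype.val_injective e)] at key
    refine key.trans (le_of_eq ?_)
    have : ∑ T ∈ S, (if h : T.1 ∈ D.W c.ℓ then σ⁻¹ * a ⟨T.1, h⟩ else 0) ^ 2
        = (∑ T ∈ S, a T ^ 2) / σ ^ 2 := by
      rw [Finset.sum_div]
      refine Finset.sum_congr rfl fun T _ => ?_
      rw [dif_pos T.2]
      simp only [Subtype.coe_eta]
      field_simp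
    rw [this]
    ring
  · intro z hz
    obtain ⟨y, hy, rfl⟩ := Finset.mem_image.1 hz
    obtain ⟨h1, h2⟩ := hY y hy
    rw [Finset.sum_image (fun T _ T' _ e => Subtype.val_injective e), Finset.sum_image (fun T _ T' _ e => Subtype.val_injective e)]
    constructor
    · have : ∑ T ∈ S, (if h : T.1 ∈ D.W c.ℓ then σ⁻¹ * a ⟨T.1, h⟩ else 0) ^ 2
            * pw c.Q (D.κ c.ℓ) (D.fr c.ℓ T.1.1) (lat T.1.2) (D.pt y)
          = (∑ T ∈ S, a T ^ 2 * D.wA c.Q c.ℓ T.1 (D.pt y)) / σ ^ 2 := by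
        rw [Finset.sum_div]
        refine Finset.sum_congr rfl fun T _ => ?_
        rw [dif_pos T.2, TDat.wA_eq_pw]
        simp only [Subtype.coe_eta]
        field_simp
      rw [this, div_le_one (by positivity)]
      exact h1
    · have : ∑ T ∈ S, (if h : T.1 ∈ D.W c.ℓ then ((σ⁻¹ : ℝ) : ℂ) * g ⟨T.1, h⟩ (D.pt y) else 0)
          = ((σ⁻¹ : ℝ) : ℂ) * ∑ T ∈ S, g T (D.pt y) := by
        rw [Finset.mul_sum]
        refine Finset.sum_congr rfl fun T _ => ?_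
        rw [dif_pos T.2]
      rw [this, norm_mul, Complex.norm_real, Real.norm_of_nonneg (inv_nonneg.2 hσ.le)]
      calc D.κ c.ℓ ^ ((k : ℝ) / 2) / R = σ⁻¹ * (σ * D.κ c.ℓ ^ ((k : ℝ) / 2) / R) := by field_simp
        _ ≤ σ⁻¹ * ‖∑ T ∈ S, g T (D.pt y)‖ := by gcongr

/-- **LEAF L-257-TI-R3: the root count, subpower case** (cut it further: owner of ROOT).
PLAN.  `N = κ ℓ`, `q = qk k`, `k q / 2 = k + 2`.   W.l.o.g. `Y' ≠ ∅`; then `ρ > 0`.   Fix `δ ∈ (0, 1/2]` with `δ q / (1 - δ) ≤ ε / 2`, fractions `τ_j = (1 - 2^(-δ)) 2^(-j δ)` (`∑_j τ_j = 1`).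
Classes `S_j = {T : 2^(-(j+1)) ρ b_T < a_T ≤ 2^(-j) ρ b_T}`, `j ∈ ℕ` (finitely many are non-empty; cells with `a_T = 0` carry the zero packet).   For `y ∈ Y'` some `j` has `‖V_j (pt y)‖ ≥ τ_j θ`: `Y' = ⋃_j Y'_j`.
Square function of the class: `∑_{S_j} a² wA Q ≤ 4^(-j) ρ² ϖ =: σ_j²`.   `R_j := σ_j N^(k/2) / (τ_j θ) ≤ 2^(-j) Rm / τ_j`.   Absolute Cauchy (`ti_abs_root`, constant `C₁`): if `Y'_j ≠ ∅` then `τ_j θ ≤ C₁^(1/2) N^(k/2) σ_j`, i.e. `R_j ≥ C₁^(-1/2)`.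
`ti_nc_top` with `R = max R_j 1`:  `card Y'_j ≤ C (max R_j 1)^(q + ε/2) σ_j^(-2) ∑_{S_j} a² ≤ C C₁^(q/2) (max R_j 1)^(ε/2) R_j^q σ_j^(-2) ∑_{S_j} a²`, and
`R_j^q σ_j^(-2) a² = N^(k+2) τ_j^(-q) θ^(-q) ϖ^(q/2-1) (2^(-j) ρ)^(q-2) a² ≤ 2^(q-2) N^(k+2) τ_j^(-q) θ^(-q) ϖ^(q/2-1) a^q b^(2-q)` on `S_j`.
For the non-empty classes `2^(j (1-δ)) ≤ C Rm`, so `τ_j^(-q) ≤ C Rm^(δ q/(1-δ)) ≤ C Rm^(ε/2)`, `max R_j 1 ≤ C Rm`.   Sum over `j` (the classes are disjoint). -/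
theorem ti_root_sub {c : TCls k} (hc : c.Ok) (hN : NcAt k c.Q c.M) {ε : ℝ} (hε : 0 < ε) : ∃ C : ℝ, 1 ≤ C ∧ ∀ D : TDat c, D.Good → ∀ Rm : ℝ, 1 ≤ Rm →
    ∀ (g : D.Cl c.ℓ → (ST k →ᵇ ℂ)) (a : D.Cl c.ℓ → ℝ), D.Adm c.ℓ g a → ∀ b : D.Cl c.ℓ → ℝ, (∀ T, 0 ≤ b T) → (∀ T, a T ≠ 0 → 0 < b T) →
    ∀ (Y' : Finset D.Y) (θ ϖ ρ : ℝ), 0 < θ → 0 < ϖ → (∀ T, a T ≤ ρ * b T) → ρ ^ 2 * D.κ c.ℓ ^ k * ϖ ≤ (Rm * θ) ^ 2 →
    (∀ y ∈ Y', θ ≤ ‖D.Ev c.ℓ g (D.pt y)‖ ∧ ∑ T : D.Cl c.ℓ, b T ^ 2 * D.ker c.Q c.ℓ T.1 (D.pt y) ≤ ϖ) →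
      (Y'.card : ℝ) ≤ C * Rm ^ ε * θ ^ (-qk k) * ϖ ^ (qk k / 2 - 1) * ∑ T : D.Cl c.ℓ, D.κ c.ℓ ^ (k + 2) * a T ^ qk k * b T ^ (2 - qk k) := by
  obtain ⟨Cn, hCn, HN⟩ := ti_nc_top hc hN (ε := ε / 2) (by positivity)
  obtain ⟨C₁, hC₁, HA⟩ := ti_abs_root hc
  obtain ⟨C, hC, H⟩ := tg_rs_main (q := qk k) (ε' := ε / 2) (ti_r1_qk_gt hc.k_pos) (by positivity) hCn hC₁
  refine ⟨C, hC, fun D hD Rm hRm g a hAdm b hb _ Y' θ ϖ ρ hθ hϖ haρ hρ hY => ?_⟩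
  have hκ : 0 < D.κ c.ℓ := lt_of_lt_of_le one_pos (hD.one_le_κ _)
  have hk0 : (k : ℝ) ≠ 0 := by
    have : 1 ≤ k := hc.k_pos
    positivity
  set Nk : ℝ := D.κ c.ℓ ^ ((k : ℝ) / 2) with hNk
  have hNk0 : 0 < Nk := Real.rpow_pos_of_pos hκ _
  have hNk2 : Nk ^ 2 = D.κ c.ℓ ^ k := by
    rw [hNk, ← Real.rpow_natCast _ 2, ← Real.rpow_mul hκ.le, ← Real.rpow_natCast _ k]
    congr 1
    push_cast
    ring
  have hNkq : Nk ^ qk k = D.κ c.ℓ ^ (k + 2) := by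
    rw [hNk, ← Real.rpow_mul hκ.le, ← Real.rpow_natCast _ (k + 2)]
    congr 1
    unfold qk
    push_cast
    field_simp
  have AC : ∀ (S : Finset (D.Cl c.ℓ)) (y : D.Y), ‖∑ T ∈ S, g T (D.pt y)‖ ^ 2 ≤ C₁ * Nk ^ 2 * ∑ T ∈ S, a T ^ 2 * D.wA c.Q c.ℓ T.1 (D.pt y) := by
    intro S y
    have hAdm' : D.Adm c.ℓ (fun T => if T ∈ S then g T else 0) (fun T => if T ∈ S then a T else 0) := by
      intro T
      by_cases hT : T ∈ S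
      · simp only [if_pos hT]; exact hAdm T
      · simp only [if_neg hT]; exact ti_pk_zero _ _ _ _ _
    have h0 := HA D hD c.ℓ _ _ hAdm' (D.pt y)
    have h1 : ∑ T : D.Cl c.ℓ, ‖D.msk c.ℓ T.1.1 (D.pt y)‖ * ‖(if T ∈ S then g T else 0) (D.pt y)‖ = ∑ T ∈ S, ‖g T (D.pt y)‖ := by
      rw [← Finset.sum_filter_add_sum_filter_not Finset.univ (fun T => T ∈ S)]
      have e1 : ∑ T ∈ Finset.univ.filter (fun T => ¬ T ∈ S), ‖D.msk c.ℓ T.1.1 (D.pt y)‖ * ‖(if T ∈ S then g T else 0) (D.pt y)‖ = 0 := by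
        refine Finset.sum_eq_zero fun T hT => ?_
        rw [if_neg (Finset.mem_filter.1 hT).2]
        simp
      rw [e1, add_zero, Finset.filter_mem_eq_inter, Finset.univ_inter]
      refine Finset.sum_congr rfl fun T hT => ?_
      have : D.msk c.ℓ T.1.1 (D.pt y) = 1 := by unfold TDat.msk; rw [if_neg (not_lt.2 hc.tr_le)]
      rw [if_pos hT, this, norm_one, one_mul]
    have h2 : ∑ T : D.Cl c.ℓ, (if T ∈ S then a T else 0) ^ 2 * D.ker c.Q c.ℓ T.1 (D.pt y) = ∑ T ∈ S, a T ^ 2 * D.wA c.Q c.ℓ T.1 (D.pt y) := by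
      rw [← Finset.sum_filter_add_sum_filter_not Finset.univ (fun T => T ∈ S)]
      have e1 : ∑ T ∈ Finset.univ.filter (fun T => ¬ T ∈ S), (if T ∈ S then a T else 0) ^ 2 * D.ker c.Q c.ℓ T.1 (D.pt y) = 0 := by
        refine Finset.sum_eq_zero fun T hT => ?_
        rw [if_neg (Finset.mem_filter.1 hT).2]
        simp
      rw [e1, add_zero, Finset.filter_mem_eq_inter, Finset.univ_inter]
      refine Finset.sum_congr rfl fun T hT => ?_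
      rw [if_pos hT, ti_r1_ker hc]
    rw [h1, h2] at h0
    rw [hNk2]
    exact (pow_le_pow_left₀ (norm_nonneg _) (norm_sum_le _ _) 2).trans h0
  have key := H (D.Cl c.ℓ) D.Y (fun T y => g T (D.pt y)) (fun T y => D.wA c.Q c.ℓ T.1 (D.pt y)) a b Nk hNk0 (fun T y => (D.wA_pos _ _ _ _).le)
    (fun T => ti_pk_nonneg (hAdm T)) hb (fun S Y'' σ R hσ hR h => HN D hD g a hAdm S Y'' σ R hσ hR h) AC Rm hRm Y' θ ϖ ρ hθ hϖ haρ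
    (by rw [hNk2]; exact hρ) (fun y hy => by
      obtain ⟨h1, h2⟩ := hY y hy
      rw [ti_r1_Ev hc] at h1
      simp only [ti_r1_ker hc] at h2
      exact ⟨h1, h2⟩)
  refine key.trans (le_of_eq ?_)
  have e1 : 2 * (ε / 2) = ε := by ring
  rw [e1, hNkq, Finset.mul_sum]
  congr 1
  exact Finset.sum_congr rfl fun T _ => by ring

end

end Claimed.Agent.R257.Tree
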