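import Claimed.Agent.R257.Tree.Hier
import Claimed.Agent.R257.Tree.Root
import Claimed.Agent.R257.Tree.Ref

/-!
# ROW 257, unit INST, file 8: `TSys.Ok` FOR THE CONCRETE SYSTEM      (helper155)

GLUE ONLY (no sorry in this file): `ti_ok_core` (all fields except `root`), `ti_ok_pow` (power case), `ti_ok_sub` (subpower case).
The constant `C` depends only on the class `c` and on `ε`; every `C' ≥ C` works (so that it can be merged with the constants of `TGeo.Ok`).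
-/

set_option autoImplicit false

namespace Claimed.Agent.R257.Tree

open Claimed.Agent.R257 Claimed.Agent.R257.FR2
open scoped BigOperators Classical BoundedContinuousFunction

noncomputable section

variable {k : ℕ} {c : TCls k}

namespace TDat

theorem κ_le (D : TDat c) (hD : D.Good) {i j : ℕ} (h : i ≤ j) : D.κ j ≤ D.κ i := by
  induction j, h using Nat.le_induction with
  | base => exact le_rfl
  | succ j _ ih => exact (hD.κ_anti j).trans ih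

theorem κ_pos (D : TDat c) (hD : D.Good) (i : ℕ) : 0 < D.κ i := lt_of_lt_of_le one_pos (hD.one_le_κ i)

theorem one_le_ratio (D : TDat c) (hD : D.Good) {i j : ℕ} (h : i ≤ j) : 1 ≤ D.κ i / D.κ j := by
  rw [le_div_iff₀ (D.κ_pos hD j), one_mul]
  exact D.κ_le hD h

theorem ratio_le (D : TDat c) (hD : D.Good) {i : ℕ} (h : i < c.ℓ) : D.κ i / D.κ (i + 1) ≤ D.κ 0 / D.κ c.ℓ :=
  div_le_div₀ (D.κ_pos hD 0).le (D.κ_le hD (Nat.zero_le i)) (D.κ_pos hD _) (D.κ_le hD h)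

end TDat

/-- **all the fields of `TSys.Ok` except `root`** -/
theorem ti_ok_core (hc : c.Ok) (hW : WtAt k (qk k) c.Q c.M) (h2 : L2At k c.M) {ε : ℝ} (hε : 0 < ε) : ∃ C : ℝ, 1 ≤ C ∧ ∀ C' : ℝ, C ≤ C' → ∀ D : TDat c, D.Good →
    ∀ L0 Rm : ℝ, 1 ≤ L0 → RootSt D.sys (D.tp C' ε L0 Rm) → D.sys.Ok (D.tp C' ε L0 Rm) := by
  obtain ⟨Ch, hCh1, hh⟩ := ti_hier hc (ti_qk_gt hc.k_pos) hW hε
  obtain ⟨Cc, hCc1, hcau⟩ := ti_cauchy hc
  obtain ⟨C2, hC21, hl2⟩ := ti_l2 hc h2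
  obtain ⟨Cr, hCr1, hroot⟩ := ti_abs_root hc
  obtain ⟨Cs, hCs1, hsq⟩ := ti_sqP_le hc
  obtain ⟨Ci, hCi1, hinc⟩ := ti_inc_le hc
  refine ⟨Ch + Cc + C2 + Cr + Cs + Ci, by linarith, fun C' hC' D hD L0 Rm hL0 hR => ?_⟩
  have h1C : 1 ≤ C' := by linarith
  have h0C : 0 ≤ C' := by linarith
  have hC0 : 0 ≤ c.C0 := by
    have := hc.C0_ge; have := hc.P_lt; have := hc.P_gt
    have : (0 : ℝ) ≤ k := Nat.cast_nonneg k
    linarith
  have hχ : 0 ≤ c.Cχ := by linarith [hc.one_le_Cχ]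
  have hPQ : c.P ≤ c.Q := hc.P_lt.le
  have hP0 : 0 ≤ c.P := by
    have := hc.P_gt
    have : (0 : ℝ) ≤ k := Nat.cast_nonneg k
    linarith
  have hs0 : ∀ T ∈ D.W 0, 0 ≤ D.s0 T := fun T hT => ti_pk_nonneg (hD.leaf T hT)
  have hκ := D.κ_pos hD
  -- absolute bound of the root field
  have habs : ∀ (i : ℕ) (g : D.Cl i → (ST k →ᵇ ℂ)) (z : ST k), ‖D.Ev i g z‖ ≤ ∑ T : D.Cl i, ‖D.msk i T.1.1 z‖ * ‖g T z‖ := by
    intro i g z
    unfold TDat.Ev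
    refine (norm_sum_le _ _).trans (Finset.sum_le_sum fun T _ => ?_)
    rw [norm_mul]
  have hsqnn : ∀ (i : ℕ) (a : D.Cl i → ℝ) (z : ST k), 0 ≤ ∑ T : D.Cl i, a T ^ 2 * D.ker c.Q i T.1 z :=
    fun i a z => Finset.sum_nonneg fun T _ => mul_nonneg (sq_nonneg _) (D.ker_nonneg _ _ _ _)
  -- the fields, in concrete terms
  have f_hier : ∀ i, i < c.ℓ → ∀ (g : D.Cl i → (ST k →ᵇ ℂ)) (a : D.Cl i → ℝ), D.Adm i g a → ∀ (b' : D.Cl i → ℝ) (b : D.Cl (i + 1) → ℝ), (∀ T', 0 ≤ b' T') →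
      (∀ T', a T' ≠ 0 → 0 < b' T') → (∀ T, 0 ≤ b T) → (∀ T, ∑ T' : D.Cl i, b' T' ^ 2 * D.edge c.Q i T'.1 T.1 ≤ b T ^ 2) →
      ∑ T : D.Cl (i + 1), D.κ (i + 1) ^ (k + 2) * D.amp i g T ^ qk k * b T ^ (2 - qk k)
        ≤ C' * (D.κ 0 / D.κ c.ℓ) ^ ε * ∑ T' : D.Cl i, D.κ i ^ (k + 2) * a T' ^ qk k * b' T' ^ (2 - qk k) := by
    intro i hi g a h b' b hb' hpos hb hdom
    have h0 := hh D hD i hi g a h b' b hb' hpos hb hdom
    have hnn : 0 ≤ ∑ T' : D.Cl i, D.κ i ^ (k + 2) * a T' ^ qk k * b' T' ^ (2 - qk k) :=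
      Finset.sum_nonneg fun T' _ => mul_nonneg (mul_nonneg (pow_pos (hκ i) _).le (Real.rpow_nonneg (ti_pk_nonneg (h T')) _)) (Real.rpow_nonneg (hb' T') _)
    refine h0.trans (mul_le_mul_of_nonneg_right ?_ hnn)
    have h3 : (D.κ i / D.κ (i + 1)) ^ ε ≤ (D.κ 0 / D.κ c.ℓ) ^ ε :=
      Real.rpow_le_rpow (div_pos (hκ _) (hκ _)).le (D.ratio_le hD hi) hε.le
    exact mul_le_mul (by linarith) h3 (Real.rpow_nonneg (div_pos (hκ _) (hκ _)).le _) h0C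
  have f_cauchy : ∀ (i : ℕ) (g : D.Cl i → (ST k →ᵇ ℂ)) (a : D.Cl i → ℝ), D.Adm i g a → ∀ T : D.Cl (i + 1),
      D.amp i g T ^ 2 ≤ C' * (D.κ i / D.κ (i + 1)) ^ k * ∑ T' : D.Cl i, a T' ^ 2 * D.edge c.Q i T'.1 T.1 := by
    intro i g a h T
    have h0 := hcau D hD i g a h T
    have hnn : 0 ≤ ∑ T' : D.Cl i, a T' ^ 2 * D.edge c.Q i T'.1 T.1 :=
      Finset.sum_nonneg fun T' _ => mul_nonneg (sq_nonneg _) (D.edge_nonneg _ _ _ _)
    refine h0.trans (mul_le_mul_of_nonneg_right ?_ hnn)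
    exact mul_le_mul_of_nonneg_right (by linarith) (pow_pos (div_pos (hκ _) (hκ _)) _).le
  have f_l2 : ∀ i, i < c.ℓ → ∀ (g : D.Cl i → (ST k →ᵇ ℂ)) (a : D.Cl i → ℝ), D.Adm i g a →
      ∑ T : D.Cl (i + 1), D.κ (i + 1) ^ (k + 2) * D.amp i g T ^ 2 ≤ C' * ∑ T' : D.Cl i, D.κ i ^ (k + 2) * a T' ^ 2 := by
    intro i hi g a h
    have h0 := hl2 D hD i hi g a h
    have hnn : 0 ≤ ∑ T' : D.Cl i, D.κ i ^ (k + 2) * a T' ^ 2 :=
      Finset.sum_nonneg fun T' _ => mul_nonneg (pow_pos (hκ i) _).le (sq_nonneg _)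
    exact h0.trans (mul_le_mul_of_nonneg_right (by linarith) hnn)
  have f_croot : ∀ (i : ℕ) (g : D.Cl i → (ST k →ᵇ ℂ)) (a : D.Cl i → ℝ), D.Adm i g a → ∀ z : D.Y,
      ‖D.Ev i g (D.pt z)‖ ^ 2 ≤ C' * D.κ i ^ k * ∑ T : D.Cl i, a T ^ 2 * D.ker c.Q i T.1 (D.pt z) := by
    intro i g a h z
    have h0 := hroot D hD i g a h (D.pt z)
    have h1 : ‖D.Ev i g (D.pt z)‖ ^ 2 ≤ (∑ T : D.Cl i, ‖D.msk i T.1.1 (D.pt z)‖ * ‖g T (D.pt z)‖) ^ 2 :=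
      pow_le_pow_left₀ (norm_nonneg _) (habs i g _) 2
    refine (h1.trans h0).trans (mul_le_mul_of_nonneg_right ?_ (hsqnn i a _))
    exact mul_le_mul_of_nonneg_right (by linarith) (pow_pos (hκ i) _).le
  have f_junk : ∀ i, i < c.ℓ → ∀ (g : D.Cl i → (ST k →ᵇ ℂ)) (a : D.Cl i → ℝ), D.Adm i g a → ∀ z : D.Y,
      ‖D.Ev i g (D.pt z) - D.Ev (i + 1) (D.asm i g) (D.pt z)‖ ^ 2 ≤ (C' * D.ηw * D.κ 0 ^ k) ^ 2 * ∑ T : D.Cl i, a T ^ 2 * D.ker c.Q i T.1 (D.pt z) := by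
    intro i hi g a h z
    rw [ti_junk_id D hD i g (D.pt z)]
    have hrhs : 0 ≤ (C' * D.ηw * D.κ 0 ^ k) ^ 2 * ∑ T : D.Cl i, a T ^ 2 * D.ker c.Q i T.1 (D.pt z) := mul_nonneg (sq_nonneg _) (hsqnn i a _)
    split_ifs with htr
    · simpa using hrhs
    · have h0 := hroot D hD i g a h (D.pt z)
      set Sg := ∑ T : D.Cl i, ‖D.msk i T.1.1 (D.pt z)‖ * ‖g T (D.pt z)‖ with hSg
      have hSg0 : 0 ≤ Sg := Finset.sum_nonneg fun T _ => mul_nonneg (norm_nonneg _) (norm_nonneg _)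
      have h1 : ‖∑ T' : D.Cl i, D.msk i T'.1.1 (D.pt z) * (1 - D.ms (i + 1) (D.par i T'.1.1) (D.pt z)) * g T' (D.pt z)‖ ≤ D.ηw * Sg := by
        rw [hSg, Finset.mul_sum]
        refine (norm_sum_le _ _).trans (Finset.sum_le_sum fun T _ => ?_)
        rw [norm_mul, norm_mul]
        have := hD.win i hi htr z (D.par i T.1.1)
        calc ‖D.msk i T.1.1 (D.pt z)‖ * ‖1 - D.ms (i + 1) (D.par i T.1.1) (D.pt z)‖ * ‖g T (D.pt z)‖
            ≤ ‖D.msk i T.1.1 (D.pt z)‖ * D.ηw * ‖g T (D.pt z)‖ :=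
              mul_le_mul_of_nonneg_right (mul_le_mul_of_nonneg_left this (norm_nonneg _)) (norm_nonneg _)
          _ = D.ηw * (‖D.msk i T.1.1 (D.pt z)‖ * ‖g T (D.pt z)‖) := by ring
      have h2 := pow_le_pow_left₀ (norm_nonneg _) h1 2
      refine h2.trans ?_
      rw [mul_pow]
      have h3 : D.ηw ^ 2 * Sg ^ 2 ≤ D.ηw ^ 2 * (Cr * D.κ i ^ k * ∑ T : D.Cl i, a T ^ 2 * D.ker c.Q i T.1 (D.pt z)) :=
        mul_le_mul_of_nonneg_left h0 (sq_nonneg _)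
      refine h3.trans ?_
      rw [← mul_assoc]
      refine mul_le_mul_of_nonneg_right ?_ (hsqnn i a _)
      have h4 : D.κ i ^ k ≤ D.κ 0 ^ k := pow_le_pow_left₀ (hκ i).le (D.κ_le hD (Nat.zero_le i)) k
      have h5 : 1 ≤ D.κ 0 ^ k := one_le_pow₀ (hD.one_le_κ 0)
      have h6 : Cr * D.κ i ^ k ≤ (C' * D.κ 0 ^ k) ^ 2 := by
        have h7 : Cr * D.κ i ^ k ≤ C' * D.κ 0 ^ k := mul_le_mul (by linarith) h4 (pow_pos (hκ i) _).le h0C
        have h8 : 1 ≤ C' * D.κ 0 ^ k := by nlinarith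
        nlinarith
      calc D.ηw ^ 2 * (Cr * D.κ i ^ k) ≤ D.ηw ^ 2 * (C' * D.κ 0 ^ k) ^ 2 := mul_le_mul_of_nonneg_left h6 (sq_nonneg _)
        _ = (C' * D.ηw * D.κ 0 ^ k) ^ 2 := by ring
  have f_sq : ∀ i, i ≤ c.ℓ → ∀ z : D.Y, ∑ T : D.Cl i, D.bb i T ^ 2 * D.ker c.Q i T.1 (D.pt z) ≤ C' * D.ϖ := by
    intro i hi z
    have h0 := hsq D hD i hi z
    have h1 : ∑ T : D.Cl i, D.bb i T ^ 2 * D.ker c.Q i T.1 (D.pt z) ≤ ∑ T : D.Cl i, D.bb i T ^ 2 * D.ker c.P i T.1 (D.pt z) :=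
      Finset.sum_le_sum fun T _ => mul_le_mul_of_nonneg_left (D.ker_anti hPQ _ _ _) (sq_nonneg _)
    exact (h1.trans h0).trans (mul_le_mul_of_nonneg_right (by linarith) (by linarith [hD.one_le_ϖ]))
  have f_inc : ∀ i, i ≤ c.ℓ → ∀ z : D.Y, ∑ T : D.Cl i, (if D.near i (D.pt z) T.1 then D.bb i T ^ 2 else 0) ≤ C' * D.G 0 ^ (2 * c.P) * D.ϖ := by
    intro i hi z
    have h0 := hinc D hD i hi z
    refine h0.trans (mul_le_mul_of_nonneg_right (mul_le_mul_of_nonneg_right (by linarith) ?_) (by linarith [hD.one_le_ϖ]))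
    exact Real.rpow_nonneg (by linarith [hD.one_le_G 0 (Nat.zero_le _)]) _
  have f_L : 1 ≤ C' * (D.κ 0 / D.κ c.ℓ) ^ ε := by
    have := Real.one_le_rpow (D.one_le_ratio hD (Nat.zero_le c.ℓ)) hε.le
    nlinarith
  have f_Γ : ∀ i, 1 ≤ C' * (D.κ i / D.κ (i + 1)) ^ k := by
    intro i
    have := one_le_pow₀ (D.one_le_ratio hD (Nat.le_succ i)) (n := k)
    nlinarith
  have f_Γr : ∀ i, 1 ≤ C' * D.κ i ^ k := by
    intro i
    have := one_le_pow₀ (hD.one_le_κ i) (n := k)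
    nlinarith
  have f_η : 0 ≤ C' * D.ηw * D.κ 0 ^ k := mul_nonneg (mul_nonneg h0C hD.ηw_nonneg) (pow_pos (hκ 0) _).le
  have f_ϖ0 : 1 ≤ C' * D.ϖ := by
    have := hD.one_le_ϖ
    nlinarith
  have f_ϖ1 : 1 ≤ C' * D.G 0 ^ (2 * c.P) * D.ϖ := by
    have h1 := hD.one_le_ϖ
    have h2 : 1 ≤ D.G 0 ^ (2 * c.P) := Real.one_le_rpow (hD.one_le_G 0 (Nat.zero_le _)) (by linarith)
    have h3 : 1 ≤ C' * D.G 0 ^ (2 * c.P) := by nlinarith
    nlinarith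
  exact
    { q_gt := ti_qk_gt hc.k_pos
      vol_pos := fun i => pow_pos (hκ i) _
      w_nonneg := fun i T z => D.ker_nonneg _ _ _ _
      wh_nonneg := fun T z => D.ker_nonneg _ _ _ _
      wh_le := fun T z => le_rfl
      eh_nonneg := fun i T' T => D.edge_nonneg _ _ _ _
      eh_le := fun i T' T => D.edge_anti hPQ _ _ _
      b_nonneg := fun i T => D.bb_nonneg hs0 i T
      one_le_L := f_L
      one_le_L0 := hL0
      one_le_Γ := f_Γ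
      one_le_Γr := f_Γr
      one_le_Γ2 := h1C
      η_nonneg := f_η
      one_le_ϖ0 := f_ϖ0
      one_le_ϖ1 := f_ϖ1
      pk_nonneg := fun i T a f h => ti_pk_nonneg h
      pk_zero := fun i T => ti_pk_zero _ _ _ _ _
      pk_mono := fun i T a a' f h ha => ti_pk_mono h ha
      pk_add := fun i T a a' f f' h h' => ti_pk_add h h'
      pk_neg := fun i T a f h => ti_pk_neg h
      ev_add := fun i T f f' z => mul_add (D.msk i T.1.1 (D.pt z)) ((show ST k →ᵇ ℂ from f) (D.pt z)) ((show ST k →ᵇ ℂ from f') (D.pt z))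
      asm_add := fun i g g' => D.asm_add i g g'
      amp_nonneg := fun i g T => D.amp_nonneg hχ i g T
      amp_add := fun i g g' T => D.amp_add hC0 hχ i g g' T
      amp_neg := fun i g T => D.amp_neg i g T
      leaf := fun T => hD.leaf T.1 T.2
      closure := fun i _ g a h => ti_closure hc D hD i g a h
      hier := fun i hi g a h b' b hb' hpos hb hdom => f_hier i hi g a h b' b hb' hpos hb hdom
      cauchy := fun i _ g a h T => f_cauchy i g a h T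
      l2 := fun i hi g a h => f_l2 i hi g a h
      cauchy_root := fun i _ g a h z => f_croot i g a h z
      junk := fun i hi g a h z => f_junk i hi g a h z
      root := hR
      dom := fun i _ T => (D.bb_succ_sq i T).ge
      sq_le := fun i hi z => f_sq i hi z
      inc_le := fun i hi z => f_inc i hi z }

/-- **`TSys.Ok`, POWER CASE**: root count from `p:weighted`, loss `C κ_ℓ^ε`, no restriction on `Rm` -/
theorem ti_ok_pow (hc : c.Ok) (hW : WtAt k (qk k) c.Q c.M) (h2 : L2At k c.M) {ε : ℝ} (hε : 0 < ε) : ∃ C : ℝ, 1 ≤ C ∧ ∀ C' : ℝ, C ≤ C' → ∀ D : TDat c, D.Good →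
    ∀ Rm : ℝ, D.sys.Ok (D.tp C' ε (C' * D.κ c.ℓ ^ ε) Rm) := by
  obtain ⟨C1, hC1, h1⟩ := ti_ok_core hc hW h2 hε
  obtain ⟨C2, hC2, hr⟩ := ti_root_pow hc hW hε
  refine ⟨C1 + C2, by linarith, fun C' hC' D hD Rm => ?_⟩
  have hκ1 : 1 ≤ D.κ c.ℓ ^ ε := Real.one_le_rpow (hD.one_le_κ _) hε.le
  refine h1 C' (by linarith) D hD _ Rm (by nlinarith) ?_
  intro g a hg b hb hpos Y' θ ϖ ρ hθ hϖ _ _ hY
  have h0 := hr D hD g a hg b hb hpos Y' θ ϖ hθ hϖ hY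
  refine h0.trans ?_
  have hnn : 0 ≤ ∑ T : D.Cl c.ℓ, D.κ c.ℓ ^ (k + 2) * a T ^ qk k * b T ^ (2 - qk k) :=
    Finset.sum_nonneg fun T _ => mul_nonneg (mul_nonneg (pow_pos (D.κ_pos hD _) _).le (Real.rpow_nonneg (ti_pk_nonneg (hg T)) _)) (Real.rpow_nonneg (hb T) _)
  refine mul_le_mul_of_nonneg_right (mul_le_mul_of_nonneg_right (mul_le_mul_of_nonneg_right (mul_le_mul_of_nonneg_right (by linarith) (by linarith)) ?_) ?_) hnn
  · exact Real.rpow_nonneg hθ.le _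
  · exact Real.rpow_nonneg hϖ.le _

/-- **`TSys.Ok`, SUBPOWER CASE**: root count from `p:near-cauchy`, loss `C Rm^ε` -/
theorem ti_ok_sub (hc : c.Ok) (hW : WtAt k (qk k) c.Q c.M) (h2 : L2At k c.M) (hN : NcAt k c.Q c.M) {ε : ℝ} (hε : 0 < ε) : ∃ C : ℝ, 1 ≤ C ∧ ∀ C' : ℝ, C ≤ C' → ∀ D : TDat c, D.Good →
    ∀ Rm : ℝ, 1 ≤ Rm → D.sys.Ok (D.tp C' ε (C' * Rm ^ ε) Rm) := by
  obtain ⟨C1, hC1, h1⟩ := ti_ok_core hc hW h2 hε
  obtain ⟨C2, hC2, hr⟩ := ti_root_sub hc hN hε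
  refine ⟨C1 + C2, by linarith, fun C' hC' D hD Rm hRm => ?_⟩
  have hR1 : 1 ≤ Rm ^ ε := Real.one_le_rpow hRm hε.le
  refine h1 C' (by linarith) D hD _ Rm (by nlinarith) ?_
  intro g a hg b hb hpos Y' θ ϖ ρ hθ hϖ hρ hRR hY
  have hRR' : ρ ^ 2 * D.κ c.ℓ ^ k * ϖ ≤ (Rm * θ) ^ 2 := by
    refine le_trans ?_ hRR
    show ρ ^ 2 * D.κ c.ℓ ^ k * ϖ ≤ ρ ^ 2 * (C' * D.κ c.ℓ ^ k) * ϖ
    refine mul_le_mul_of_nonneg_right (mul_le_mul_of_nonneg_left ?_ (sq_nonneg _)) hϖ.le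
    have := (pow_pos (D.κ_pos hD c.ℓ) k).le
    nlinarith
  have h0 := hr D hD Rm hRm g a hg b hb hpos Y' θ ϖ ρ hθ hϖ hρ hRR' hY
  refine h0.trans ?_
  have hnn : 0 ≤ ∑ T : D.Cl c.ℓ, D.κ c.ℓ ^ (k + 2) * a T ^ qk k * b T ^ (2 - qk k) :=
    Finset.sum_nonneg fun T _ => mul_nonneg (mul_nonneg (pow_pos (D.κ_pos hD _) _).le (Real.rpow_nonneg (ti_pk_nonneg (hg T)) _)) (Real.rpow_nonneg (hb T) _)
  refine mul_le_mul_of_nonneg_right (mul_le_mul_of_nonneg_right (mul_le_mul_of_nonneg_right (mul_le_mul_of_nonneg_right (by linarith) (by linarith)) ?_) ?_) hnn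
  · exact Real.rpow_nonneg hθ.le _
  · exact Real.rpow_nonneg hϖ.le _

end

end Claimed.Agent.R257.Tree
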