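import Claimed.Agent.R257.Tree.Defs
import Claimed.Agent.Lib.BD.Wt

/-!
# ROW 257, package FR2, unit INST, post GEO, file 1: THE KIT (lattice sums, the transfer map, `p:convolution`)      (owner helper238)
Paper-free.  Prefix `tg_`.
* `tg_sum_sep`     sums of `(1 + |c - u|)^{-E}` over an `r`-separated set, `r ≤ 1`: `≤ C r^{-dim}`
* `tg_sum_latE`, `tg_sum_latR`   the lattices `r ℤ^k`, `r ℤ`
* `tg_split`       `(1 + |X|)^{-(A₁+A₂)} ≤ (1 + |X.1|)^{-A₁} (1 + |X.2|)^{-A₂}`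
* `tg_sum_lat`     `∑_m (1 + |X - m|)^{-A} ≤ C`;   `tg_sum_shear`   the sheared contracted lattice: `≤ C r^{-(k+2)}`
* `tg_transfer`    parent native coordinates → child native coordinates;  `tg_transfer_norm`
* `tg_bc`          **H `p:convolution`**, same order on both sides, constant independent of the scales
-/

set_option autoImplicit false

namespace Claimed.Agent.R257.Tree

open Claimed.Agent.R257 MeasureTheory Metric
open scoped BigOperators Classical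

noncomputable section

/-! ## 1. Separated sets -/

section sep

variable {V : Type} [NormedAddCommGroup V] [InnerProductSpace ℝ V] [FiniteDimensional ℝ V] [MeasurableSpace V] [BorelSpace V]

theorem tg_sum_sep_aux {E : ℝ} (hE : (Module.finrank ℝ V : ℝ) < E) {r : ℝ} (hr : 0 < r) (hr1 : r ≤ 1) (t : Finset V)
    (h : ∀ c ∈ t, ∀ c' ∈ t, c ≠ c' → r ≤ ‖c - c'‖) :
    ∑ c ∈ t, (1 + ‖c‖) ^ (-E)
      ≤ (3 / 2) ^ E * (∫ x : V, (1 + ‖x‖) ^ (-E)) / (volume : Measure V).real (ball (0 : V) (r / 2)) := by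
  have hE0 : 0 ≤ E := (Nat.cast_nonneg _).trans hE.le
  have hint : Integrable (fun x : V => (1 + ‖x‖) ^ (-E)) volume := integrable_one_add_norm hE
  have hpos : ∀ x : V, 0 < (1 + ‖x‖) ^ (-E) := fun x => Real.rpow_pos_of_pos (by positivity) _
  set m : ℝ := (volume : Measure V).real (ball (0 : V) (r / 2)) with hm
  have hm0 : 0 < m := by
    rw [hm, Measure.real]
    exact ENNReal.toReal_pos (measure_ball_pos _ _ (by positivity)).ne' measure_ball_lt_top.ne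
  have hmc : ∀ c : V, (volume : Measure V).real (ball c (r / 2)) = m := by
    intro c
    rw [hm, Measure.real, Measure.real, Measure.addHaar_ball_center]
  have D : Set.Pairwise (t : Set V) (Function.onFun Disjoint fun c => ball (c : V) (r / 2)) := by
    rintro c hc d hd hcd
    apply ball_disjoint_ball
    rw [dist_eq_norm]
    have := h c hc d hd hcd
    linarith
  have key : ∀ c ∈ t, m * ((3 / 2) ^ (-E) * (1 + ‖c‖) ^ (-E)) ≤ ∫ x in ball c (r / 2), (1 + ‖x‖) ^ (-E) := by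
    intro c _
    have h1 : ∫ _x in ball c (r / 2), ((3 / 2 : ℝ) ^ (-E) * (1 + ‖c‖) ^ (-E)) = m * ((3 / 2) ^ (-E) * (1 + ‖c‖) ^ (-E)) := by
      rw [setIntegral_const, hmc, smul_eq_mul]
    rw [← h1]
    refine setIntegral_mono_on (integrableOn_const measure_ball_lt_top.ne) hint.integrableOn measurableSet_ball fun x hx => ?_
    rw [← Real.mul_rpow (by norm_num) (by positivity)]
    apply Real.rpow_le_rpow_of_nonpos (by positivity) _ (by linarith)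
    rw [mem_ball, dist_eq_norm] at hx
    have h2 : ‖x‖ ≤ ‖x - c‖ + ‖c‖ := by
      have := norm_add_le (x - c) c
      rwa [sub_add_cancel] at this
    nlinarith [norm_nonneg c]
  have h2 : ∑ c ∈ t, m * ((3 / 2) ^ (-E) * (1 + ‖c‖) ^ (-E)) ≤ ∫ x : V, (1 + ‖x‖) ^ (-E) := by
    calc ∑ c ∈ t, m * ((3 / 2) ^ (-E) * (1 + ‖c‖) ^ (-E))
        ≤ ∑ c ∈ t, ∫ x in ball c (r / 2), (1 + ‖x‖) ^ (-E) := Finset.sum_le_sum key
      _ = ∫ x in ⋃ c ∈ t, ball c (r / 2), (1 + ‖x‖) ^ (-E) :=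
          (integral_biUnion_finset t (fun c _ => measurableSet_ball) D fun c _ => hint.integrableOn).symm
      _ ≤ _ := setIntegral_le_integral hint (Filter.Eventually.of_forall fun x => (hpos x).le)
  rw [le_div_iff₀ hm0]
  have h3 : (0 : ℝ) < (3 / 2) ^ E := Real.rpow_pos_of_pos (by norm_num) _
  have h4 : (3 / 2 : ℝ) ^ E * (3 / 2) ^ (-E) = 1 := by
    rw [← Real.rpow_add (by norm_num), add_neg_cancel, Real.rpow_zero]
  calc (∑ c ∈ t, (1 + ‖c‖) ^ (-E)) * m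
      = (3 / 2) ^ E * ∑ c ∈ t, m * ((3 / 2) ^ (-E) * (1 + ‖c‖) ^ (-E)) := by
        rw [Finset.sum_mul, Finset.mul_sum]
        refine Finset.sum_congr rfl fun c _ => ?_
        calc (1 + ‖c‖) ^ (-E) * m = ((3 / 2 : ℝ) ^ E * (3 / 2) ^ (-E)) * ((1 + ‖c‖) ^ (-E) * m) := by rw [h4, one_mul]
          _ = _ := by ring
    _ ≤ _ := mul_le_mul_of_nonneg_left h2 h3.le

/-- sums over an `r`-separated set, `r ≤ 1` -/
theorem tg_sum_sep {E : ℝ} (hE : (Module.finrank ℝ V : ℝ) < E) :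
    ∃ C : ℝ, 0 ≤ C ∧ ∀ (r : ℝ) (t : Finset V) (u : V), 0 < r → r ≤ 1 → (∀ c ∈ t, ∀ c' ∈ t, c ≠ c' → r ≤ ‖c - c'‖) →
      ∑ c ∈ t, (1 + ‖c - u‖) ^ (-E) ≤ C * (r⁻¹) ^ Module.finrank ℝ V := by
  have hI : 0 ≤ ∫ x : V, (1 + ‖x‖) ^ (-E) := integral_nonneg fun x => Real.rpow_nonneg (by positivity) _
  set m1 : ℝ := (volume : Measure V).real (ball (0 : V) 1) with hm1
  have hm10 : 0 < m1 := by
    rw [hm1, Measure.real]
    exact ENNReal.toReal_pos (measure_ball_pos _ _ (by norm_num)).ne' measure_ball_lt_top.ne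
  refine ⟨(3 / 2) ^ E * (∫ x : V, (1 + ‖x‖) ^ (-E)) * 2 ^ Module.finrank ℝ V / m1, by positivity, fun r t u hr hr1 h => ?_⟩
  have hinj : Set.InjOn (fun c : V => c - u) t := fun c _ c' _ e => sub_left_injective e
  have h1 := tg_sum_sep_aux hE hr hr1 (t.image fun c : V => c - u) (by
    intro x hx y hy hne
    obtain ⟨c, hc, rfl⟩ := Finset.mem_image.1 hx
    obtain ⟨c', hc', rfl⟩ := Finset.mem_image.1 hy
    have hcc : c ≠ c' := fun e => hne (by rw [e])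
    rw [sub_sub_sub_cancel_right]
    exact h c hc c' hc' hcc)
  rw [Finset.sum_image hinj] at h1
  refine h1.trans (le_of_eq ?_)
  have hv : (volume : Measure V).real (ball (0 : V) (r / 2)) = (r / 2) ^ Module.finrank ℝ V * m1 := by
    rw [hm1, Measure.real, Measure.real, Measure.addHaar_ball_of_pos volume (0 : V) (by positivity : (0:ℝ) < r / 2), ENNReal.toReal_mul,
      ENNReal.toReal_ofReal (by positivity)]
  rw [hv, div_pow, inv_pow]
  field_simp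

end sep

/-! ## 2. Lattices -/

variable {k : ℕ}

/-- the spatial lattice point -/
def latE (j : Fin k → ℤ) : E k := WithLp.toLp 2 (fun i => (j i : ℝ))

theorem tg_lat_fst (m : Lat k) : (lat m).1 = latE m.1 := rfl

theorem tg_lat_snd (m : Lat k) : (lat m).2 = (m.2 : ℝ) := rfl

theorem tg_latE_sep {j j' : Fin k → ℤ} (h : j ≠ j') : 1 ≤ ‖latE j - latE j'‖ := by
  obtain ⟨i, hi⟩ := Function.ne_iff.1 h
  have h1 : ‖(latE j - latE j') i‖ ≤ ‖latE j - latE j'‖ := PiLp.norm_apply_le _ i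
  have h2 : (latE j - latE j') i = ((j i - j' i : ℤ) : ℝ) := by
    simp [latE]
  rw [h2, Real.norm_eq_abs, ← Int.cast_abs] at h1
  have h3 : (1 : ℤ) ≤ |j i - j' i| := Int.one_le_abs (sub_ne_zero.2 hi)
  have h4 : (1 : ℝ) ≤ ((|j i - j' i| : ℤ) : ℝ) := by exact_mod_cast h3
  linarith

theorem tg_latE_inj : Function.Injective (latE : (Fin k → ℤ) → E k) := by
  intro j j' e
  by_contra h
  have := tg_latE_sep h
  rw [e, sub_self, norm_zero] at this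
  linarith

/-- the lattice `r ℤ^k` -/
theorem tg_sum_latE (k : ℕ) {A : ℝ} (hA : (k : ℝ) < A) :
    ∃ C : ℝ, 0 ≤ C ∧ ∀ (r : ℝ) (t : Finset (Fin k → ℤ)) (y : E k), 0 < r → r ≤ 1 →
      ∑ j ∈ t, (1 + ‖r • latE j - y‖) ^ (-A) ≤ C * (r⁻¹) ^ k := by
  obtain ⟨C, hC, h⟩ := tg_sum_sep (V := E k) (E := A) (by rw [finrank_euclideanSpace_fin]; exact hA)
  refine ⟨C, hC, fun r t y hr hr1 => ?_⟩
  have hinj : Set.InjOn (fun j : Fin k → ℤ => r • latE j) t := fun j _ j' _ e =>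
    tg_latE_inj (smul_right_injective (E k) hr.ne' e)
  have h1 := h r (t.image fun j => r • latE j) y hr hr1 (by
    intro x hx x' hx' hne
    obtain ⟨j, _, rfl⟩ := Finset.mem_image.1 hx
    obtain ⟨j', _, rfl⟩ := Finset.mem_image.1 hx'
    have hjj : j ≠ j' := fun e => hne (by rw [e])
    rw [← smul_sub, norm_smul, Real.norm_of_nonneg hr.le]
    have := tg_latE_sep hjj
    nlinarith)
  rw [Finset.sum_image hinj, finrank_euclideanSpace_fin] at h1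
  exact h1

/-- the lattice `r ℤ` -/
theorem tg_sum_latR {A : ℝ} (hA : 1 < A) :
    ∃ C : ℝ, 0 ≤ C ∧ ∀ (r : ℝ) (t : Finset ℤ) (y : ℝ), 0 < r → r ≤ 1 →
      ∑ n ∈ t, (1 + |r * (n : ℝ) - y|) ^ (-A) ≤ C * r⁻¹ := by
  obtain ⟨C, hC, h⟩ := tg_sum_sep (V := ℝ) (E := A) (by rw [Module.finrank_self]; exact_mod_cast hA)
  refine ⟨C, hC, fun r t y hr hr1 => ?_⟩
  have hinj : Set.InjOn (fun n : ℤ => r * (n : ℝ)) t := fun n _ n' _ e => by
    have : (n : ℝ) = n' := mul_left_cancel₀ hr.ne' e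
    exact_mod_cast this
  have h1 := h r (t.image fun n : ℤ => r * (n : ℝ)) y hr hr1 (by
    intro x hx x' hx' hne
    obtain ⟨n, _, rfl⟩ := Finset.mem_image.1 hx
    obtain ⟨n', _, rfl⟩ := Finset.mem_image.1 hx'
    have hnn : n ≠ n' := fun e => hne (by rw [e])
    rw [← mul_sub, norm_mul, Real.norm_of_nonneg hr.le, Real.norm_eq_abs]
    have h3 : (1 : ℤ) ≤ |n - n'| := Int.one_le_abs (sub_ne_zero.2 hnn)
    have h4 : (1 : ℝ) ≤ |(n : ℝ) - n'| := by exact_mod_cast h3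
    nlinarith)
  rw [Finset.sum_image hinj, Module.finrank_self, pow_one] at h1
  simpa only [Real.norm_eq_abs] using h1

/-- splitting of the weight of a product norm -/
theorem tg_split {A₁ A₂ : ℝ} (h1 : 0 ≤ A₁) (h2 : 0 ≤ A₂) (X : ST k) :
    (1 + ‖X‖) ^ (-(A₁ + A₂)) ≤ (1 + ‖X.1‖) ^ (-A₁) * (1 + |X.2|) ^ (-A₂) := by
  have hX : 0 < 1 + ‖X‖ := by positivity
  rw [neg_add, Real.rpow_add hX]
  have a1 : ‖X.1‖ ≤ ‖X‖ := norm_fst_le X
  have a2 : |X.2| ≤ ‖X‖ := by rw [← Real.norm_eq_abs]; exact norm_snd_le X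
  refine mul_le_mul ?_ ?_ (Real.rpow_nonneg hX.le _) (Real.rpow_nonneg (by positivity) _)
  · exact Real.rpow_le_rpow_of_nonpos (by positivity) (by linarith) (by linarith)
  · exact Real.rpow_le_rpow_of_nonpos (by positivity) (by linarith) (by linarith)

/-- the transfer map: parent native coordinates → child native coordinates (`r` = ratio of the scales, `w` = normalised shear) -/
def tgB (r : ℝ) (w : E k) (X : ST k) : ST k := (r • (X.1 + X.2 • w), r ^ 2 * X.2)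

/-- the sheared contracted lattice -/
theorem tg_sum_shear (k : ℕ) {A : ℝ} (hA : (k : ℝ) + 1 < A) :
    ∃ C : ℝ, 0 ≤ C ∧ ∀ (r : ℝ) (w : E k) (u : ST k) (s : Finset (Lat k)), 0 < r → r ≤ 1 →
      ∑ m ∈ s, (1 + ‖tgB r w (lat m) - u‖) ^ (-A) ≤ C * (r⁻¹) ^ (k + 2) := by
  set A₁ : ℝ := k + (A - k - 1) / 2 with hA₁
  set A₂ : ℝ := 1 + (A - k - 1) / 2 with hA₂
  have hk : (0 : ℝ) ≤ k := Nat.cast_nonneg k
  have e : A = A₁ + A₂ := by rw [hA₁, hA₂]; ring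
  obtain ⟨C₁, hC₁, H₁⟩ := tg_sum_latE k (A := A₁) (by rw [hA₁]; linarith)
  obtain ⟨C₂, hC₂, H₂⟩ := tg_sum_latR (A := A₂) (by rw [hA₂]; linarith)
  refine ⟨C₁ * C₂, mul_nonneg hC₁ hC₂, fun r w u s hr hr1 => ?_⟩
  have hr2 : 0 < r ^ 2 := by positivity
  have hr21 : r ^ 2 ≤ 1 := by nlinarith
  set f : (Fin k → ℤ) → ℤ → ℝ := fun j n =>
    (1 + ‖r • latE j - (u.1 - (r * (n : ℝ)) • w)‖) ^ (-A₁) * (1 + |r ^ 2 * (n : ℝ) - u.2|) ^ (-A₂) with hf
  have hf0 : ∀ j n, 0 ≤ f j n := fun j n => mul_nonneg (Real.rpow_nonneg (by positivity) _) (Real.rpow_nonneg (by positivity) _)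
  have h1 : ∀ m ∈ s, (1 + ‖tgB r w (lat m) - u‖) ^ (-A) ≤ f m.1 m.2 := by
    intro m _
    rw [e]
    refine (tg_split (by rw [hA₁]; linarith) (by rw [hA₂]; linarith) _).trans (le_of_eq ?_)
    rw [hf]
    simp only [tgB, Prod.fst_sub, Prod.snd_sub, tg_lat_fst, tg_lat_snd]
    congr 3
    rw [smul_add, smul_smul]
    abel_nf
  calc ∑ m ∈ s, (1 + ‖tgB r w (lat m) - u‖) ^ (-A) ≤ ∑ m ∈ s, f m.1 m.2 := Finset.sum_le_sum h1
    _ ≤ ∑ m ∈ s.image Prod.fst ×ˢ s.image Prod.snd, f m.1 m.2 := by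
        refine Finset.sum_le_sum_of_subset_of_nonneg ?_ fun m _ _ => hf0 _ _
        intro m hm
        exact Finset.mem_product.2 ⟨Finset.mem_image_of_mem _ hm, Finset.mem_image_of_mem _ hm⟩
    _ = ∑ n ∈ s.image Prod.snd, ∑ j ∈ s.image Prod.fst, f j n := by rw [Finset.sum_product_right]
    _ ≤ ∑ n ∈ s.image Prod.snd, C₁ * (r⁻¹) ^ k * (1 + |r ^ 2 * (n : ℝ) - u.2|) ^ (-A₂) := by
        refine Finset.sum_le_sum fun n _ => ?_
        rw [hf]
        simp only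
        rw [← Finset.sum_mul]
        exact mul_le_mul_of_nonneg_right (H₁ r _ _ hr hr1) (Real.rpow_nonneg (by positivity) _)
    _ = C₁ * (r⁻¹) ^ k * ∑ n ∈ s.image Prod.snd, (1 + |r ^ 2 * (n : ℝ) - u.2|) ^ (-A₂) := by rw [Finset.mul_sum]
    _ ≤ C₁ * (r⁻¹) ^ k * (C₂ * (r ^ 2)⁻¹) := mul_le_mul_of_nonneg_left (H₂ _ _ _ hr2 hr21) (by positivity)
    _ = C₁ * C₂ * (r⁻¹) ^ (k + 2) := by rw [pow_add, inv_pow, inv_pow]; ring

/-- the unit lattice -/
theorem tg_sum_lat (k : ℕ) {A : ℝ} (hA : (k : ℝ) + 1 < A) :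
    ∃ C : ℝ, 0 ≤ C ∧ ∀ (X : ST k) (s : Finset (Lat k)), ∑ m ∈ s, (1 + ‖X - lat m‖) ^ (-A) ≤ C := by
  obtain ⟨C, hC, H⟩ := tg_sum_shear k hA
  refine ⟨C, hC, fun X s => ?_⟩
  have := H 1 0 X s one_pos le_rfl
  simp only [inv_one, one_pow, mul_one] at this
  refine le_trans (le_of_eq (Finset.sum_congr rfl fun m _ => ?_)) this
  have : tgB 1 (0 : E k) (lat m) = lat m := by
    simp [tgB]
  rw [this, norm_sub_rev]

/-! ## 3. The transfer map -/

theorem tg_transfer {κ κ' : ℝ} (hκ' : κ' ≠ 0) (v v' : E k) (X : ST k) :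
    natX κ' v' (natI κ v X) = tgB (κ / κ') ((2 * κ) • (v - v')) X := by
  unfold natX natI tgB
  ext1
  · simp only
    rw [smul_add, smul_smul, smul_smul, add_sub_assoc, ← smul_sub, smul_add, smul_smul, smul_smul]
    congr 2
    · field_simp
    · field_simp
  · simp only
    field_simp

theorem tg_B_sub (r : ℝ) (w : E k) (X Y : ST k) : tgB r w (X - Y) = tgB r w X - tgB r w Y := by
  unfold tgB
  ext1
  · simp only [Prod.fst_sub, Prod.snd_sub, sub_smul, smul_sub, smul_add]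
    abel
  · simp only [Prod.snd_sub, mul_sub]

theorem tg_B_norm {r : ℝ} (hr : 0 ≤ r) (hr1 : r ≤ 1) (w : E k) (X : ST k) : ‖tgB r w X‖ ≤ r * (1 + ‖w‖) * ‖X‖ := by
  have a1 : ‖X.1‖ ≤ ‖X‖ := norm_fst_le X
  have a2 : |X.2| ≤ ‖X‖ := by rw [← Real.norm_eq_abs]; exact norm_snd_le X
  have hw := norm_nonneg w
  have hX := norm_nonneg X
  unfold tgB
  rw [Prod.norm_def]
  refine max_le ?_ ?_
  · simp only
    rw [norm_smul, Real.norm_of_nonneg hr, mul_assoc]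
    refine mul_le_mul_of_nonneg_left ?_ hr
    calc ‖X.1 + X.2 • w‖ ≤ ‖X.1‖ + ‖X.2 • w‖ := norm_add_le _ _
      _ = ‖X.1‖ + |X.2| * ‖w‖ := by rw [norm_smul, Real.norm_eq_abs]
      _ ≤ ‖X‖ + ‖X‖ * ‖w‖ := add_le_add a1 (mul_le_mul_of_nonneg_right a2 hw)
      _ = (1 + ‖w‖) * ‖X‖ := by ring
  · simp only
    rw [norm_mul, Real.norm_eq_abs, Real.norm_eq_abs, abs_of_nonneg (by positivity : (0:ℝ) ≤ r ^ 2)]
    have h1 : r ^ 2 ≤ r := by nlinarith
    calc r ^ 2 * |X.2| ≤ r * ‖X‖ := mul_le_mul h1 a2 (abs_nonneg _) hr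
      _ ≤ r * (1 + ‖w‖) * ‖X‖ := by
        have : 0 ≤ r * ‖w‖ * ‖X‖ := by positivity
        nlinarith

/-- child native coordinates contract parent native coordinates (up to the bounded shear) -/
theorem tg_lip {κ κ' Cc : ℝ} {v v' : E k} (hκ : 1 ≤ κ) (hκκ : κ ≤ κ') (hv : ‖v' - v‖ ≤ Cc / κ) (y : ST k) :
    ‖natX κ' v' y‖ ≤ (1 + 2 * Cc) * ‖natX κ v y‖ := by
  have hκ0 : 0 < κ := by linarith
  have hκ'0 : 0 < κ' := by linarith
  have hr0 : 0 < κ / κ' := div_pos hκ0 hκ'0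
  have hr1 : κ / κ' ≤ 1 := (div_le_one hκ'0).2 hκκ
  have hwn : ‖(2 * κ) • (v - v')‖ ≤ 2 * Cc := by
    rw [norm_smul, Real.norm_of_nonneg (by positivity), norm_sub_rev]
    calc 2 * κ * ‖v' - v‖ ≤ 2 * κ * (Cc / κ) := mul_le_mul_of_nonneg_left hv (by positivity)
      _ = 2 * Cc := by field_simp
  have h1 : natX κ' v' y = tgB (κ / κ') ((2 * κ) • (v - v')) (natX κ v y) := by
    rw [← tg_transfer hκ'0.ne' v v', natI_natX hκ0.ne']
  rw [h1]
  refine (tg_B_norm hr0.le hr1 _ _).trans (mul_le_mul_of_nonneg_right ?_ (norm_nonneg _))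
  have h2 : 0 ≤ 1 + ‖(2 * κ) • (v - v')‖ := by positivity
  calc κ / κ' * (1 + ‖(2 * κ) • (v - v')‖) ≤ 1 * (1 + ‖(2 * κ) • (v - v')‖) := mul_le_mul_of_nonneg_right hr1 h2
    _ ≤ 1 + 2 * Cc := by linarith

/-! ## 4. `p:convolution` -/

/-- **H `p:convolution`**: sampling preserves the envelope exponent; the constant depends only on `(k, A, Cc)` -/
theorem tg_bc (k : ℕ) {A Cc : ℝ} (hA : (k : ℝ) + 2 ≤ A) (hCc : 0 ≤ Cc) :
    ∃ C : ℝ, 1 ≤ C ∧ ∀ (κ κ' : ℝ) (v v' : E k) (u' z : ST k) (s : Finset (Lat k)), 1 ≤ κ → κ ≤ κ' → ‖v' - v‖ ≤ Cc / κ →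
      ∑ m ∈ s, pw A κ v (lat m) z * pw A κ' v' u' (natI κ v (lat m)) ≤ C * pw A κ' v' u' z := by
  have hk : (0 : ℝ) ≤ k := Nat.cast_nonneg k
  have hA0 : 0 ≤ A := by linarith
  obtain ⟨C₁, hC₁, H₁⟩ := tg_sum_lat k (A := A) (by linarith)
  obtain ⟨C₂, hC₂, H₂⟩ := tg_sum_shear k (A := A) (by linarith)
  set Lc : ℝ := 2 * (1 + 2 * Cc) with hLc
  have hLc0 : 0 < Lc := by rw [hLc]; positivity
  refine ⟨1 + 2 ^ A * C₁ + Lc ^ A * C₂, by
    have : 0 ≤ 2 ^ A * C₁ := mul_nonneg (Real.rpow_nonneg (by norm_num) _) hC₁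
    have : 0 ≤ Lc ^ A * C₂ := mul_nonneg (Real.rpow_nonneg hLc0.le _) hC₂
    linarith, fun κ κ' v v' u' z s hκ hκκ hv => ?_⟩
  have hκ0 : 0 < κ := by linarith
  have hκ'0 : 0 < κ' := by linarith
  set r : ℝ := κ / κ' with hr
  have hr0 : 0 < r := div_pos hκ0 hκ'0
  have hr1 : r ≤ 1 := (div_le_one hκ'0).2 hκκ
  set w : E k := (2 * κ) • (v - v') with hw
  have hwn : ‖w‖ ≤ 2 * Cc := by
    rw [hw, norm_smul, Real.norm_of_nonneg (by positivity), norm_sub_rev]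
    calc 2 * κ * ‖v' - v‖ ≤ 2 * κ * (Cc / κ) := mul_le_mul_of_nonneg_left hv (by positivity)
      _ = 2 * Cc := by field_simp
  set X : ST k := natX κ v z with hX
  have hBX : natX κ' v' z = tgB r w X := by
    rw [hX, ← tg_transfer hκ'0.ne' v v', natI_natX hκ0.ne']
  set a : ℝ := 1 + ‖tgB r w X - u'‖ with ha
  have ha1 : 1 ≤ a := by rw [ha]; linarith [norm_nonneg (tgB r w X - u')]
  have ha0 : 0 < a := by linarith
  have hpz : pw A κ' v' u' z = a ^ (-A) := by unfold pw; rw [hBX]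
  have hterm : ∀ m : Lat k, pw A κ v (lat m) z * pw A κ' v' u' (natI κ v (lat m))
      = (1 + ‖X - lat m‖) ^ (-A) * (1 + ‖tgB r w (lat m) - u'‖) ^ (-A) := by
    intro m
    unfold pw
    rw [tg_transfer hκ'0.ne']
  have hb : ∀ m : Lat k, (1 + ‖X - lat m‖) ^ (-A) * (1 + ‖tgB r w (lat m) - u'‖) ^ (-A)
      ≤ 2 ^ A * a ^ (-A) * (1 + ‖X - lat m‖) ^ (-A) + Lc ^ A * a ^ (-A) * r ^ A * (1 + ‖tgB r w (lat m) - u'‖) ^ (-A) := by
    intro m
    have p1 : 0 < 1 + ‖X - lat m‖ := by positivity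
    have p2 : 0 < 1 + ‖tgB r w (lat m) - u'‖ := by positivity
    have q1 : 0 ≤ (1 + ‖X - lat m‖) ^ (-A) := Real.rpow_nonneg p1.le _
    have q2 : 0 ≤ (1 + ‖tgB r w (lat m) - u'‖) ^ (-A) := Real.rpow_nonneg p2.le _
    have qa : 0 ≤ a ^ (-A) := Real.rpow_nonneg ha0.le _
    by_cases hc : a / 2 ≤ 1 + ‖tgB r w (lat m) - u'‖
    · have h1 : (1 + ‖tgB r w (lat m) - u'‖) ^ (-A) ≤ (a / 2) ^ (-A) :=
        Real.rpow_le_rpow_of_nonpos (by positivity) hc (by linarith)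
      have h2 : (a / 2) ^ (-A) = 2 ^ A * a ^ (-A) := by
        rw [Real.div_rpow ha0.le (by norm_num), Real.rpow_neg (by norm_num : (0:ℝ) ≤ 2), div_inv_eq_mul, mul_comm]
      have h3 : 0 ≤ Lc ^ A * a ^ (-A) * r ^ A * (1 + ‖tgB r w (lat m) - u'‖) ^ (-A) :=
        mul_nonneg (mul_nonneg (mul_nonneg (Real.rpow_nonneg hLc0.le _) qa) (Real.rpow_nonneg hr0.le _)) q2
      calc (1 + ‖X - lat m‖) ^ (-A) * (1 + ‖tgB r w (lat m) - u'‖) ^ (-A)
          ≤ (1 + ‖X - lat m‖) ^ (-A) * (2 ^ A * a ^ (-A)) := mul_le_mul_of_nonneg_left (h1.trans h2.le) q1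
        _ = 2 ^ A * a ^ (-A) * (1 + ‖X - lat m‖) ^ (-A) := by ring
        _ ≤ _ := le_add_of_nonneg_right h3
    · rw [not_le] at hc
      have h0 : ‖tgB r w X - u'‖ ≤ ‖tgB r w (X - lat m)‖ + ‖tgB r w (lat m) - u'‖ := by
        rw [tg_B_sub]
        have := norm_add_le (tgB r w X - tgB r w (lat m)) (tgB r w (lat m) - u')
        rwa [sub_add_sub_cancel] at this
      have h1 : ‖tgB r w (X - lat m)‖ ≤ r * (1 + 2 * Cc) * ‖X - lat m‖ :=
        (tg_B_norm hr0.le hr1 w _).trans (mul_le_mul_of_nonneg_right (mul_le_mul_of_nonneg_left (by linarith) hr0.le) (norm_nonneg _))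
      have h2 : a / (Lc * r) ≤ 1 + ‖X - lat m‖ := by
        rw [div_le_iff₀ (by positivity)]
        have : a / 2 < r * (1 + 2 * Cc) * ‖X - lat m‖ := by
          rw [ha] at hc ⊢
          linarith
        have h3 : 0 ≤ Lc * r := by positivity
        rw [hLc] at h3 ⊢
        nlinarith
      have h3 : (1 + ‖X - lat m‖) ^ (-A) ≤ (a / (Lc * r)) ^ (-A) :=
        Real.rpow_le_rpow_of_nonpos (by positivity) h2 (by linarith)
      have h4 : (a / (Lc * r)) ^ (-A) = Lc ^ A * a ^ (-A) * r ^ A := by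
        rw [Real.div_rpow ha0.le (by positivity), Real.mul_rpow hLc0.le hr0.le, Real.rpow_neg hLc0.le, Real.rpow_neg hr0.le]
        have e1 : Lc ^ A ≠ 0 := (Real.rpow_pos_of_pos hLc0 _).ne'
        have e2 : r ^ A ≠ 0 := (Real.rpow_pos_of_pos hr0 _).ne'
        field_simp
      have h5 : 0 ≤ 2 ^ A * a ^ (-A) * (1 + ‖X - lat m‖) ^ (-A) :=
        mul_nonneg (mul_nonneg (Real.rpow_nonneg (by norm_num) _) qa) q1
      calc (1 + ‖X - lat m‖) ^ (-A) * (1 + ‖tgB r w (lat m) - u'‖) ^ (-A)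
          ≤ (Lc ^ A * a ^ (-A) * r ^ A) * (1 + ‖tgB r w (lat m) - u'‖) ^ (-A) := mul_le_mul_of_nonneg_right (h3.trans h4.le) q2
        _ ≤ _ := le_add_of_nonneg_left h5
  have hrA : r ^ A * (r⁻¹) ^ (k + 2) ≤ 1 := by
    rw [inv_pow, ← Real.rpow_natCast r (k + 2), ← Real.rpow_neg hr0.le, ← Real.rpow_add hr0]
    refine Real.rpow_le_one hr0.le hr1 ?_
    push_cast
    linarith
  have qa : 0 ≤ a ^ (-A) := Real.rpow_nonneg ha0.le _
  rw [hpz]
  calc ∑ m ∈ s, pw A κ v (lat m) z * pw A κ' v' u' (natI κ v (lat m))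
      = ∑ m ∈ s, (1 + ‖X - lat m‖) ^ (-A) * (1 + ‖tgB r w (lat m) - u'‖) ^ (-A) := Finset.sum_congr rfl fun m _ => hterm m
    _ ≤ ∑ m ∈ s, (2 ^ A * a ^ (-A) * (1 + ‖X - lat m‖) ^ (-A) + Lc ^ A * a ^ (-A) * r ^ A * (1 + ‖tgB r w (lat m) - u'‖) ^ (-A)) :=
        Finset.sum_le_sum fun m _ => hb m
    _ = 2 ^ A * a ^ (-A) * ∑ m ∈ s, (1 + ‖X - lat m‖) ^ (-A) + Lc ^ A * a ^ (-A) * r ^ A * ∑ m ∈ s, (1 + ‖tgB r w (lat m) - u'‖) ^ (-A) := by
        rw [Finset.sum_add_distrib, Finset.mul_sum, Finset.mul_sum]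
    _ ≤ 2 ^ A * a ^ (-A) * C₁ + Lc ^ A * a ^ (-A) * r ^ A * (C₂ * (r⁻¹) ^ (k + 2)) := by
        refine add_le_add (mul_le_mul_of_nonneg_left (H₁ X s) (mul_nonneg (Real.rpow_nonneg (by norm_num) _) qa))
          (mul_le_mul_of_nonneg_left (H₂ r w u' s hr0 hr1) (mul_nonneg (mul_nonneg (Real.rpow_nonneg hLc0.le _) qa) (Real.rpow_nonneg hr0.le _)))
    _ = 2 ^ A * C₁ * a ^ (-A) + Lc ^ A * C₂ * a ^ (-A) * (r ^ A * (r⁻¹) ^ (k + 2)) := by ring
    _ ≤ 2 ^ A * C₁ * a ^ (-A) + Lc ^ A * C₂ * a ^ (-A) * 1 :=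
        add_le_add le_rfl (mul_le_mul_of_nonneg_left hrA (mul_nonneg (mul_nonneg (Real.rpow_nonneg hLc0.le _) hC₂) qa))
    _ ≤ (1 + 2 ^ A * C₁ + Lc ^ A * C₂) * a ^ (-A) := by nlinarith

end

end Claimed.Agent.R257.Tree
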