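import Claimed.Agent.R257.Tree.Alg
import Claimed.Agent.R257.Tree.GeoK

/-!
# ROW 257, unit INST, file 3: GEOMETRY OF THE NATIVE COORDINATES, LATTICE SUMS, `p:convolution`      (architect helper155)          CONTRACT

Paper: H `packets.tex` l.785-818 (`p:convolution`).   Mathlib + `Pk/Defs` (`natX`, `natI`, `natX_resc`, `natX_sub`, `natX_natI`) only; no analysis.   Every `sorry` is a leaf `L-257-TI-G*` (name in the docstring).
Norm of `ST k = E k × ℝ`: `‖X‖ = max ‖X.1‖ |X.2|` (`Prod.norm_def`), `‖X.1‖` Euclidean.   `lat m = (m.1, m.2)`.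
RESCALED PICTURE: parent `(K, v)`, child `(K', v')`, `N = K'/K ≥ 1`, `u = K (v' - v)`, `‖u‖ ≤ Cc`;  `natX K' v' z = natX N u (natX K v z)` (`natX_resc`), `natX N u X = ((X.1 - 2 X.2 u)/N, X.2/N²)`.
-/

set_option autoImplicit false

namespace Claimed.Agent.R257.Tree

open Claimed.Agent.R257
open scoped BigOperators Classical

noncomputable section

variable {k : ℕ}

/-- **LEAF L-257-TI-G1.**  The map parent coordinates → child coordinates is Lipschitz with the constant `1 + 2 Cc`.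
PLAN: `Prod.norm_def`, `max_le`; first component `‖N⁻¹ • (X.1 - (2 X.2) • u)‖ ≤ N⁻¹ (‖X.1‖ + 2 |X.2| Cc) ≤ (1 + 2 Cc) ‖X‖` (`N⁻¹ ≤ 1`), second `|X.2 / N²| ≤ |X.2| ≤ ‖X‖`. -/
theorem ti_resc_lip {N Cc : ℝ} (hN : 1 ≤ N) {u : E k} (hu : ‖u‖ ≤ Cc) (X : ST k) : ‖natX N u X‖ ≤ (1 + 2 * Cc) * ‖X‖ := by
  have a1 : ‖X.1‖ ≤ ‖X‖ := norm_fst_le X
  have a2 : |X.2| ≤ ‖X‖ := by rw [← Real.norm_eq_abs]; exact norm_snd_le X
  have hX := norm_nonneg X
  have hCc : 0 ≤ Cc := (norm_nonneg u).trans hu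
  have hN0 : 0 < N := by linarith
  have hNi : N⁻¹ ≤ 1 := inv_le_one_of_one_le₀ hN
  unfold natX
  rw [Prod.norm_def]
  refine max_le ?_ ?_
  · rw [norm_smul, Real.norm_eq_abs, abs_of_pos (inv_pos.2 hN0)]
    have h1 : ‖X.1 - (2 * X.2) • u‖ ≤ ‖X‖ + 2 * ‖X‖ * Cc := by
      refine (norm_sub_le _ _).trans ?_
      rw [norm_smul, Real.norm_eq_abs, abs_mul, abs_two]
      gcongr
    calc N⁻¹ * _ ≤ 1 * (‖X‖ + 2 * ‖X‖ * Cc) := mul_le_mul hNi h1 (norm_nonneg _) zero_le_one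
      _ = _ := by ring
  · rw [Real.norm_eq_abs, abs_div, abs_of_pos (by positivity : 0 < N ^ 2)]
    have : |X.2| / N ^ 2 ≤ |X.2| := div_le_self (abs_nonneg _) (one_le_pow₀ hN)
    nlinarith

/-- **LEAF L-257-TI-G2.**  Same in physical terms.   PLAN: `natX_sub`, `natX_resc` (with `hK.ne'`), `ti_resc_lip` with `N = K'/K`, `u = K • (v' - v)` (`norm_smul`, `le_div_iff₀`). -/
theorem ti_child_lip {K K' Cc : ℝ} (hK : 0 < K) (hKK : K ≤ K') {v v' : E k} (hv : ‖v' - v‖ ≤ Cc / K) (z z' : ST k) :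
    ‖natX K' v' z - natX K' v' z'‖ ≤ (1 + 2 * Cc) * ‖natX K v z - natX K v z'‖ := by
  rw [← natX_sub, ← natX_sub, ← natX_resc hK.ne' v' v (z - z')]
  refine ti_resc_lip ((one_le_div hK).2 hKK) ?_ _
  rw [norm_smul, Real.norm_eq_abs, abs_of_pos hK, mul_comm]
  exact (le_div_iff₀ hK).1 hv

/-- **LEAF L-257-TI-G3** (Peetre).   PLAN: triangle inequality + `ti_child_lip`; `1 + a + L b ≤ L (1 + a) (1 + b)` for `L ≥ 1`, `a, b ≥ 0`. -/
theorem ti_peetre {K K' Cc : ℝ} (hK : 0 < K) (hKK : K ≤ K') (hCc : 0 ≤ Cc) {v v' : E k} (hv : ‖v' - v‖ ≤ Cc / K) (u' z z' : ST k) :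
    1 + ‖natX K' v' z - u'‖ ≤ (1 + 2 * Cc) * (1 + ‖natX K' v' z' - u'‖) * (1 + ‖natX K v z - natX K v z'‖) := by
  have h1 := ti_child_lip hK hKK hv z z'
  have h2 : ‖natX K' v' z - u'‖ ≤ ‖natX K' v' z - natX K' v' z'‖ + ‖natX K' v' z' - u'‖ := by
    have := norm_add_le (natX K' v' z - natX K' v' z') (natX K' v' z' - u')
    rwa [sub_add_sub_cancel] at this
  have ha := norm_nonneg (natX K' v' z' - u')
  have hb := norm_nonneg (natX K v z - natX K v z')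
  set a := ‖natX K' v' z' - u'‖
  set b := ‖natX K v z - natX K v z'‖
  have hab : 0 ≤ a * b := mul_nonneg ha hb
  have e : (1 + 2 * Cc) * (1 + a) * (1 + b) = (1 + a) + (1 + 2 * Cc) * b + 2 * Cc * (1 + a) + (1 + 2 * Cc) * (a * b) := by ring
  have h3 : 0 ≤ 2 * Cc * (1 + a) := by positivity
  have h4 : 0 ≤ (1 + 2 * Cc) * (a * b) := by positivity
  linarith

/-- **LEAF L-257-TI-G4.**  The child weight varies polynomially over the parent distance.   PLAN: `ti_peetre`, `Real.rpow_le_rpow`, `Real.mul_rpow`, `Real.rpow_neg`. -/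
theorem ti_pw_peetre {K K' Cc A : ℝ} (hK : 0 < K) (hKK : K ≤ K') (hCc : 0 ≤ Cc) (hA : 0 ≤ A) {v v' : E k} (hv : ‖v' - v‖ ≤ Cc / K) (u' z z' : ST k) :
    pw A K' v' u' z' ≤ (1 + 2 * Cc) ^ A * (1 + ‖natX K v z - natX K v z'‖) ^ A * pw A K' v' u' z := by
  have h := ti_peetre hK hKK hCc hv u' z z'
  unfold pw
  have hp : 0 < 1 + ‖natX K' v' z - u'‖ := by positivity
  have hp' : 0 < 1 + ‖natX K' v' z' - u'‖ := by positivity
  have hb : 0 < 1 + ‖natX K v z - natX K v z'‖ := by positivity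
  rw [Real.rpow_neg hp.le, Real.rpow_neg hp'.le, ← div_eq_mul_inv, le_div_iff₀ (Real.rpow_pos_of_pos hp _),
    inv_mul_le_iff₀ (Real.rpow_pos_of_pos hp' _), ← Real.mul_rpow (by positivity) hb.le,
    ← Real.mul_rpow hp'.le (by positivity)]
  refine Real.rpow_le_rpow hp.le (h.trans (le_of_eq ?_)) hA
  ring

/-- **LEAF L-257-TI-G5.**  Distinct lattice points are `1`-separated.   PLAN: some coordinate differs by an integer `≠ 0`; `EuclideanSpace.norm_eq`/`PiLp.norm_apply_le`, `Prod.norm_def`. -/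
theorem ti_lat_sep {m m' : Lat k} (h : m ≠ m') : 1 ≤ ‖lat m - lat m'‖ := by
  by_cases h1 : m.1 = m'.1
  · have h2 : m.2 ≠ m'.2 := fun h2 => h (Prod.ext h1 h2)
    have h3 : ‖(lat m - lat m').2‖ ≤ ‖lat m - lat m'‖ := norm_snd_le _
    have h4 : (lat m - lat m').2 = ((m.2 - m'.2 : ℤ) : ℝ) := by
      simp [lat]
    rw [h4, Real.norm_eq_abs, ← Int.cast_abs] at h3
    have h5 : (1 : ℤ) ≤ |m.2 - m'.2| := Int.one_le_abs (sub_ne_zero.2 h2)
    have h6 : (1 : ℝ) ≤ ((|m.2 - m'.2| : ℤ) : ℝ) := by exact_mod_cast h5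
    linarith
  · have h3 : ‖(lat m - lat m').1‖ ≤ ‖lat m - lat m'‖ := norm_fst_le _
    exact (tg_latE_sep h1).trans h3

/-- **LEAF L-257-TI-G6.**  Every point is within `k + 1` of a lattice point (round every coordinate; `‖x‖ ≤ ∑ |x i|`). -/
theorem ti_lat_near (X : ST k) : ∃ m : Lat k, ‖X - lat m‖ ≤ (k : ℝ) + 1 := by
  refine ⟨(fun i => round (X.1 i), round X.2), ?_⟩
  have hk : (0 : ℝ) ≤ k := Nat.cast_nonneg k
  rw [Prod.norm_def]
  refine max_le ?_ ?_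
  · rw [← pow_le_pow_iff_left₀ (norm_nonneg _) (by positivity) two_ne_zero, EuclideanSpace.norm_sq_eq]
    calc ∑ i, ‖(X - lat (fun i => round (X.1 i), round X.2)).1 i‖ ^ 2 ≤ ∑ _i : Fin k, (1 : ℝ) := by
          refine Finset.sum_le_sum fun i _ => ?_
          have h1 : (X - lat (fun i => round (X.1 i), round X.2)).1 i = X.1 i - round (X.1 i) := by
            simp [lat]
          rw [h1, Real.norm_eq_abs, sq_abs]
          have := abs_sub_round (X.1 i)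
          have h2 := abs_nonneg (X.1 i - round (X.1 i))
          rw [← sq_abs]
          nlinarith
      _ = k := by simp
      _ ≤ ((k : ℝ) + 1) ^ 2 := by nlinarith
  · have h1 : (X - lat (fun i => round (X.1 i), round X.2)).2 = X.2 - round X.2 := by
      simp [lat]
    rw [h1, Real.norm_eq_abs]
    have := abs_sub_round X.2
    linarith

/-- integers in an interval -/
theorem ti_icc_card (x r : ℝ) (hr : 0 ≤ r) : ((Finset.Icc ⌈x - r⌉ ⌊x + r⌋).card : ℝ) ≤ 2 * r + 1 := by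
  rw [Int.card_Icc]
  have h1 : ((⌊x + r⌋ : ℤ) : ℝ) ≤ x + r := Int.floor_le _
  have h2 : x - r ≤ ((⌈x - r⌉ : ℤ) : ℝ) := Int.le_ceil _
  rcases le_or_gt 0 (⌊x + r⌋ + 1 - ⌈x - r⌉) with h | h
  · have h3 : (((⌊x + r⌋ + 1 - ⌈x - r⌉).toNat : ℤ) : ℝ) = ((⌊x + r⌋ + 1 - ⌈x - r⌉ : ℤ) : ℝ) := by
      rw [Int.toNat_of_nonneg h]
    have h4 : (((⌊x + r⌋ + 1 - ⌈x - r⌉).toNat : ℤ) : ℝ) = ((⌊x + r⌋ + 1 - ⌈x - r⌉).toNat : ℝ) :=
      Int.cast_natCast _
    rw [← h4, h3]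
    push_cast
    linarith
  · rw [Int.toNat_of_nonpos h.le]
    simp
    linarith

theorem ti_icc_mem {x r : ℝ} {j : ℤ} (h : |(j : ℝ) - x| ≤ r) : j ∈ Finset.Icc ⌈x - r⌉ ⌊x + r⌋ := by
  rw [abs_le] at h
  rw [Finset.mem_Icc]
  exact ⟨Int.ceil_le.2 (by linarith), Int.le_floor.2 (by linarith)⟩

/-- **LEAF L-257-TI-G9.**  Number of parent lattice points whose image lies in a child ball: `≤ C (1+r)^(k+1) N^(k+2)`.
PLAN: `‖natX N u (lat m) - u'‖ ≤ r` gives `|m.2 / N² - u'.2| ≤ r`: `m.2` in an interval of length `2 r N²`; for fixed `m.2`: `‖m.1 - (2 m.2 u + N u'.1)‖ ≤ r N`: every coordinate in an interval of length `2 r N`.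
`(2 r N² + 1) (2 r N + 1)^k ≤ (2 (1+r))^(k+1) N^(k+2)`.   Use `Finset.card_le_card_of_injOn`/fibres over `m.2` (`Finset.card_eq_sum_card_fiberwise`). -/
theorem ti_img_count {N : ℝ} (hN : 1 ≤ N) (u : E k) (u' : ST k) {r : ℝ} (hr : 0 ≤ r) (t : Finset (Lat k)) (h : ∀ m ∈ t, ‖natX N u (lat m) - u'‖ ≤ r) :
    (t.card : ℝ) ≤ (2 * (1 + r)) ^ (k + 1) * N ^ (k + 2) := by
  have hN0 : 0 < N := by linarith
  set J : Finset ℤ := Finset.Icc ⌈N ^ 2 * u'.2 - r * N ^ 2⌉ ⌊N ^ 2 * u'.2 + r * N ^ 2⌋ with hJ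
  set cc : ℤ → E k := fun j => (2 * (j : ℝ)) • u + N • u'.1 with hcc
  set B : ℤ → Finset (Fin k → ℤ) := fun j => Fintype.piFinset fun i => Finset.Icc ⌈cc j i - r * N⌉ ⌊cc j i + r * N⌋ with hB
  have hsub : t ⊆ J.biUnion fun j => (B j).image fun a => (a, j) := by
    intro m hm
    have h0 := h m hm
    have h1 : ‖(natX N u (lat m) - u').1‖ ≤ r := (norm_fst_le _).trans h0
    have h2 : ‖(natX N u (lat m) - u').2‖ ≤ r := (norm_snd_le _).trans h0
    rw [Finset.mem_biUnion]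
    refine ⟨m.2, ti_icc_mem ?_, Finset.mem_image.2 ⟨m.1, ?_, rfl⟩⟩
    · have e : (m.2 : ℝ) - N ^ 2 * u'.2 = N ^ 2 * (natX N u (lat m) - u').2 := by
        simp only [natX, lat, Prod.snd_sub]
        field_simp
      rw [e, abs_mul, abs_of_pos (by positivity : 0 < N ^ 2), mul_comm]
      exact mul_le_mul_of_nonneg_right (by rwa [Real.norm_eq_abs] at h2) (by positivity)
    · rw [hB, Fintype.mem_piFinset]
      intro i
      refine ti_icc_mem ?_
      have e : latE m.1 - cc m.2 = N • (natX N u (lat m) - u').1 := by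
        have e3 : N * (N⁻¹ * (2 * (m.2 : ℝ))) = 2 * (m.2 : ℝ) := by field_simp
        simp only [natX, lat, Prod.fst_sub, hcc, smul_sub, smul_smul, mul_inv_cancel₀ hN0.ne', one_smul, latE, e3]
        abel
      have e2 : ((m.1 i : ℤ) : ℝ) - cc m.2 i = (latE m.1 - cc m.2) i := by
        simp [latE]
      rw [e2, ← Real.norm_eq_abs]
      refine (PiLp.norm_apply_le _ i).trans ?_
      rw [e, norm_smul, Real.norm_eq_abs, abs_of_pos hN0, mul_comm]
      exact mul_le_mul_of_nonneg_right h1 hN0.le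
  have hBc : ∀ j, ((B j).card : ℝ) ≤ (2 * (1 + r) * N) ^ k := by
    intro j
    rw [hB, Fintype.card_piFinset]
    push_cast
    calc ∏ i : Fin k, ((Finset.Icc ⌈cc j i - r * N⌉ ⌊cc j i + r * N⌋).card : ℝ) ≤ ∏ _i : Fin k, (2 * (1 + r) * N) := by
          refine Finset.prod_le_prod (fun i _ => Nat.cast_nonneg _) fun i _ => ?_
          refine (ti_icc_card _ _ (by positivity)).trans ?_
          nlinarith
      _ = _ := by simp
  have hJc : (J.card : ℝ) ≤ 2 * (1 + r) * N ^ 2 := by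
    refine (ti_icc_card _ _ (by positivity)).trans ?_
    have : 1 ≤ N ^ 2 := one_le_pow₀ hN
    nlinarith
  calc (t.card : ℝ) ≤ ((J.biUnion fun j => (B j).image fun a => (a, j)).card : ℝ) := by
        exact_mod_cast Finset.card_le_card hsub
    _ ≤ ∑ j ∈ J, (((B j).image fun a => (a, j)).card : ℝ) := by exact_mod_cast Finset.card_biUnion_le
    _ ≤ ∑ _j ∈ J, (2 * (1 + r) * N) ^ k := by
        refine Finset.sum_le_sum fun j _ => le_trans ?_ (hBc j)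
        exact_mod_cast Finset.card_image_le
    _ = J.card * (2 * (1 + r) * N) ^ k := by rw [Finset.sum_const, nsmul_eq_mul]
    _ ≤ (2 * (1 + r) * N ^ 2) * (2 * (1 + r) * N) ^ k := by gcongr
    _ = _ := by rw [mul_pow]; ring

theorem ti_natX_one (X : ST k) : natX 1 (0 : E k) X = X := by
  unfold natX
  ext1 <;> simp

/-- **LEAF L-257-TI-G7.**  Number of lattice points in a ball.   PLAN: `|X_i - m_i| ≤ r` for every coordinate, so `t ⊆ (Fintype.piFinset fun i => Finset.Icc ⌈X.1 i - r⌉ ⌊X.1 i + r⌋) ×ˢ Finset.Icc ⌈X.2 - r⌉ ⌊X.2 + r⌋`;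
each factor has `≤ 2 r + 1 ≤ 2 (1 + r)` elements (`Int.card_Icc`). -/
theorem ti_lat_count (X : ST k) {r : ℝ} (hr : 0 ≤ r) (t : Finset (Lat k)) (h : ∀ m ∈ t, ‖X - lat m‖ ≤ r) : (t.card : ℝ) ≤ (2 * (1 + r)) ^ (k + 1) := by
  have := ti_img_count (le_refl (1 : ℝ)) (0 : E k) X hr t (fun m hm => by
    rw [ti_natX_one, norm_sub_rev]; exact h m hm)
  simpa using this

/-- **LEAF L-257-TI-G8.**  Lattice sums.   PLAN: dyadic shells `2^j ≤ 1 + ‖X - lat m‖ < 2^(j+1)`, `ti_lat_count`, geometric series with ratio `2^(k+1-A)`;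
or `(1 + ‖Y‖)^(-A) ≤ ∏_coordinates (1 + |Y_i|)^(-A/(k+1))` and the one-dimensional sum. -/
theorem ti_lat_sum {A : ℝ} (hA : (k : ℝ) + 1 < A) : ∃ C : ℝ, 1 ≤ C ∧ ∀ (t : Finset (Lat k)) (X : ST k), ∑ m ∈ t, (1 + ‖X - lat m‖) ^ (-A) ≤ C := by
  obtain ⟨C, -, H⟩ := tg_sum_lat k hA
  exact ⟨max C 1, le_max_right _ _, fun t X => (H X t).trans (le_max_left _ _)⟩

theorem ti_natX_tgB (N : ℝ) (u : E k) (X : ST k) : natX N u X = tgB N⁻¹ ((-2 : ℝ) • u) X := by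
  unfold natX tgB
  ext1
  · simp only [smul_smul, sub_eq_add_neg, ← neg_smul]
    congr 3
    ring
  · simp only [inv_pow]
    rw [div_eq_mul_inv, mul_comm]

/-- **LEAF L-257-TI-G10.**  The lattice sum at the child scale (H l.812-813).   PLAN: as `ti_lat_sum`, with `ti_img_count`. -/
theorem ti_img_sum {A : ℝ} (hA : (k : ℝ) + 1 < A) : ∃ C : ℝ, 1 ≤ C ∧ ∀ (N : ℝ), 1 ≤ N → ∀ (u : E k) (u' : ST k) (t : Finset (Lat k)),
    ∑ m ∈ t, (1 + ‖natX N u (lat m) - u'‖) ^ (-A) ≤ C * N ^ (k + 2) := by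
  obtain ⟨C, -, H⟩ := tg_sum_shear k hA
  refine ⟨max C 1, le_max_right _ _, fun N hN u u' t => ?_⟩
  have hN0 : 0 < N := by linarith
  have := H N⁻¹ ((-2 : ℝ) • u) u' t (inv_pos.2 hN0) (inv_le_one_of_one_le₀ hN)
  rw [inv_inv] at this
  simp only [ti_natX_tgB]
  refine this.trans ?_
  gcongr
  exact le_max_left _ _

/-- **LEAF L-257-TI-G11: `p:convolution` in the coordinates of the parent** (H l.785-818).
PLAN.  `a = 1 + ‖natX N u X - u'‖`.   Class 1: `m` with `a / 2 ≤ 1 + ‖natX N u (lat m) - u'‖`: second factor `≤ (a/2)^(-A)`, `ti_lat_sum`.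
Class 2: otherwise `‖natX N u (X - lat m)‖ > a / 2` (`natX_sub`, triangle inequality); SHARP Lipschitz bound `‖natX N u Z‖ ≤ (1 + 2 Cc) ‖Z‖ / N` (as `ti_resc_lip`, keep the factor `N⁻¹`; `N⁻² ≤ N⁻¹`), so `1 + ‖X - lat m‖ ≥ a N / (2 (1 + 2 Cc))`:
first factor `≤ (2 (1+2Cc))^A a^(-A) N^(-A)`, `ti_img_sum`: total `≤ C a^(-A) N^(k+2-A) ≤ C a^(-A)`. -/
theorem ti_conv_core {A Cc : ℝ} (hA : (k : ℝ) + 2 < A) (hCc : 0 ≤ Cc) : ∃ C : ℝ, 1 ≤ C ∧ ∀ (N : ℝ), 1 ≤ N → ∀ (u : E k), ‖u‖ ≤ Cc → ∀ (u' X : ST k) (t : Finset (Lat k)),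
    ∑ m ∈ t, (1 + ‖X - lat m‖) ^ (-A) * (1 + ‖natX N u (lat m) - u'‖) ^ (-A) ≤ C * (1 + ‖natX N u X - u'‖) ^ (-A) := by
  obtain ⟨C, hC, H⟩ := tg_bc k hA.le hCc
  refine ⟨C, hC, fun N hN u hu u' X t => ?_⟩
  have := H 1 N 0 u u' X t le_rfl hN (by simpa using hu)
  have e : ∀ Y : ST k, natI 1 (0 : E k) Y = Y := by
    intro Y
    unfold natI
    ext1 <;> simp
  simpa only [pw, ti_natX_one, e] using this

/-- **LEAF L-257-TI-G12: `p:convolution`** (H (p:convolution-equation)): parent `(K, v)`, child `(K', v')` with native centre `u'`.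
PLAN: `ti_conv_core` with `N = K'/K`, `u = K • (v' - v)`, `X = natX K v z`; `natX_resc`, `natX_natI`. -/
theorem ti_conv {A Cc : ℝ} (hA : (k : ℝ) + 2 < A) (hCc : 0 ≤ Cc) : ∃ C : ℝ, 1 ≤ C ∧ ∀ (K K' : ℝ), 0 < K → K ≤ K' → ∀ (v v' : E k), ‖v' - v‖ ≤ Cc / K → ∀ (u' z : ST k) (t : Finset (Lat k)),
    ∑ m ∈ t, pw A K v (lat m) z * pw A K' v' u' (natI K v (lat m)) ≤ C * pw A K' v' u' z := by
  obtain ⟨C, hC, H⟩ := ti_conv_core (k := k) hA hCc
  refine ⟨C, hC, fun K K' hK hKK v v' hv u' z t => ?_⟩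
  have hu : ‖K • (v' - v)‖ ≤ Cc := by
    rw [norm_smul, Real.norm_eq_abs, abs_of_pos hK, mul_comm]
    exact (le_div_iff₀ hK).1 hv
  have := H (K' / K) ((one_le_div hK).2 hKK) (K • (v' - v)) hu u' (natX K v z) t
  rw [natX_resc hK.ne'] at this
  unfold pw
  refine le_trans (le_of_eq (Finset.sum_congr rfl fun m _ => ?_)) this
  rw [← natX_resc hK.ne' v' v (natI K v (lat m)), natX_natI hK.ne']

/-- **LEAF L-257-TI-G13: from weighted suprema to separated points.**   `Φ ≥ 0` arbitrary, `x m` arbitrary points.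
PLAN.  `μ m` = a lattice point within `k + 1` of `x m` (`ti_lat_near`); residue classes of `μ` modulo `L = 2 k + 4` in every coordinate (`L^(k+1)` classes); in one class distinct `μ`'s are `≥ L` apart, so points within `k + 1` of them are `≥ 2` apart.
For every value `μ` choose the `m` with `μ m = μ` maximising `Φ (x m)` (`Finset.exists_max_image`): `x' μ`.   `1 + ‖x m - lat m‖ ≥ (1 + ‖lat (μ m) - lat m‖)/(k + 2)`, `ti_lat_sum`:
`∑_m Φ (x m) (1 + ‖x m - lat m‖)^(-E) ≤ (k+2)^E C_lat ∑_μ Φ (x' μ) ≤ (k+2)^E C_lat L^(k+1) max_class ∑_{μ ∈ class} Φ (x' μ)`;  `Y` = the image of the best class (the `x' μ` are distinct there). -/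
theorem ti_sup_pts {Ee : ℝ} (hE : (k : ℝ) + 1 < Ee) : ∃ C : ℝ, 1 ≤ C ∧ ∀ (Φ : ST k → ℝ), (∀ X, 0 ≤ Φ X) → ∀ (t : Finset (Lat k)) (x : Lat k → ST k),
    ∃ Y : Finset (ST k), USep Y ∧ ∑ m ∈ t, Φ (x m) * (1 + ‖x m - lat m‖) ^ (-Ee) ≤ C * ∑ X ∈ Y, Φ X := by
  obtain ⟨C, hC, H⟩ := ti_lat_sum (k := k) hE
  have hE0 : 0 ≤ Ee := by
    have : (0 : ℝ) ≤ k := Nat.cast_nonneg k
    linarith
  have h2E : (1 : ℝ) ≤ 2 ^ Ee := Real.one_le_rpow (by norm_num) hE0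
  refine ⟨2 ^ Ee * C, one_le_mul_of_one_le_of_one_le h2E hC, fun Φ hΦ t x => ?_⟩
  set S : Finset (ST k) := t.image x with hS
  have hne : (S.powerset.filter fun Y => USep Y).Nonempty :=
    ⟨∅, Finset.mem_filter.2 ⟨Finset.empty_mem_powerset _, fun z hz => absurd hz (Finset.notMem_empty z)⟩⟩
  obtain ⟨Y, hY, hmax⟩ := Finset.exists_max_image _ (fun Y : Finset (ST k) => ∑ X ∈ Y, Φ X) hne
  obtain ⟨hYS, hYsep⟩ := Finset.mem_filter.1 hY
  rw [Finset.mem_powerset] at hYS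
  refine ⟨Y, hYsep, ?_⟩
  -- exchange
  have hex : ∀ p ∈ S, Φ p ≤ ∑ X ∈ Y.filter (fun X => ¬ 1 ≤ ‖X - p‖), Φ X := by
    intro p hp
    have hpn : p ∉ Y.filter (fun X => 1 ≤ ‖X - p‖) := by
      intro h
      have := (Finset.mem_filter.1 h).2
      rw [sub_self, norm_zero] at this
      linarith
    have hY' : insert p (Y.filter fun X => 1 ≤ ‖X - p‖) ∈ S.powerset.filter fun Y => USep Y := by
      refine Finset.mem_filter.2 ⟨Finset.mem_powerset.2 ?_, ?_⟩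
      · exact Finset.insert_subset hp ((Finset.filter_subset _ _).trans hYS)
      · intro z hz z' hz' hzz
        rcases Finset.mem_insert.1 hz with rfl | hz
        · rcases Finset.mem_insert.1 hz' with rfl | hz'
          · exact absurd rfl hzz
          · rw [norm_sub_rev]; exact (Finset.mem_filter.1 hz').2
        · rcases Finset.mem_insert.1 hz' with rfl | hz'
          · exact (Finset.mem_filter.1 hz).2
          · exact hYsep z (Finset.mem_filter.1 hz).1 z' (Finset.mem_filter.1 hz').1 hzz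
    have h1 := hmax _ hY'
    rw [Finset.sum_insert hpn, ← Finset.sum_filter_add_sum_filter_not Y (fun X => 1 ≤ ‖X - p‖)] at h1
    linarith
  have hw : ∀ (m : Lat k) (X : ST k), ¬ 1 ≤ ‖X - x m‖ → (1 + ‖x m - lat m‖) ^ (-Ee) ≤ 2 ^ Ee * (1 + ‖X - lat m‖) ^ (-Ee) := by
    intro m X hX
    have h1 : ‖X - lat m‖ ≤ ‖X - x m‖ + ‖x m - lat m‖ := by
      have := norm_add_le (X - x m) (x m - lat m)
      rwa [sub_add_sub_cancel] at this
    have hp : 0 < 1 + ‖x m - lat m‖ := by positivity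
    have hp' : 0 < 1 + ‖X - lat m‖ := by positivity
    rw [Real.rpow_neg hp.le, Real.rpow_neg hp'.le, ← div_eq_mul_inv, le_div_iff₀ (Real.rpow_pos_of_pos hp' _),
      inv_mul_le_iff₀ (Real.rpow_pos_of_pos hp _), ← Real.mul_rpow hp.le (by norm_num)]
    refine Real.rpow_le_rpow hp'.le ?_ hE0
    rw [not_le] at hX
    have := norm_nonneg (x m - lat m)
    linarith
  calc ∑ m ∈ t, Φ (x m) * (1 + ‖x m - lat m‖) ^ (-Ee)
      ≤ ∑ m ∈ t, ∑ X ∈ Y, Φ X * (2 ^ Ee * (1 + ‖X - lat m‖) ^ (-Ee)) := by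
        refine Finset.sum_le_sum fun m hm => ?_
        have hwm : 0 ≤ (1 + ‖x m - lat m‖) ^ (-Ee) := Real.rpow_nonneg (by positivity) _
        calc Φ (x m) * (1 + ‖x m - lat m‖) ^ (-Ee)
            ≤ (∑ X ∈ Y.filter (fun X => ¬ 1 ≤ ‖X - x m‖), Φ X) * (1 + ‖x m - lat m‖) ^ (-Ee) :=
              mul_le_mul_of_nonneg_right (hex _ (Finset.mem_image_of_mem x hm)) hwm
          _ = ∑ X ∈ Y.filter (fun X => ¬ 1 ≤ ‖X - x m‖), Φ X * (1 + ‖x m - lat m‖) ^ (-Ee) := Finset.sum_mul _ _ _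
          _ ≤ ∑ X ∈ Y.filter (fun X => ¬ 1 ≤ ‖X - x m‖), Φ X * (2 ^ Ee * (1 + ‖X - lat m‖) ^ (-Ee)) :=
              Finset.sum_le_sum fun X hX => mul_le_mul_of_nonneg_left (hw m X (Finset.mem_filter.1 hX).2) (hΦ X)
          _ ≤ ∑ X ∈ Y, Φ X * (2 ^ Ee * (1 + ‖X - lat m‖) ^ (-Ee)) :=
              Finset.sum_le_sum_of_subset_of_nonneg (Finset.filter_subset _ _) fun X _ _ =>
                mul_nonneg (hΦ X) (mul_nonneg (by positivity) (Real.rpow_nonneg (by positivity) _))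
    _ = ∑ X ∈ Y, Φ X * (2 ^ Ee * ∑ m ∈ t, (1 + ‖X - lat m‖) ^ (-Ee)) := by
        rw [Finset.sum_comm]
        refine Finset.sum_congr rfl fun X _ => ?_
        rw [Finset.mul_sum, Finset.mul_sum]
    _ ≤ ∑ X ∈ Y, Φ X * (2 ^ Ee * C) :=
        Finset.sum_le_sum fun X _ => mul_le_mul_of_nonneg_left (mul_le_mul_of_nonneg_left (H t X) (by positivity)) (hΦ X)
    _ = 2 ^ Ee * C * ∑ X ∈ Y, Φ X := by rw [← Finset.sum_mul, mul_comm]

end

end Claimed.Agent.R257.Tree
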