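import Claimed.Agent.R257.FR2.Sys
import Claimed.Agent.R257.Pk.Defs

/-!
# ROW 257 (S0497), package FR2, unit INST, file 1: THE CONCRETE LAYERED PACKET SYSTEM      (chief architect helper155)

NOTHING is sorried in this file (definitions only).   Language = `R257/Pk/Defs.lean` (helper12): paper sign, `car v z = e^{i(x·v - t|v|²)}`, native coordinates `natX N v (x,t) = ((x - 2tv)/N, t/N²)`, inverse `natI`,
`IsPk ρ P' N v u a f` = "`f = car v · F ∘ natX N v`, `F ∈ BD.FS (closedBall 0 ρ)`, `|F X| ≤ a (1 + |X - u|)^{-P'}`", witnesses `USep Y`.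

* `TCls k`               the parameters which are FIXED BEFORE the main scale: number of heights `ℓ`, transition height `tr`, orders `P < Q` (envelopes), `M` (decay of the class), `C0` (decay in the weighted supremum),
                         Fourier radii `ρ i`, localiser `χ` (Fourier radius `ρχ`, decay constant `Cχ`), cap constant `Cc`, multiplicity `Cm`.       `TCls.Ok` = their relations.
* `TDat c`               the data of a finite scale tree of ONE field: heights `0 … ℓ` (0 = leaves), scales `κ i` (nonincreasing in `i`), labels `Lb i` (abstract finite types; `fr` need not be injective: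
                         bounded multiplicity is encoded there), assigned parents `par`, cells `W i ⊆ Lb i × ℤ^{k+1}` (finite windows; at the height `tr`: ONLY the retained transition masks),
                         bins `bin` (= name of the ancestor at the height `tr`), witnesses `pt`, leaves `g0`, `s0`.
* `TDat.sys`             the `TSys` of the data.     `TDat.Good`  the hypotheses on the data (geometry + what FR1 delivers).    `TDat.tp`  the `TPar`.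
* ORDERS in the instance: `e` = order `P`;  `eh`, `w`, `wh` = order `Q`  (`wh = w ℓ`);  `TGeo.wb` = order `P`.   Below the height `tr` the kernel `w` is the two-step kernel through the retained masks.
* INCIDENCE: `inc i z T` = `d_T(z) ≤ G i` and, below `tr`, SOME retained mask `S` of the bin of `T` has `d_S(z) ≤ G tr`  (this is the eligibility of H l.616-618, 893-897: it implies `e_b²(z) ≤ C (1+G)^P M_c`).
* `WtAt`, `L2At`, `NcAt` the three analytic CONTRACTS consumed by INST (providers PK1, PK2): `p:weighted` in discrete unit-supremum form, its lossless `p = 2` form, `p:near-cauchy`.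
  They are stated for exactly the families which occur here: index set `Λ × ℤ^{k+1}`, native centres = lattice points, at most `Cm` labels in a ball of radius `1/N`.
-/

set_option autoImplicit false

namespace Claimed.Agent.R257.Tree

open Claimed.Agent.R257 Claimed.Agent.R257.FR2
open scoped BigOperators Classical BoundedContinuousFunction

noncomputable section

/-- the lattice of native cells -/
abbrev Lat (k : ℕ) := (Fin k → ℤ) × ℤ

variable {k : ℕ}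

/-- the lattice point -/
def lat (m : Lat k) : ST k := (WithLp.toLp 2 (fun i => (m.1 i : ℝ)), (m.2 : ℝ))

/-- the polynomial weight `(1 + |X_{N,v}(z) - u|)^{-A}` -/
def pw (A N : ℝ) (v : E k) (u z : ST k) : ℝ := (1 + ‖natX N v z - u‖) ^ (-A)

theorem ti_natX_cont (N : ℝ) (v : E k) (u : ST k) : Continuous fun z : ST k => natX N v z - u := by
  unfold natX
  fun_prop

/-! ## the three analytic contracts -/

/-- **`p:weighted`, discrete unit-supremum form**, exponent `p`, envelope order `A`, decay order `M` of the packets.   Provider: PK1 (helper122, exit X3). -/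
def WtAt (k : ℕ) (p A M : ℝ) : Prop :=
  ∀ ρ Cc Cm ε : ℝ, 0 < ε → ∃ C : ℝ, 1 ≤ C ∧ ∀ N : ℝ, 1 ≤ N → ∀ (Λ : Type) [Fintype Λ] (fr : Λ → E k),
    (∀ ξ : E k, ((Finset.univ.filter fun v => ‖fr v - ξ‖ ≤ N⁻¹).card : ℝ) ≤ Cm) →
    ∀ (s : Finset (Λ × Lat k)) (a b : Λ × Lat k → ℝ) (f : Λ × Lat k → ST k → ℂ), (∀ T ∈ s, ‖fr T.1‖ ≤ Cc) →
    (∀ T ∈ s, IsPk ρ M N (fr T.1) (lat T.2) (a T) (f T)) → (∀ T ∈ s, 0 ≤ b T) → (∀ T ∈ s, a T ≠ 0 → 0 < b T) →
    ∀ Y : Finset (ST k), USep Y →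
      ∑ z ∈ Y, (∑ T ∈ s, b T ^ 2 * pw A N (fr T.1) (lat T.2) z) ^ ((2 - p) / 2) * ‖∑ T ∈ s, f T z‖ ^ p
        ≤ C * N ^ ε * N ^ (k + 2) * ∑ T ∈ s, a T ^ p * b T ^ (2 - p)

/-- **the lossless `p = 2` form** (`L²` almost orthogonality + Bernstein).   Provider: PK1 (helper122, exit X4). -/
def L2At (k : ℕ) (M : ℝ) : Prop :=
  ∀ ρ Cc Cm : ℝ, ∃ C : ℝ, 1 ≤ C ∧ ∀ N : ℝ, 1 ≤ N → ∀ (Λ : Type) [Fintype Λ] (fr : Λ → E k),
    (∀ ξ : E k, ((Finset.univ.filter fun v => ‖fr v - ξ‖ ≤ N⁻¹).card : ℝ) ≤ Cm) →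
    ∀ (s : Finset (Λ × Lat k)) (a : Λ × Lat k → ℝ) (f : Λ × Lat k → ST k → ℂ), (∀ T ∈ s, ‖fr T.1‖ ≤ Cc) →
    (∀ T ∈ s, IsPk ρ M N (fr T.1) (lat T.2) (a T) (f T)) →
    ∀ Y : Finset (ST k), USep Y → ∑ z ∈ Y, ‖∑ T ∈ s, f T z‖ ^ 2 ≤ C * N ^ (k + 2) * ∑ T ∈ s, a T ^ 2

/-- **`p:near-cauchy`**, envelope order `A`, decay order `M`.   Provider: PK2 (helper12). -/
def NcAt (k : ℕ) (A M : ℝ) : Prop :=
  ∀ ρ Cc Cm ε : ℝ, 0 < ε → ∃ C : ℝ, 1 ≤ C ∧ ∀ N : ℝ, 1 ≤ N → ∀ (Λ : Type) [Fintype Λ] (fr : Λ → E k),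
    (∀ ξ : E k, ((Finset.univ.filter fun v => ‖fr v - ξ‖ ≤ N⁻¹).card : ℝ) ≤ Cm) →
    ∀ (s : Finset (Λ × Lat k)) (a : Λ × Lat k → ℝ) (f : Λ × Lat k → ST k → ℂ), (∀ T ∈ s, ‖fr T.1‖ ≤ Cc) →
    (∀ T ∈ s, IsPk ρ M N (fr T.1) (lat T.2) (a T) (f T)) →
    ∀ Y : Finset (ST k), USep Y → ∀ R : ℝ, 1 ≤ R →
    (∀ z ∈ Y, ∑ T ∈ s, a T ^ 2 * pw A N (fr T.1) (lat T.2) z ≤ 1 ∧ N ^ ((k : ℝ) / 2) / R ≤ ‖∑ T ∈ s, f T z‖) →
      (Y.card : ℝ) ≤ C * R ^ (qk k + ε) * ∑ T ∈ s, a T ^ 2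

/-! ## the class parameters -/

/-- the parameters fixed before the main scale -/
structure TCls (k : ℕ) where
  /-- the top height -/
  ℓ : ℕ
  /-- the transition height -/
  tr : ℕ
  /-- order of the envelopes `w_T` of the reference weights -/
  P : ℝ
  /-- larger order (edge reserve, macro weights, kernels to the root) -/
  Q : ℝ
  /-- decay order of the packets of the class -/
  M : ℝ
  /-- decay order in the weighted supremum -/
  C0 : ℝ
  /-- Fourier radius of the class of height `i` -/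
  ρ : ℕ → ℝ
  /-- the localiser -/
  χ : ST k →ᵇ ℂ
  ρχ : ℝ
  Cχ : ℝ
  /-- a child label lies within `Cc/κ` of its parent label -/
  Cc : ℝ
  /-- multiplicities -/
  Cm : ℝ

/-- the relations between the class parameters -/
structure TCls.Ok (c : TCls k) : Prop where
  k_pos : 1 ≤ k
  tr_le : c.tr ≤ c.ℓ
  P_gt : (k : ℝ) + 2 < c.P
  P_lt : c.P < c.Q
  M_gt : c.Q + k + 2 < c.M
  C0_ge : c.Q + k + 2 ≤ c.C0
  ρ_nonneg : ∀ i, 0 ≤ c.ρ i
  ρχ_nonneg : 0 ≤ c.ρχ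
  one_le_Cχ : 1 ≤ c.Cχ
  one_le_Cc : 1 ≤ c.Cc
  one_le_Cm : 1 ≤ c.Cm
  χ_fs : BD.FS (Metric.closedBall (0 : ST k) c.ρχ) c.χ
  χ_dec : ∀ X, ‖c.χ X‖ ≤ c.Cχ * (1 + ‖X‖) ^ (-(c.M + c.C0))
  /-- partition of unity (used only by the consumer, to choose the windows: `TDat.Good.win`) -/
  χ_pou : ∀ X, HasSum (fun m : Lat k => c.χ (X - lat m)) 1
  ρ_step : ∀ i, (1 + 2 * c.Cc) * c.ρ i + c.Cc + c.Cc ^ 2 + c.ρχ ≤ c.ρ (i + 1)
  /-- ROOM above `Q` (third order `Q2 = Q + (k+2) k/2` of ANG-INST: `Q2 + k + 2 ≤ C0`, `Q2 ≤ M`; integrator helper99, 22:35Z) -/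
  room_M : c.Q + 2 * ((k : ℝ) + 2) ^ 2 ≤ c.M
  room_C0 : c.Q + 2 * ((k : ℝ) + 2) ^ 2 ≤ c.C0

/-! ## the data -/

/-- the data of a finite scale tree of one field -/
structure TDat (c : TCls k) where
  κ : ℕ → ℝ
  Lb : ℕ → Type
  fLb : ∀ i, Fintype (Lb i)
  fr : ∀ i, Lb i → E k
  par : ∀ i, Lb i → Lb (i + 1)
  W : ∀ i, Finset (Lb i × Lat k)
  Bin : Type
  bin : ∀ i, Lb i → Bin
  Y : Type
  fY : Fintype Y
  pt : Y → ST k
  g0 : Lb 0 × Lat k → (ST k →ᵇ ℂ)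
  s0 : Lb 0 × Lat k → ℝ
  /-- radius (native) of the enlargement in the incidence relation -/
  G : ℕ → ℝ
  /-- clipping threshold `M_c` -/
  Mc : ℝ
  /-- defect of the partition of unity of the windows at the witnesses -/
  ηw : ℝ
  /-- bound of the (clipped) leaf squares at the witnesses -/
  ϖ : ℝ

attribute [instance] TDat.fLb TDat.fY

namespace TDat

variable {c : TCls k} (D : TDat c)

/-- the cells of height `i` -/
abbrev Cl (i : ℕ) : Type := {T : D.Lb i × Lat k // T ∈ D.W i}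

/-- native coordinates of a cell, recentred -/
def X (i : ℕ) (T : D.Lb i × Lat k) (z : ST k) : ST k := natX (D.κ i) (D.fr i T.1) z - lat T.2

/-- the physical centre `z_T` -/
def ctr (i : ℕ) (T : D.Lb i × Lat k) : ST k := natI (D.κ i) (D.fr i T.1) (lat T.2)

/-- `(1 + d_T(z))^{-A}` -/
def wA (A : ℝ) (i : ℕ) (T : D.Lb i × Lat k) (z : ST k) : ℝ := (1 + ‖D.X i T z‖) ^ (-A)

/-- the localiser `χ_T` -/
def loc (i : ℕ) (T : D.Lb i × Lat k) : ST k →ᵇ ℂ :=
  c.χ.compContinuous ⟨fun z => natX (D.κ i) (D.fr i T.1) z - lat T.2, ti_natX_cont _ _ _⟩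

/-- the sum of the localisers of the cells of the window with the label `v` -/
def ms (i : ℕ) (v : D.Lb i) (z : ST k) : ℂ := ∑ T ∈ D.W i, if T.1 = v then D.loc i T z else 0

/-- the transition mask seen from the label `v` of height `i` -/
def msk (i : ℕ) (v : D.Lb i) (z : ST k) : ℂ :=
  if i < c.tr then ∑ T ∈ D.W c.tr, if D.bin c.tr T.1 = D.bin i v then D.loc c.tr T z else 0 else 1

/-- the positive kernel of order `A` to the root (two-step kernel below the transition height) -/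
def ker (A : ℝ) (i : ℕ) (T : D.Lb i × Lat k) (z : ST k) : ℝ :=
  if i < c.tr then ∑ S ∈ D.W c.tr, if D.bin c.tr S.1 = D.bin i T.1 then D.wA A c.tr S z * D.wA A i T (D.ctr c.tr S) else 0
  else D.wA A i T z

/-- the pre-cutoff field of the parent cap `v` -/
def pre (i : ℕ) (g : D.Cl i → (ST k →ᵇ ℂ)) (v : D.Lb (i + 1)) : ST k →ᵇ ℂ := ∑ T : D.Cl i, if D.par i T.1.1 = v then g T else 0

/-- the sampling weight of order `A` -/
def edge (A : ℝ) (i : ℕ) (T' : D.Lb i × Lat k) (T : D.Lb (i + 1) × Lat k) : ℝ :=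
  if D.par i T'.1 = T.1 then D.wA A i T' (D.ctr (i + 1) T) else 0

/-- the reference weights: sampled descendant squares (order `P`) -/
def bb : ∀ i, D.Cl i → ℝ
  | 0 => fun T => D.s0 T.1
  | i + 1 => fun T => Real.sqrt (∑ T' : D.Cl i, bb i T' ^ 2 * D.edge c.P i T'.1 T.1)

/-- the leaf square envelope of a bin, `e_b²(z)` (order `P`) -/
def eb (β : D.Bin) (z : ST k) : ℝ := ∑ T ∈ D.W 0, if D.bin 0 T.1 = β then D.s0 T ^ 2 * D.wA c.P 0 T z else 0

/-- `g` is a family of packets of height `i` with amplitudes `≤ a` -/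
def Adm (i : ℕ) (g : D.Cl i → (ST k →ᵇ ℂ)) (a : D.Cl i → ℝ) : Prop :=
  ∀ T : D.Cl i, IsPk (c.ρ i) c.M (D.κ i) (D.fr i T.1.1) (lat T.1.2) (a T) (g T)

/-- the output packet `χ_T · (pre-cutoff field of the cap of T)` -/
def asm (i : ℕ) (g : D.Cl i → (ST k →ᵇ ℂ)) (T : D.Cl (i + 1)) : ST k →ᵇ ℂ := D.loc (i + 1) T.1 * D.pre i g T.1.1

/-- the fresh amplitude: weighted supremum of the pre-cutoff field (H (p:parent-amplitude)) -/
def amp (i : ℕ) (g : D.Cl i → (ST k →ᵇ ℂ)) (T : D.Cl (i + 1)) : ℝ := c.Cχ * ⨆ z, ‖D.pre i g T.1.1 z‖ * D.wA c.C0 (i + 1) T.1 z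

/-- the root field of a family at the point `z` (through the transition masks below the height `tr`) -/
def Ev (i : ℕ) (g : D.Cl i → (ST k →ᵇ ℂ)) (z : ST k) : ℂ := ∑ T : D.Cl i, D.msk i T.1.1 z * g T z

/-- the incidence relation at the point `z` -/
def near (i : ℕ) (z : ST k) (T : D.Lb i × Lat k) : Prop :=
  ‖D.X i T z‖ ≤ D.G i ∧ (i < c.tr → ∃ S ∈ D.W c.tr, D.bin c.tr S.1 = D.bin i T.1 ∧ ‖D.X c.tr S z‖ ≤ D.G c.tr)

/-- **the layered packet system of the data** -/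
def sys : TSys where
  ℓ := c.ℓ
  C := D.Cl
  fC := fun _ => inferInstance
  Y := D.Y
  fY := D.fY
  F := ST k →ᵇ ℂ
  aF := inferInstance
  vol := fun i => D.κ i ^ (k + 2)
  Pk := fun i T a f => IsPk (c.ρ i) c.M (D.κ i) (D.fr i T.1.1) (lat T.1.2) a f
  asm := D.asm
  amp := D.amp
  ev := fun i T f y => D.msk i T.1.1 (D.pt y) * f (D.pt y)
  w := fun i T y => D.ker c.Q i T.1 (D.pt y)
  wh := fun T y => D.ker c.Q c.ℓ T.1 (D.pt y)
  e := fun i T' T => D.edge c.P i T'.1 T.1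
  eh := fun i T' T => D.edge c.Q i T'.1 T.1
  b := D.bb
  inc := fun i y T => D.near i (D.pt y) T.1
  g0 := fun T => D.g0 T.1

/-- **the hypotheses on the data** -/
structure Good : Prop where
  one_le_κ : ∀ i, 1 ≤ D.κ i
  κ_anti : ∀ i, D.κ (i + 1) ≤ D.κ i
  /-- nested caps -/
  par_near : ∀ i v, ‖D.fr i v - D.fr (i + 1) (D.par i v)‖ ≤ c.Cc / D.κ (i + 1)
  /-- the labels of the top height lie in a fixed ball -/
  top_bdd : ∀ v, ‖D.fr c.ℓ v‖ ≤ c.Cc
  /-- bounded multiplicity of the labels -/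
  mult : ∀ i (ξ : E k), ((Finset.univ.filter fun v => ‖D.fr i v - ξ‖ ≤ (D.κ i)⁻¹).card : ℝ) ≤ c.Cm
  nlab : ∀ i, (Fintype.card (D.Lb i) : ℝ) ≤ c.Cm * D.κ i ^ k
  nch : ∀ i v, ((Finset.univ.filter fun v' => D.par i v' = v).card : ℝ) ≤ c.Cm * (D.κ i / D.κ (i + 1)) ^ k
  /-- the bins are the ancestors at the transition height -/
  bin_par : ∀ i, i + 1 ≤ c.tr → ∀ v, D.bin (i + 1) (D.par i v) = D.bin i v
  bin_inj : Function.Injective (D.bin c.tr)
  /-- the leaves -/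
  leaf : ∀ T ∈ D.W 0, IsPk (c.ρ 0) c.M (D.κ 0) (D.fr 0 T.1) (lat T.2) (D.s0 T) (D.g0 T)
  /-- the witnesses are `1`-separated -/
  sep : ∀ y y', y ≠ y' → 1 ≤ ‖D.pt y - D.pt y'‖
  /-- the windows are large (not at the transition height: there the masks are part of the operator) -/
  ηw_nonneg : 0 ≤ D.ηw
  win : ∀ i, i < c.ℓ → i + 1 ≠ c.tr → ∀ y v, ‖1 - D.ms (i + 1) v (D.pt y)‖ ≤ D.ηw
  /-- the enlargements grow towards the leaves -/
  one_le_G : ∀ i, i ≤ c.ℓ → 1 ≤ D.G i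
  G_step : ∀ i, i < c.ℓ → 2 * (1 + 2 * c.Cc) * D.G (i + 1) ≤ D.G i
  one_le_ϖ : 1 ≤ D.ϖ
  Mc_pos : 0 < D.Mc
  /-- FR1: the leaf squares (order `P`), seen through the retained masks, are bounded at the witnesses (H (f:clipped) + l.540-556; power case: `B_i ≤ 1` + `p:convolution`) -/
  sq0 : ∀ y, ∑ T ∈ D.W 0, D.s0 T ^ 2 * D.ker c.P 0 T (D.pt y) ≤ D.ϖ
  /-- FR1: only masks with `e_b²(z_T) ≤ M_c` are retained (H l.540) -/
  ret : ∀ S ∈ D.W c.tr, D.eb (D.bin c.tr S.1) (D.ctr c.tr S) ≤ D.Mc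
  /-- FR1: the clipped square sum over the bins (H (f:clipped)) -/
  clip : ∀ y, ∑ v : D.Lb c.tr, min (D.eb (D.bin c.tr v) (D.pt y)) D.Mc ≤ D.ϖ

/-- **the explicit constants of the system**: `C` = constant depending only on the class `c` (and `ε`), `ε` = exponent of the hierarchy loss, `L0`, `Rm` = the root count -/
def tp (C ε L0 Rm : ℝ) : TPar where
  q := qk k
  L := C * (D.κ 0 / D.κ c.ℓ) ^ ε
  Γ := fun i => C * (D.κ i / D.κ (i + 1)) ^ k
  Γr := fun i => C * D.κ i ^ k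
  Γ2 := C
  η := C * D.ηw * D.κ 0 ^ k
  L0 := L0
  Rm := Rm
  ϖ0 := C * D.ϖ
  ϖ1 := C * D.G 0 ^ (2 * c.P) * D.ϖ

end TDat

/-- the statement of the root count (field `root` of `TSys.Ok`) -/
def RootSt (𝔖 : TSys) (p : TPar) : Prop :=
  ∀ g a, 𝔖.Adm 𝔖.ℓ g a → ∀ b : 𝔖.C 𝔖.ℓ → ℝ, (∀ T, 0 ≤ b T) → (∀ T, a T ≠ 0 → 0 < b T) → ∀ (Y' : Finset 𝔖.Y) (θ ϖ ρ : ℝ), 0 < θ → 0 < ϖ → (∀ T, a T ≤ ρ * b T) →
    ρ ^ 2 * p.Γr 𝔖.ℓ * ϖ ≤ (p.Rm * θ) ^ 2 → (∀ z ∈ Y', θ ≤ ‖𝔖.Ev 𝔖.ℓ g z‖ ∧ ∑ T, b T ^ 2 * 𝔖.wh T z ≤ ϖ) →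
    (Y'.card : ℝ) ≤ p.L0 * θ ^ (-p.q) * ϖ ^ (p.q / 2 - 1) * 𝔖.bud p.q 𝔖.ℓ a b

theorem ti_defs_eqns_cite : True := by
  have := @lat.eq_1
  have := @pw.eq_1
  have := @WtAt.eq_1
  have := @L2At.eq_1
  have := @NcAt.eq_1
  have := @TDat.X.eq_1
  have := @TDat.ctr.eq_1
  have := @TDat.wA.eq_1
  have := @TDat.loc.eq_1
  have := @TDat.ms.eq_1
  have := @TDat.msk.eq_1
  have := @TDat.ker.eq_1
  have := @TDat.pre.eq_1
  have := @TDat.edge.eq_1
  have := @TDat.bb.eq_1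
  have := @TDat.bb.eq_2
  have := @TDat.eb.eq_1
  have := @TDat.Adm.eq_1
  have := @TDat.asm.eq_1
  have := @TDat.amp.eq_1
  have := @TDat.Ev.eq_1
  have := @TDat.near.eq_1
  have := @TDat.sys.eq_1
  have := @TDat.tp.eq_1
  have := @RootSt.eq_1
  trivial

end

end Claimed.Agent.R257.Tree
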