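import Claimed.Agent.R257.Tree.Cau

/-!
# ROW 257, unit INST, file 5: ONE STEP OF THE HIERARCHY (`p:hierarchy`) AND THE `L²` STEP      (architect helper155)          CONTRACT

Fields `hier`, `l2` of `TSys.Ok` for `TDat.sys`, from the contracts `WtAt` (order `Q`) and `L2At`.   Paper: H `packets.tex` l.820-880.   Every `sorry` is a leaf `L-257-TI-H*`.

PROOF OF ONE STEP, parent label `v : Lb (i+1)`, `K = κ (i+1)`, `K' = κ i`, `N = K'/K`, `q = qk k`.   Children of `v`: the cells `T' ∈ W i` with `par i T'.1 = v`.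
In the coordinates `X = natX K (fr v) z` the children are packets of scale `N`, labels `K • (fr T' - fr v)` (norm `≤ Cc`), same centres, same amplitudes (`ti_pk_resc`), and `‖∑ G_{T'} X‖ = ‖pre i g v z‖`, `pw A N u (lat λ') X = wA A i T' z` (`natX_resc`).
(1) near-maximiser `z_T` (`TDat.amp_near`): `amp_T ≤ 2 Cχ ‖pre z_T‖ (1 + d_T z_T)^(-C0)`.
(2) `b_T² ≥ ∑ b'² edge Q ≥ (1 + 2Cc)^(-Q) (1 + d_T z)^(-Q) B(z)²`, `B(z)² = ∑_{T' in the cap} b'² wA Q i T' z` (`ti_edge_ge`); `2 - q < 0`: `b_T^(2-q) ≤ C (1 + d_T z)^(Q (q-2)/2) (B(z)²)^((2-q)/2)` if `B(z) > 0`, `b_T > 0`.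
    Degenerate cases: `b_T = 0`: the term is `0` (`Real.zero_rpow`);  `B(z_T) = 0`: all `b' = 0` in the cap, so all `a = 0`, `pre = 0`, `amp_T = 0`.
(3) `Φ X = (B²)^((2-q)/2) ‖pre‖^q` at `z = natI K (fr v) X`; `∑_λ amp^q b^(2-q) ≤ C ∑_λ Φ (x_λ) (1 + ‖x_λ - lat λ‖)^(-E)`, `E = C0 q - Q (q-2)/2 > k + 1`; `ti_sup_pts`; `WtAt` on the `USep` set.
(4) multiply by `K^(k+2)`: `K^(k+2) N^(k+2) = K'^(k+2)`; sum over `v`.
-/

set_option autoImplicit false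

namespace Claimed.Agent.R257.Tree

open Claimed.Agent.R257 Claimed.Agent.R257.FR2
open scoped BigOperators Classical BoundedContinuousFunction

noncomputable section

variable {k : ℕ}

/-- `2 < q_k` -/
theorem ti_qk_gt (hk : 1 ≤ k) : 2 < qk k := by
  unfold qk
  have : (0 : ℝ) < k := by exact_mod_cast hk
  rw [lt_div_iff₀ this]
  linarith

theorem ti_h1_rho_mono {c : TCls k} (hc : c.Ok) : Monotone c.ρ := monotone_nat_of_le_succ fun i => by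
  have h1 := hc.ρ_step i
  have h2 := hc.ρ_nonneg i
  have h3 := hc.one_le_Cc
  have h4 := hc.ρχ_nonneg
  nlinarith

theorem ti_h1_mult {c : TCls k} (D : TDat c) (hD : D.Good) (i : ℕ) (v : D.Lb (i + 1)) (ξ : E k) :
    ((Finset.univ.filter fun v' => ‖D.κ (i + 1) • (D.fr i v' - D.fr (i + 1) v) - ξ‖ ≤ (D.κ i / D.κ (i + 1))⁻¹).card : ℝ) ≤ c.Cm := by
  have hK : 0 < D.κ (i + 1) := lt_of_lt_of_le one_pos (hD.one_le_κ _)
  have hK' : 0 < D.κ i := lt_of_lt_of_le one_pos (hD.one_le_κ _)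
  refine le_trans ?_ (hD.mult i (D.fr (i + 1) v + (D.κ (i + 1))⁻¹ • ξ))
  have : (Finset.univ.filter fun v' => ‖D.κ (i + 1) • (D.fr i v' - D.fr (i + 1) v) - ξ‖ ≤ (D.κ i / D.κ (i + 1))⁻¹)
      ⊆ Finset.univ.filter fun v' => ‖D.fr i v' - (D.fr (i + 1) v + (D.κ (i + 1))⁻¹ • ξ)‖ ≤ (D.κ i)⁻¹ := by
    intro v' hv'
    rw [Finset.mem_filter] at hv' ⊢
    refine ⟨hv'.1, ?_⟩
    have e : D.fr i v' - (D.fr (i + 1) v + (D.κ (i + 1))⁻¹ • ξ) = (D.κ (i + 1))⁻¹ • (D.κ (i + 1) • (D.fr i v' - D.fr (i + 1) v) - ξ) := by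
      rw [smul_sub, smul_smul, inv_mul_cancel₀ hK.ne', one_smul]
      abel
    rw [e, norm_smul, Real.norm_of_nonneg (inv_nonneg.2 hK.le)]
    calc (D.κ (i + 1))⁻¹ * ‖D.κ (i + 1) • (D.fr i v' - D.fr (i + 1) v) - ξ‖ ≤ (D.κ (i + 1))⁻¹ * (D.κ i / D.κ (i + 1))⁻¹ := by
          gcongr
          exact hv'.2
      _ = (D.κ i)⁻¹ := by field_simp
  exact_mod_cast Finset.card_le_card this

theorem ti_h1_bdd {c : TCls k} (D : TDat c) (hD : D.Good) (i : ℕ) (v' : D.Lb i) :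
    ‖D.κ (i + 1) • (D.fr i v' - D.fr (i + 1) (D.par i v'))‖ ≤ c.Cc := by
  have hK : 0 < D.κ (i + 1) := lt_of_lt_of_le one_pos (hD.one_le_κ _)
  rw [norm_smul, Real.norm_of_nonneg hK.le]
  calc D.κ (i + 1) * ‖D.fr i v' - D.fr (i + 1) (D.par i v')‖ ≤ D.κ (i + 1) * (c.Cc / D.κ (i + 1)) := by
        gcongr
        exact hD.par_near i v'
    _ = c.Cc := by field_simp

theorem ti_h1_pw {c : TCls k} (D : TDat c) (hD : D.Good) (A : ℝ) (i : ℕ) (T : D.Lb i × Lat k) (v : D.Lb (i + 1)) (X : ST k) :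
    D.wA A i T (natI (D.κ (i + 1)) (D.fr (i + 1) v) X)
      = pw A (D.κ i / D.κ (i + 1)) (D.κ (i + 1) • (D.fr i T.1 - D.fr (i + 1) v)) (lat T.2) X := by
  have hK : D.κ (i + 1) ≠ 0 := (lt_of_lt_of_le one_pos (hD.one_le_κ _)).ne'
  rw [TDat.wA_eq_pw]
  unfold pw
  have := natX_resc (N := D.κ i) hK (D.fr i T.1) (D.fr (i + 1) v) (natI (D.κ (i + 1)) (D.fr (i + 1) v) X)
  rw [natX_natI hK] at this
  rw [this]

/-- the children of one parent cap in the coordinates of the parent: packets of the class of the top height. -/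
theorem ti_h1_pk {c : TCls k} (hc : c.Ok) (D : TDat c) (hD : D.Good) (i : ℕ) (hi : i < c.ℓ) (g : D.Cl i → (ST k →ᵇ ℂ)) (a : D.Cl i → ℝ)
    (h : D.Adm i g a) (v : D.Lb (i + 1)) (T : D.Lb i × Lat k) (hT : T ∈ D.W i) :
    IsPk (c.ρ c.ℓ) c.M (D.κ i / D.κ (i + 1)) (D.κ (i + 1) • (D.fr i T.1 - D.fr (i + 1) v)) (lat T.2)
      (if h : T ∈ D.W i then a ⟨T, h⟩ else 0)
      (fun X => if h : T ∈ D.W i then (car (D.fr (i + 1) v) (natI (D.κ (i + 1)) (D.fr (i + 1) v) X))⁻¹ * g ⟨T, h⟩ (natI (D.κ (i + 1)) (D.fr (i + 1) v) X) else 0) := by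
  have hK : 0 < D.κ (i + 1) := lt_of_lt_of_le one_pos (hD.one_le_κ _)
  simp only [dif_pos hT]
  exact ti_pk_mono_rho (ti_pk_resc hK (D.fr (i + 1) v) (h ⟨T, hT⟩)) (ti_h1_rho_mono hc hi.le)

/-- sums over the cells of a cap. -/
theorem ti_h1_sum {c : TCls k} (D : TDat c) (i : ℕ) (v : D.Lb (i + 1)) {R : Type} [AddCommMonoid R] (ψ : D.Lb i × Lat k → R) :
    ∑ T ∈ (D.W i).filter (fun T => D.par i T.1 = v), ψ T = ∑ T' : D.Cl i, if D.par i T'.1.1 = v then ψ T'.1 else 0 := by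
  rw [Finset.sum_filter]
  exact (Finset.sum_coe_sort (D.W i) fun T => if D.par i T.1 = v then ψ T else 0).symm

theorem ti_h1_fld {c : TCls k} (D : TDat c) (i : ℕ) (g : D.Cl i → (ST k →ᵇ ℂ)) (v : D.Lb (i + 1)) (X : ST k) :
    ‖∑ T ∈ (D.W i).filter (fun T => D.par i T.1 = v), (if h : T ∈ D.W i then (car (D.fr (i + 1) v) (natI (D.κ (i + 1)) (D.fr (i + 1) v) X))⁻¹ * g ⟨T, h⟩ (natI (D.κ (i + 1)) (D.fr (i + 1) v) X) else 0)‖
      = ‖D.pre i g v (natI (D.κ (i + 1)) (D.fr (i + 1) v) X)‖ := by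
  rw [ti_h1_sum, TDat.pre_apply]
  have e : ∀ T' : D.Cl i, (if D.par i T'.1.1 = v then (if h : T'.1 ∈ D.W i then (car (D.fr (i + 1) v) (natI (D.κ (i + 1)) (D.fr (i + 1) v) X))⁻¹ * g ⟨T'.1, h⟩ (natI (D.κ (i + 1)) (D.fr (i + 1) v) X) else 0) else 0)
      = (car (D.fr (i + 1) v) (natI (D.κ (i + 1)) (D.fr (i + 1) v) X))⁻¹ * (if D.par i T'.1.1 = v then g T' (natI (D.κ (i + 1)) (D.fr (i + 1) v) X) else 0) := by
    intro T'
    rw [dif_pos T'.2]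
    split_ifs <;> simp
  simp only [e]
  rw [← Finset.mul_sum, norm_mul, norm_inv, norm_car, inv_one, one_mul]

/-- **LEAF L-257-TI-H1: the weighted estimate in one parent cap, at separated points of the parent coordinates.**   (Steps "In the coordinates …" + `WtAt`.)
`Yn` = `USep` set of NATIVE points of the parent `(κ (i+1), fr v)`.
PLAN: apply `hW (c.ρ c.ℓ) c.Cc c.Cm ε` with `Λ = D.Lb i`, `fr' v' = K • (fr i v' - fr (i+1) v)`, `s = (D.W i).filter (par i T'.1 = v)`, functions extended by `0` off `W i` (`fun T => if h : T ∈ D.W i then a ⟨T, h⟩ else 0`), packets `ti_pk_resc` + `ti_pk_mono_rho` (`ρ i ≤ ρ ℓ`: `hc.ρ_step`, monotone; needs `i ≤ ℓ`);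
multiplicity: `‖K • (fr v' - fr v) - ξ‖ ≤ N⁻¹ ↔ ‖fr v' - (fr v + K⁻¹ • ξ)‖ ≤ (κ i)⁻¹`, `hD.mult`.   Sums over the subtype: `Finset.sum_coe_sort`, `Finset.sum_filter`, `Finset.sum_dite`. -/
theorem ti_wt_cap {c : TCls k} (hc : c.Ok) {p : ℝ} (hW : WtAt k p c.Q c.M) {ε : ℝ} (hε : 0 < ε) : ∃ C : ℝ, 1 ≤ C ∧ ∀ D : TDat c, D.Good → ∀ i, i < c.ℓ →
    ∀ (g : D.Cl i → (ST k →ᵇ ℂ)) (a : D.Cl i → ℝ), D.Adm i g a → ∀ b' : D.Cl i → ℝ, (∀ T', 0 ≤ b' T') → (∀ T', a T' ≠ 0 → 0 < b' T') →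
    ∀ (v : D.Lb (i + 1)) (Yn : Finset (ST k)), USep Yn →
      ∑ X ∈ Yn, (∑ T' : D.Cl i, if D.par i T'.1.1 = v then b' T' ^ 2 * D.wA c.Q i T'.1 (natI (D.κ (i + 1)) (D.fr (i + 1) v) X) else 0) ^ ((2 - p) / 2)
          * ‖D.pre i g v (natI (D.κ (i + 1)) (D.fr (i + 1) v) X)‖ ^ p
        ≤ C * (D.κ i / D.κ (i + 1)) ^ ε * (D.κ i / D.κ (i + 1)) ^ (k + 2) * ∑ T' : D.Cl i, if D.par i T'.1.1 = v then a T' ^ p * b' T' ^ (2 - p) else 0 := by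
  obtain ⟨C, hC, h⟩ := hW (c.ρ c.ℓ) c.Cc c.Cm ε hε
  refine ⟨C, hC, ?_⟩
  intro D hD i hi g a hAdm b' hb hab v Yn hY
  have hK : 0 < D.κ (i + 1) := lt_of_lt_of_le one_pos (hD.one_le_κ _)
  have hN : 1 ≤ D.κ i / D.κ (i + 1) := by
    rw [le_div_iff₀ hK, one_mul]
    exact hD.κ_anti i
  have key := h (D.κ i / D.κ (i + 1)) hN (D.Lb i) (fun v' => D.κ (i + 1) • (D.fr i v' - D.fr (i + 1) v)) (ti_h1_mult D hD i v)
    ((D.W i).filter fun T => D.par i T.1 = v) (fun T => if h : T ∈ D.W i then a ⟨T, h⟩ else 0) (fun T => if h : T ∈ D.W i then b' ⟨T, h⟩ else 0)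
    (fun T X => if h : T ∈ D.W i then (car (D.fr (i + 1) v) (natI (D.κ (i + 1)) (D.fr (i + 1) v) X))⁻¹ * g ⟨T, h⟩ (natI (D.κ (i + 1)) (D.fr (i + 1) v) X) else 0)
    (fun T hT => by
      have := ti_h1_bdd D hD i T.1
      rw [(Finset.mem_filter.1 hT).2] at this
      exact this)
    (fun T hT => ti_h1_pk hc D hD i hi g a hAdm v T (Finset.mem_filter.1 hT).1)
    (fun T hT => by
      simp only [dif_pos (Finset.mem_filter.1 hT).1]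
      exact hb _)
    (fun T hT => by
      simp only [dif_pos (Finset.mem_filter.1 hT).1]
      exact hab _)
    Yn hY
  refine le_trans (le_of_eq ?_) (key.trans (le_of_eq ?_))
  · refine Finset.sum_congr rfl fun X _ => ?_
    rw [ti_h1_fld, ti_h1_sum]
    congr 2
    refine Finset.sum_congr rfl fun T' _ => ?_
    rw [dif_pos T'.2, ti_h1_pw D hD]
  · rw [ti_h1_sum]
    congr 1
    refine Finset.sum_congr rfl fun T' _ => ?_
    rw [dif_pos T'.2, dif_pos T'.2]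

theorem ti_term_real {p Q C0 A x β B2 d c1 c2 : ℝ} (hp : 2 < p) (hA0 : 0 ≤ A) (hx : 0 ≤ x) (hβ : 0 < β) (hB : 0 < B2) (hd : 0 ≤ d)
    (hc1 : 0 ≤ c1) (hc2 : 1 ≤ c2) (h1 : A ≤ c1 * (x * (1 + d) ^ (-C0))) (h2 : B2 ≤ c2 ^ Q * (1 + d) ^ Q * β ^ 2) :
    A ^ p * β ^ (2 - p) ≤ c1 ^ p * c2 ^ (Q * (p - 2) / 2) * (B2 ^ ((2 - p) / 2) * x ^ p) * (1 + d) ^ (-(C0 * p - Q * (p - 2) / 2)) := by
  have hp0 : 0 ≤ p := by linarith
  have hd1 : 0 < 1 + d := by linarith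
  have hc20 : 0 < c2 := by linarith
  have hW : 0 < c2 ^ Q * (1 + d) ^ Q := mul_pos (Real.rpow_pos_of_pos hc20 _) (Real.rpow_pos_of_pos hd1 _)
  have e1 : A ^ p ≤ c1 ^ p * x ^ p * (1 + d) ^ (-C0 * p) := by
    calc A ^ p ≤ (c1 * (x * (1 + d) ^ (-C0))) ^ p := Real.rpow_le_rpow hA0 h1 hp0
      _ = _ := by
          rw [Real.mul_rpow hc1 (mul_nonneg hx (Real.rpow_nonneg hd1.le _)), Real.mul_rpow hx (Real.rpow_nonneg hd1.le _), ← Real.rpow_mul hd1.le]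
          ring
  have e2 : β ^ (2 - p) = (β ^ 2) ^ ((2 - p) / 2) := by
    rw [← Real.rpow_natCast, ← Real.rpow_mul hβ.le]
    congr 1
    push_cast
    ring
  have h3 : B2 / (c2 ^ Q * (1 + d) ^ Q) ≤ β ^ 2 := by
    rw [div_le_iff₀ hW]
    linarith
  have e3 : β ^ (2 - p) ≤ B2 ^ ((2 - p) / 2) * (c2 ^ (Q * (p - 2) / 2) * (1 + d) ^ (Q * (p - 2) / 2)) := by
    rw [e2]
    calc (β ^ 2) ^ ((2 - p) / 2) ≤ (B2 / (c2 ^ Q * (1 + d) ^ Q)) ^ ((2 - p) / 2) :=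
          Real.rpow_le_rpow_of_nonpos (div_pos hB hW) h3 (by linarith)
      _ = _ := by
          rw [Real.div_rpow hB.le hW.le, Real.mul_rpow (Real.rpow_nonneg hc20.le _) (Real.rpow_nonneg hd1.le _), ← Real.rpow_mul hc20.le, ← Real.rpow_mul hd1.le,
            div_eq_mul_inv, mul_inv, ← Real.rpow_neg hc20.le, ← Real.rpow_neg hd1.le]
          congr 3 <;> ring
  calc A ^ p * β ^ (2 - p)
      ≤ (c1 ^ p * x ^ p * (1 + d) ^ (-C0 * p)) * (B2 ^ ((2 - p) / 2) * (c2 ^ (Q * (p - 2) / 2) * (1 + d) ^ (Q * (p - 2) / 2))) :=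
        mul_le_mul e1 e3 (Real.rpow_nonneg hβ.le _) (by positivity)
    _ = c1 ^ p * c2 ^ (Q * (p - 2) / 2) * (B2 ^ ((2 - p) / 2) * x ^ p) * ((1 + d) ^ (-C0 * p) * (1 + d) ^ (Q * (p - 2) / 2)) := by ring
    _ = _ := by
        rw [← Real.rpow_add hd1]
        congr 2
        ring

/-- **LEAF L-257-TI-H2: one term** (steps (1), (2)): for every parent cell there is a point `z` with the displayed bound. -/
theorem ti_hier_term {c : TCls k} (hc : c.Ok) {p : ℝ} (hp : 2 < p) : ∃ C : ℝ, 1 ≤ C ∧ ∀ D : TDat c, D.Good → ∀ i,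
    ∀ (g : D.Cl i → (ST k →ᵇ ℂ)) (a : D.Cl i → ℝ), D.Adm i g a → ∀ b' : D.Cl i → ℝ, (∀ T', 0 ≤ b' T') → (∀ T', a T' ≠ 0 → 0 < b' T') →
    ∀ (T : D.Cl (i + 1)) (β : ℝ), 0 ≤ β → ∑ T' : D.Cl i, b' T' ^ 2 * D.edge c.Q i T'.1 T.1 ≤ β ^ 2 →
    ∃ z : ST k, D.amp i g T ^ p * β ^ (2 - p) ≤
      C * ((∑ T' : D.Cl i, if D.par i T'.1.1 = T.1.1 then b' T' ^ 2 * D.wA c.Q i T'.1 z else 0) ^ ((2 - p) / 2) * ‖D.pre i g T.1.1 z‖ ^ p)
        * (1 + ‖D.X (i + 1) T.1 z‖) ^ (-(c.C0 * p - c.Q * (p - 2) / 2)) := by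
  have hk0 : (0 : ℝ) ≤ k := Nat.cast_nonneg k
  have hQ : 0 ≤ c.Q := by linarith [hc.P_gt, hc.P_lt]
  have hχ : 0 ≤ c.Cχ := by linarith [hc.one_le_Cχ]
  have hCc : 0 ≤ c.Cc := by linarith [hc.one_le_Cc]
  have hC1 : 1 ≤ (2 * c.Cχ) ^ p := Real.one_le_rpow (by linarith [hc.one_le_Cχ]) (by linarith)
  have hC2 : 1 ≤ (1 + 2 * c.Cc) ^ (c.Q * (p - 2) / 2) := Real.one_le_rpow (by linarith) (by
    have : 0 ≤ c.Q * (p - 2) := mul_nonneg hQ (by linarith)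
    linarith)
  refine ⟨(2 * c.Cχ) ^ p * (1 + 2 * c.Cc) ^ (c.Q * (p - 2) / 2), one_le_mul_of_one_le_of_one_le hC1 hC2, ?_⟩
  intro D hD i g a h b' hb' hab T β hβ hdom
  obtain ⟨z, hz⟩ := D.amp_near hχ i g T
  refine ⟨z, ?_⟩
  set B2 : ℝ := ∑ T' : D.Cl i, if D.par i T'.1.1 = T.1.1 then b' T' ^ 2 * D.wA c.Q i T'.1 z else 0 with hB2
  have hB20 : 0 ≤ B2 := Finset.sum_nonneg fun T' _ => by
    split_ifs
    exacts [mul_nonneg (sq_nonneg _) (D.wA_pos _ _ _ _).le, le_rfl]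
  have hrhs : 0 ≤ (2 * c.Cχ) ^ p * (1 + 2 * c.Cc) ^ (c.Q * (p - 2) / 2) * (B2 ^ ((2 - p) / 2) * ‖D.pre i g T.1.1 z‖ ^ p)
      * (1 + ‖D.X (i + 1) T.1 z‖) ^ (-(c.C0 * p - c.Q * (p - 2) / 2)) := by positivity
  rcases hβ.eq_or_lt with hβ0 | hβ0
  · rw [← hβ0, Real.zero_rpow (by linarith), mul_zero]
    exact hrhs
  rcases hB20.eq_or_lt with hB0 | hB0
  · -- all the children of the cap vanish
    have hzero : ∀ T' : D.Cl i, D.par i T'.1.1 = T.1.1 → a T' = 0 := by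
      intro T' hp'
      by_contra hne
      have h1 := hab T' hne
      have h2 : 0 < (if D.par i T'.1.1 = T.1.1 then b' T' ^ 2 * D.wA c.Q i T'.1 z else 0) := by
        rw [if_pos hp']
        exact mul_pos (by positivity) (D.wA_pos _ _ _ _)
      have h3 : (if D.par i T'.1.1 = T.1.1 then b' T' ^ 2 * D.wA c.Q i T'.1 z else 0) ≤ B2 :=
        Finset.single_le_sum (f := fun T' : D.Cl i => if D.par i T'.1.1 = T.1.1 then b' T' ^ 2 * D.wA c.Q i T'.1 z else 0) (fun T'' _ => by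
          split_ifs
          exacts [mul_nonneg (sq_nonneg _) (D.wA_pos _ _ _ _).le, le_rfl]) (Finset.mem_univ T')
      linarith
    have hpre : D.pre i g T.1.1 z = 0 := by
      rw [TDat.pre_apply]
      refine Finset.sum_eq_zero fun T' _ => ?_
      split_ifs with hp'
      · have := ti_pk_le (h T') z
        rw [hzero T' hp', zero_mul] at this
        exact norm_le_zero_iff.1 this
      · rfl
    have hamp : D.amp i g T = 0 := by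
      rw [hpre, norm_zero, zero_mul, mul_zero] at hz
      exact le_antisymm hz (D.amp_nonneg hχ i g T)
    rw [hamp, Real.zero_rpow (by linarith), zero_mul]
    exact hrhs
  · have h2 : B2 ≤ (1 + 2 * c.Cc) ^ c.Q * (1 + ‖D.X (i + 1) T.1 z‖) ^ c.Q * β ^ 2 := by
      refine le_trans ?_ (mul_le_mul_of_nonneg_left hdom (by positivity))
      rw [hB2, Finset.mul_sum]
      refine Finset.sum_le_sum fun T' _ => ?_
      split_ifs with hp'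
      · calc b' T' ^ 2 * D.wA c.Q i T'.1 z ≤ b' T' ^ 2 * ((1 + 2 * c.Cc) ^ c.Q * (1 + ‖D.X (i + 1) T.1 z‖) ^ c.Q * D.edge c.Q i T'.1 T.1) :=
              mul_le_mul_of_nonneg_left (ti_edge_ge hc D hD hQ i T'.1 T.1 hp' z) (sq_nonneg _)
          _ = _ := by ring
      · exact mul_nonneg (by positivity) (mul_nonneg (sq_nonneg _) (D.edge_nonneg _ _ _ _))
    exact ti_term_real hp (D.amp_nonneg hχ i g T) (norm_nonneg _) hβ0 hB0 (norm_nonneg _) (by linarith) (by linarith) hz h2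

theorem ti_cap_pts {c : TCls k} (D : TDat c) {Ee Cs : ℝ}
    (hCs : ∀ (Φ : ST k → ℝ), (∀ X, 0 ≤ Φ X) → ∀ (t : Finset (Lat k)) (x : Lat k → ST k),
      ∃ Y : Finset (ST k), USep Y ∧ ∑ m ∈ t, Φ (x m) * (1 + ‖x m - lat m‖) ^ (-Ee) ≤ Cs * ∑ X ∈ Y, Φ X)
    (j : ℕ) (v : D.Lb j) (F : D.Cl j → ℝ) (Φ : ST k → ℝ) (hΦ : ∀ X, 0 ≤ Φ X) {C₁ : ℝ} (hC₁ : 0 ≤ C₁)
    (hF : ∀ T : D.Cl j, T.1.1 = v → ∃ X : ST k, F T ≤ C₁ * Φ X * (1 + ‖X - lat T.1.2‖) ^ (-Ee)) :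
    ∃ Y : Finset (ST k), USep Y ∧ ∑ T : D.Cl j, (if T.1.1 = v then F T else 0) ≤ C₁ * Cs * ∑ X ∈ Y, Φ X := by
  have hex : ∀ m : Lat k, ∃ X : ST k, ∀ h : (v, m) ∈ D.W j, F ⟨(v, m), h⟩ ≤ C₁ * Φ X * (1 + ‖X - lat m‖) ^ (-Ee) := by
    intro m
    by_cases h : (v, m) ∈ D.W j
    · obtain ⟨X, hX⟩ := hF ⟨(v, m), h⟩ rfl
      exact ⟨X, fun _ => hX⟩
    · exact ⟨0, fun h' => absurd h' h⟩
  choose x hx using hex
  set t : Finset (Lat k) := ((D.W j).filter fun T => T.1 = v).image Prod.snd with ht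
  obtain ⟨Y, hY, hsum⟩ := hCs Φ hΦ t x
  refine ⟨Y, hY, ?_⟩
  set F' : D.Lb j × Lat k → ℝ := fun T => if h : T ∈ D.W j then F ⟨T, h⟩ else 0 with hF'
  have e1 : ∑ T : D.Cl j, (if T.1.1 = v then F T else 0) = ∑ T ∈ D.W j, (if T.1 = v then F' T else 0) := by
    rw [← Finset.sum_coe_sort (D.W j) (fun T => if T.1 = v then F' T else 0)]
    refine Finset.sum_congr rfl fun T _ => ?_
    split_ifs
    · rw [hF']
      beta_reduce
      rw [dif_pos T.2]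
    · rfl
  have e2 : ∑ T ∈ D.W j, (if T.1 = v then F' T else 0) = ∑ m ∈ t, F' (v, m) := by
    rw [← Finset.sum_filter, ht, Finset.sum_image]
    · refine Finset.sum_congr rfl fun T hT => ?_
      rw [Finset.mem_filter] at hT
      congr 1
      exact Prod.ext hT.2 rfl
    · intro T hT T' hT' e
      rw [Finset.mem_coe, Finset.mem_filter] at hT hT'
      exact Prod.ext (hT.2.trans hT'.2.symm) e
  rw [e1, e2]
  calc ∑ m ∈ t, F' (v, m) ≤ ∑ m ∈ t, C₁ * (Φ (x m) * (1 + ‖x m - lat m‖) ^ (-Ee)) := by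
        refine Finset.sum_le_sum fun m hm => ?_
        rw [ht, Finset.mem_image] at hm
        obtain ⟨T, hT, rfl⟩ := hm
        rw [Finset.mem_filter] at hT
        have hmem : (v, T.2) ∈ D.W j := by
          have : (v, T.2) = T := Prod.ext hT.2.symm rfl
          rw [this]; exact hT.1
        rw [hF']
        beta_reduce
        rw [dif_pos hmem, ← mul_assoc]
        exact hx T.2 hmem
    _ = C₁ * ∑ m ∈ t, Φ (x m) * (1 + ‖x m - lat m‖) ^ (-Ee) := by rw [Finset.mul_sum]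
    _ ≤ C₁ * (Cs * ∑ X ∈ Y, Φ X) := mul_le_mul_of_nonneg_left hsum hC₁
    _ = _ := by ring

/-- **LEAF L-257-TI-H3: one parent cap** (step (3)): `ti_hier_term`, `ti_sup_pts` (`E = C0 p - Q (p-2)/2 > k + 1` from `hc.C0_ge`), `ti_wt_cap`.   The cells of `W (i+1)` with the label `v` are indexed by their lattice points. -/
theorem ti_hier_cap {c : TCls k} (hc : c.Ok) {p : ℝ} (hp : 2 < p) (hW : WtAt k p c.Q c.M) {ε : ℝ} (hε : 0 < ε) : ∃ C : ℝ, 1 ≤ C ∧ ∀ D : TDat c, D.Good → ∀ i, i < c.ℓ →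
    ∀ (g : D.Cl i → (ST k →ᵇ ℂ)) (a : D.Cl i → ℝ), D.Adm i g a → ∀ (b' : D.Cl i → ℝ) (b : D.Cl (i + 1) → ℝ), (∀ T', 0 ≤ b' T') → (∀ T', a T' ≠ 0 → 0 < b' T') → (∀ T, 0 ≤ b T) →
    (∀ T, ∑ T' : D.Cl i, b' T' ^ 2 * D.edge c.Q i T'.1 T.1 ≤ b T ^ 2) → ∀ v : D.Lb (i + 1),
      ∑ T : D.Cl (i + 1), (if T.1.1 = v then D.amp i g T ^ p * b T ^ (2 - p) else 0)
        ≤ C * (D.κ i / D.κ (i + 1)) ^ ε * (D.κ i / D.κ (i + 1)) ^ (k + 2) * ∑ T' : D.Cl i, if D.par i T'.1.1 = v then a T' ^ p * b' T' ^ (2 - p) else 0 := by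
  have hk0 : (0 : ℝ) ≤ k := Nat.cast_nonneg k
  have hQ : 0 ≤ c.Q := by linarith [hc.P_gt, hc.P_lt]
  have hE : (k : ℝ) + 1 < c.C0 * p - c.Q * (p - 2) / 2 := by
    have h1 := hc.C0_ge
    have h2 : (c.Q + k + 2) * p ≤ c.C0 * p := mul_le_mul_of_nonneg_right h1 (by linarith)
    have h3 : 0 ≤ c.Q * p := mul_nonneg hQ (by linarith)
    have h4 : ((k : ℝ) + 2) * 2 ≤ ((k : ℝ) + 2) * p := mul_le_mul_of_nonneg_left hp.le (by linarith)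
    nlinarith
  obtain ⟨C₁, hC₁, hterm⟩ := ti_hier_term hc hp
  obtain ⟨Cs, hCs1, hCs⟩ := ti_sup_pts (k := k) hE
  obtain ⟨Cw, hCw1, hwt⟩ := ti_wt_cap hc hW hε
  refine ⟨C₁ * Cs * Cw, one_le_mul_of_one_le_of_one_le (one_le_mul_of_one_le_of_one_le hC₁ hCs1) hCw1, ?_⟩
  intro D hD i hi g a h b' b hb' hab hb hdom v
  have hK : 0 < D.κ (i + 1) := by linarith [hD.one_le_κ (i + 1)]
  set Φ : ST k → ℝ := fun X => (∑ T' : D.Cl i, if D.par i T'.1.1 = v then b' T' ^ 2 * D.wA c.Q i T'.1 (natI (D.κ (i + 1)) (D.fr (i + 1) v) X) else 0) ^ ((2 - p) / 2)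
          * ‖D.pre i g v (natI (D.κ (i + 1)) (D.fr (i + 1) v) X)‖ ^ p with hΦdef
  have hΦ : ∀ X, 0 ≤ Φ X := by
    intro X
    refine mul_nonneg (Real.rpow_nonneg (Finset.sum_nonneg fun T' _ => ?_) _) (Real.rpow_nonneg (norm_nonneg _) _)
    split_ifs
    exacts [mul_nonneg (sq_nonneg _) (D.wA_pos _ _ _ _).le, le_rfl]
  obtain ⟨Y, hY, hsum⟩ := ti_cap_pts D hCs (i + 1) v (fun T => D.amp i g T ^ p * b T ^ (2 - p)) Φ hΦ (by linarith : (0 : ℝ) ≤ C₁) (by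
    intro T hT
    obtain ⟨z, hz⟩ := hterm D hD i g a h b' hb' hab T (b T) (hb T) (hdom T)
    refine ⟨natX (D.κ (i + 1)) (D.fr (i + 1) v) z, ?_⟩
    rw [hΦdef]
    beta_reduce
    rw [natI_natX hK.ne']
    rw [hT] at hz
    have e : D.X (i + 1) T.1 z = natX (D.κ (i + 1)) (D.fr (i + 1) v) z - lat T.1.2 := by
      unfold TDat.X
      rw [hT]
    rw [e] at hz
    exact hz)
  refine hsum.trans ?_
  have h2 := hwt D hD i hi g a h b' hb' hab v Y hY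
  calc C₁ * Cs * ∑ X ∈ Y, Φ X
      ≤ C₁ * Cs * (Cw * (D.κ i / D.κ (i + 1)) ^ ε * (D.κ i / D.κ (i + 1)) ^ (k + 2) * ∑ T' : D.Cl i, if D.par i T'.1.1 = v then a T' ^ p * b' T' ^ (2 - p) else 0) :=
        mul_le_mul_of_nonneg_left h2 (by positivity)
    _ = _ := by ring

theorem ti_sum_caps {c : TCls k} (D : TDat c) (hD : D.Good) (i : ℕ) (F : D.Cl (i + 1) → ℝ) (G : D.Cl i → ℝ) {A : ℝ}
    (h : ∀ v : D.Lb (i + 1), ∑ T : D.Cl (i + 1), (if T.1.1 = v then F T else 0) ≤ A * (D.κ i / D.κ (i + 1)) ^ (k + 2) * ∑ T' : D.Cl i, if D.par i T'.1.1 = v then G T' else 0) :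
    ∑ T : D.Cl (i + 1), D.κ (i + 1) ^ (k + 2) * F T ≤ A * ∑ T' : D.Cl i, D.κ i ^ (k + 2) * G T' := by
  have hK : 0 < D.κ (i + 1) := by linarith [hD.one_le_κ (i + 1)]
  have e1 : ∑ T : D.Cl (i + 1), F T = ∑ v : D.Lb (i + 1), ∑ T : D.Cl (i + 1), (if T.1.1 = v then F T else 0) := by
    rw [Finset.sum_comm]
    refine Finset.sum_congr rfl fun T _ => ?_
    rw [Finset.sum_ite_eq]
    simp
  have e2 : ∑ T' : D.Cl i, G T' = ∑ v : D.Lb (i + 1), ∑ T' : D.Cl i, (if D.par i T'.1.1 = v then G T' else 0) := by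
    rw [Finset.sum_comm]
    refine Finset.sum_congr rfl fun T _ => ?_
    rw [Finset.sum_ite_eq]
    simp
  have e3 : D.κ (i + 1) ^ (k + 2) * (D.κ i / D.κ (i + 1)) ^ (k + 2) = D.κ i ^ (k + 2) := by
    rw [← mul_pow, mul_div_cancel₀ _ hK.ne']
  rw [← Finset.mul_sum, ← Finset.mul_sum, e1, e2]
  calc D.κ (i + 1) ^ (k + 2) * ∑ v : D.Lb (i + 1), ∑ T : D.Cl (i + 1), (if T.1.1 = v then F T else 0)
      ≤ D.κ (i + 1) ^ (k + 2) * ∑ v : D.Lb (i + 1), A * (D.κ i / D.κ (i + 1)) ^ (k + 2) * ∑ T' : D.Cl i, (if D.par i T'.1.1 = v then G T' else 0) :=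
        mul_le_mul_of_nonneg_left (Finset.sum_le_sum fun v _ => h v) (by positivity)
    _ = A * ((D.κ (i + 1) ^ (k + 2) * (D.κ i / D.κ (i + 1)) ^ (k + 2)) * ∑ v : D.Lb (i + 1), ∑ T' : D.Cl i, (if D.par i T'.1.1 = v then G T' else 0)) := by
        rw [← Finset.mul_sum]
        ring
    _ = _ := by rw [e3]

/-- **LEAF L-257-TI-H4: `p:hierarchy`, one step** (field `hier`): sum `ti_hier_cap` over `v` (`Finset.sum_comm`, `Finset.sum_ite_eq`), `κ (i+1)^(k+2) (κ i/κ (i+1))^(k+2) = κ i^(k+2)`. -/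
theorem ti_hier {c : TCls k} (hc : c.Ok) {p : ℝ} (hp : 2 < p) (hW : WtAt k p c.Q c.M) {ε : ℝ} (hε : 0 < ε) : ∃ C : ℝ, 1 ≤ C ∧ ∀ D : TDat c, D.Good → ∀ i, i < c.ℓ →
    ∀ (g : D.Cl i → (ST k →ᵇ ℂ)) (a : D.Cl i → ℝ), D.Adm i g a → ∀ (b' : D.Cl i → ℝ) (b : D.Cl (i + 1) → ℝ), (∀ T', 0 ≤ b' T') → (∀ T', a T' ≠ 0 → 0 < b' T') → (∀ T, 0 ≤ b T) →
    (∀ T, ∑ T' : D.Cl i, b' T' ^ 2 * D.edge c.Q i T'.1 T.1 ≤ b T ^ 2) →
      ∑ T : D.Cl (i + 1), D.κ (i + 1) ^ (k + 2) * D.amp i g T ^ p * b T ^ (2 - p)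
        ≤ C * (D.κ i / D.κ (i + 1)) ^ ε * ∑ T' : D.Cl i, D.κ i ^ (k + 2) * a T' ^ p * b' T' ^ (2 - p) := by
  obtain ⟨C, hC, hcap⟩ := ti_hier_cap hc hp hW hε
  refine ⟨C, hC, ?_⟩
  intro D hD i hi g a h b' b hb' hab hb hdom
  have := ti_sum_caps D hD i (fun T => D.amp i g T ^ p * b T ^ (2 - p)) (fun T' => a T' ^ p * b' T' ^ (2 - p)) (A := C * (D.κ i / D.κ (i + 1)) ^ ε)
    (fun v => hcap D hD i hi g a h b' b hb' hab hb hdom v)
  simpa only [mul_assoc] using this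

/-- **LEAF L-257-TI-H5: the `L²` estimate in one parent cap at separated native points** (as `ti_wt_cap`, from `L2At`). -/
theorem ti_l2_pts {c : TCls k} (hc : c.Ok) (h2 : L2At k c.M) : ∃ C : ℝ, 1 ≤ C ∧ ∀ D : TDat c, D.Good → ∀ i, i < c.ℓ →
    ∀ (g : D.Cl i → (ST k →ᵇ ℂ)) (a : D.Cl i → ℝ), D.Adm i g a → ∀ (v : D.Lb (i + 1)) (Yn : Finset (ST k)), USep Yn →
      ∑ X ∈ Yn, ‖D.pre i g v (natI (D.κ (i + 1)) (D.fr (i + 1) v) X)‖ ^ 2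
        ≤ C * (D.κ i / D.κ (i + 1)) ^ (k + 2) * ∑ T' : D.Cl i, if D.par i T'.1.1 = v then a T' ^ 2 else 0 := by
  obtain ⟨C, hC, h⟩ := h2 (c.ρ c.ℓ) c.Cc c.Cm
  refine ⟨C, hC, ?_⟩
  intro D hD i hi g a hAdm v Yn hY
  have hK : 0 < D.κ (i + 1) := lt_of_lt_of_le one_pos (hD.one_le_κ _)
  have hN : 1 ≤ D.κ i / D.κ (i + 1) := by
    rw [le_div_iff₀ hK, one_mul]
    exact hD.κ_anti i
  have key := h (D.κ i / D.κ (i + 1)) hN (D.Lb i) (fun v' => D.κ (i + 1) • (D.fr i v' - D.fr (i + 1) v)) (ti_h1_mult D hD i v)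
    ((D.W i).filter fun T => D.par i T.1 = v) (fun T => if h : T ∈ D.W i then a ⟨T, h⟩ else 0)
    (fun T X => if h : T ∈ D.W i then (car (D.fr (i + 1) v) (natI (D.κ (i + 1)) (D.fr (i + 1) v) X))⁻¹ * g ⟨T, h⟩ (natI (D.κ (i + 1)) (D.fr (i + 1) v) X) else 0)
    (fun T hT => by
      have := ti_h1_bdd D hD i T.1
      rw [(Finset.mem_filter.1 hT).2] at this
      exact this)
    (fun T hT => ti_h1_pk hc D hD i hi g a hAdm v T (Finset.mem_filter.1 hT).1)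
    Yn hY
  refine le_trans (le_of_eq ?_) (key.trans (le_of_eq ?_))
  · refine Finset.sum_congr rfl fun X _ => ?_
    rw [ti_h1_fld]
  · rw [ti_h1_sum]
    congr 1
    refine Finset.sum_congr rfl fun T' _ => ?_
    rw [dif_pos T'.2]

/-- **LEAF L-257-TI-H6: integrated `L²` orthogonality, one step** (field `l2`).
PLAN: `TDat.amp_near`: `amp_T² ≤ 4 Cχ² ‖pre z_T‖² (1 + d_T z_T)^(-2 C0)`; `ti_sup_pts` with `Φ X = ‖pre (natI X)‖²`, `E = 2 C0 > k + 1`; `ti_l2_pts`; sum over `v`. -/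
theorem ti_l2 {c : TCls k} (hc : c.Ok) (h2 : L2At k c.M) : ∃ C : ℝ, 1 ≤ C ∧ ∀ D : TDat c, D.Good → ∀ i, i < c.ℓ →
    ∀ (g : D.Cl i → (ST k →ᵇ ℂ)) (a : D.Cl i → ℝ), D.Adm i g a →
      ∑ T : D.Cl (i + 1), D.κ (i + 1) ^ (k + 2) * D.amp i g T ^ 2 ≤ C * ∑ T' : D.Cl i, D.κ i ^ (k + 2) * a T' ^ 2 := by
  have hk0 : (0 : ℝ) ≤ k := Nat.cast_nonneg k
  have hQ : 0 ≤ c.Q := by linarith [hc.P_gt, hc.P_lt]
  have hχ : 0 ≤ c.Cχ := by linarith [hc.one_le_Cχ]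
  have hE : (k : ℝ) + 1 < 2 * c.C0 := by linarith [hc.C0_ge]
  obtain ⟨Cs, hCs1, hCs⟩ := ti_sup_pts (k := k) hE
  obtain ⟨Cw, hCw1, hpts⟩ := ti_l2_pts hc h2
  have hC₁ : 1 ≤ (2 * c.Cχ) ^ 2 := one_le_pow₀ (by linarith [hc.one_le_Cχ])
  refine ⟨(2 * c.Cχ) ^ 2 * Cs * Cw, one_le_mul_of_one_le_of_one_le (one_le_mul_of_one_le_of_one_le hC₁ hCs1) hCw1, ?_⟩
  intro D hD i hi g a h
  have hK : 0 < D.κ (i + 1) := by linarith [hD.one_le_κ (i + 1)]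
  refine ti_sum_caps D hD i (fun T => D.amp i g T ^ 2) (fun T' => a T' ^ 2) fun v => ?_
  obtain ⟨Y, hY, hsum⟩ := ti_cap_pts D hCs (i + 1) v (fun T => D.amp i g T ^ 2) (fun X => ‖D.pre i g v (natI (D.κ (i + 1)) (D.fr (i + 1) v) X)‖ ^ 2)
    (fun X => sq_nonneg _) (by linarith : (0 : ℝ) ≤ (2 * c.Cχ) ^ 2) (by
    intro T hT
    obtain ⟨z, hz⟩ := D.amp_near hχ i g T
    refine ⟨natX (D.κ (i + 1)) (D.fr (i + 1) v) z, ?_⟩
    beta_reduce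
    rw [natI_natX hK.ne']
    rw [hT] at hz
    have e : D.wA c.C0 (i + 1) T.1 z ^ 2 = (1 + ‖natX (D.κ (i + 1)) (D.fr (i + 1) v) z - lat T.1.2‖) ^ (-(2 * c.C0)) := by
      unfold TDat.wA TDat.X
      rw [hT, ← Real.rpow_natCast, ← Real.rpow_mul (by positivity)]
      congr 1
      push_cast
      ring
    calc D.amp i g T ^ 2 ≤ (2 * c.Cχ * (‖D.pre i g v z‖ * D.wA c.C0 (i + 1) T.1 z)) ^ 2 := pow_le_pow_left₀ (D.amp_nonneg hχ i g T) hz 2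
      _ = (2 * c.Cχ) ^ 2 * ‖D.pre i g v z‖ ^ 2 * D.wA c.C0 (i + 1) T.1 z ^ 2 := by ring
      _ = _ := by rw [e])
  refine hsum.trans ?_
  have h3 := hpts D hD i hi g a h v Y hY
  calc (2 * c.Cχ) ^ 2 * Cs * ∑ X ∈ Y, ‖D.pre i g v (natI (D.κ (i + 1)) (D.fr (i + 1) v) X)‖ ^ 2
      ≤ (2 * c.Cχ) ^ 2 * Cs * (Cw * (D.κ i / D.κ (i + 1)) ^ (k + 2) * ∑ T' : D.Cl i, if D.par i T'.1.1 = v then a T' ^ 2 else 0) :=
        mul_le_mul_of_nonneg_left h3 (by positivity)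
    _ = _ := by ring

end

end Claimed.Agent.R257.Tree
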