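import Claimed.Agent.R257.Tree.Defs
import Claimed.Agent.R257.Pk.Loc

/-!
# ROW 257, unit INST: EXISTENCE OF THE CLASS PARAMETERS      (helper291, on request of helper155)

`ti_cls_exists` : for all orders `k + 2 < P < Q`, `Q + k + 2 < M`, `Q + k + 2 ≤ C0`, `Q + 2 (k+2)² ≤ M, C0` (room), constants `Cc, Cm ≥ 1`, `ρ0 ≥ 0` and heights `tr ≤ ℓ` there is a class `c : TCls k` with these fields and `c.Ok`.
The localiser is the lattice partition of unity `pk_loc` (`R257/Pk/Loc.lean`, helper12); the Fourier radii are defined by the recursion `ρ_step` (with equality), `ρχ = 1`.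
-/

set_option autoImplicit false

namespace Claimed.Agent.R257.Tree

open Claimed.Agent.R257
open scoped BoundedContinuousFunction

noncomputable section

variable {k : ℕ}

/-- the Fourier radii: `ρ 0 = ρ0`, `ρ (i+1) = (1 + 2Cc) ρ i + Cc + Cc² + 1` -/
def svcRho (Cc ρ0 : ℝ) : ℕ → ℝ
  | 0 => ρ0
  | i + 1 => (1 + 2 * Cc) * svcRho Cc ρ0 i + Cc + Cc ^ 2 + 1

theorem ti_svcRho_nonneg {Cc ρ0 : ℝ} (hCc : 0 ≤ Cc) (hρ0 : 0 ≤ ρ0) : ∀ i, 0 ≤ svcRho Cc ρ0 i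
  | 0 => hρ0
  | i + 1 => by
    have := ti_svcRho_nonneg hCc hρ0 i
    unfold svcRho
    positivity

theorem ti_cls_exists (hk : 1 ≤ k) (ℓ tr : ℕ) (htr : tr ≤ ℓ) (P Q M C0 Cc Cm ρ0 : ℝ) (hP : (k : ℝ) + 2 < P) (hPQ : P < Q) (hM : Q + k + 2 < M)
    (hC0 : Q + k + 2 ≤ C0) (hCc : 1 ≤ Cc) (hCm : 1 ≤ Cm) (hρ0 : 0 ≤ ρ0) (hrM : Q + 2 * ((k : ℝ) + 2) ^ 2 ≤ M) (hrC : Q + 2 * ((k : ℝ) + 2) ^ 2 ≤ C0) :
    ∃ c : TCls k, c.ℓ = ℓ ∧ c.tr = tr ∧ c.P = P ∧ c.Q = Q ∧ c.M = M ∧ c.C0 = C0 ∧ c.Cc = Cc ∧ c.Cm = Cm ∧ c.ρ = svcRho Cc ρ0 ∧ c.ρχ = 1 ∧ c.Ok := by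
  obtain ⟨χ, hfs, hdec, hpou⟩ := pk_loc k
  obtain ⟨C, hC, hχ⟩ := hdec (M + C0)
  obtain ⟨B, hB⟩ := hfs.bdd
  let χb : ST k →ᵇ ℂ := BoundedContinuousFunction.ofNormedAddCommGroup χ hfs.continuous B hB
  refine ⟨⟨ℓ, tr, P, Q, M, C0, svcRho Cc ρ0, χb, 1, max 1 C, Cc, Cm⟩, rfl, rfl, rfl, rfl, rfl, rfl, rfl, rfl, rfl, rfl, ?_⟩
  refine ⟨hk, htr, hP, hPQ, hM, hC0, ti_svcRho_nonneg (by linarith) hρ0, zero_le_one, le_max_left _ _, hCc, hCm, hfs, fun X => ?_, hpou, fun i => ?_, hrM, hrC⟩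
  · exact (hχ X).trans (mul_le_mul_of_nonneg_right (le_max_right _ _) (Real.rpow_nonneg (by positivity) _))
  · show (1 + 2 * Cc) * svcRho Cc ρ0 i + Cc + Cc ^ 2 + 1 ≤ svcRho Cc ρ0 (i + 1)
    rw [svcRho]

/-- Stores the on-demand equation lemmas of `svcRho` in THIS module (rule 6 hygiene). -/
theorem ti_svc_forced : True := by
  have := @svcRho.eq_1
  have := @svcRho.eq_2
  trivial

end

end Claimed.Agent.R257.Tree
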