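import Claimed.Agent.R257.Tree.AngD

/-!
# ROW 257, unit ANG-INST, file 2: GEOMETRY OF THE ANGULAR INSTANCE (ancestors, strips, macro weights)      (helper37)

PROVED, no sorry.   Paper: H `frame.tex` l.1041-1044, l.1088-1104.
* `TDat.upL_self`, `TDat.upL_par`, `tia_up_near`     the assigned ancestors
* `tia_natX_exp`, `tia_mpos_edge`, `tia_mpos_peetre` "all the affected widths and durations are below the macro scale": the macro position of `z_{T'}` and of `z` differ by at most the native distance `d_{T'}(z)`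
* `tia_psi_pos`, `tia_psi_edge`, `tia_psi_ge`, `tia_psi_sum`     (PSI)
* `tia_sin_up`, `tia_sin_anc`     plate support is inherited upwards; the true strips are contained in the enlarged strips of the ancestors
-/

set_option autoImplicit false

namespace Claimed.Agent.R257.Tree

open Claimed.Agent.R257 Claimed.Agent.R257.FR2
open scoped BigOperators Classical BoundedContinuousFunction InnerProductSpace

noncomputable section

variable {k : ℕ} {c : TCls k}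


namespace TDat

variable (D : TDat c)

theorem upL_self (n : ℕ) (v₀ v : D.Lb n) : D.upL n v₀ n v = v := by
  unfold upL
  rw [dif_pos le_rfl]
  exact Nat.leRecOn_self v

theorem upL_par (n : ℕ) (v₀ : D.Lb n) {i : ℕ} (hi : i < n) (v : D.Lb i) : D.upL n v₀ (i + 1) (D.par i v) = D.upL n v₀ i v := by
  unfold upL
  rw [dif_pos hi.le, dif_pos (Nat.succ_le_of_lt hi)]
  exact Nat.leRecOn_succ_left (C := D.Lb) (next := fun {m} x => D.par m x) v hi.le (Nat.succ_le_of_lt hi)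

end TDat

/-- a label is close to its ancestor -/
theorem tia_up_near (hc : c.Ok) (D : TDat c) (hD : D.Good) (n : ℕ) (v₀ : D.Lb n) : ∀ (d i : ℕ), i + d = n → ∀ v : D.Lb i,
    ‖D.fr i v - D.fr n (D.upL n v₀ i v)‖ ≤ d * c.Cc / D.κ n := by
  intro d
  induction d with
  | zero =>
    intro i hi v
    obtain rfl : i = n := by omega
    rw [TDat.upL_self]
    simp
  | succ d ih =>
    intro i hi v
    have hin : i < n := by omega
    have h1 := ih (i + 1) (by omega) (D.par i v)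
    rw [TDat.upL_par D n v₀ hin] at h1
    have h2 := hD.par_near i v
    have hκn := D.κ_pos hD n
    have hκ1 := D.κ_pos hD (i + 1)
    have hCc : 0 ≤ c.Cc := by linarith [hc.one_le_Cc]
    have h3 : c.Cc / D.κ (i + 1) ≤ c.Cc / D.κ n := div_le_div_of_nonneg_left hCc hκn (D.κ_le hD (by omega))
    have h4 : ‖D.fr i v - D.fr n (D.upL n v₀ i v)‖ ≤ ‖D.fr i v - D.fr (i + 1) (D.par i v)‖ + ‖D.fr (i + 1) (D.par i v) - D.fr n (D.upL n v₀ i v)‖ := by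
      have := norm_add_le (D.fr i v - D.fr (i + 1) (D.par i v)) (D.fr (i + 1) (D.par i v) - D.fr n (D.upL n v₀ i v))
      rwa [sub_add_sub_cancel] at this
    calc _ ≤ _ := h4
      _ ≤ c.Cc / D.κ n + d * c.Cc / D.κ n := add_le_add (h2.trans h3) h1
      _ = _ := by push_cast; ring

/-- child coordinates → coordinates of a coarser cap: expansion by at most `ρ² (1 + 2 m)`, `ρ = 1/N ≥ 1`, `‖u‖ ≤ ρ m` -/
theorem tia_natX_exp {N m : ℝ} (hN0 : 0 < N) (hN : N ≤ 1) (hm : 0 ≤ m) {u : E k} (hu : ‖u‖ ≤ N⁻¹ * m) (X : ST k) :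
    ‖natX N u X‖ ≤ (1 + 2 * m) * N⁻¹ ^ 2 * ‖X‖ := by
  have a1 : ‖X.1‖ ≤ ‖X‖ := norm_fst_le X
  have a2 : |X.2| ≤ ‖X‖ := by rw [← Real.norm_eq_abs]; exact norm_snd_le X
  have hX := norm_nonneg X
  have hNi : 1 ≤ N⁻¹ := (one_le_inv₀ hN0).2 hN
  have hNi0 : 0 ≤ N⁻¹ := by linarith
  unfold natX
  rw [Prod.norm_def]
  refine max_le ?_ ?_
  · rw [norm_smul, Real.norm_eq_abs, abs_of_pos (inv_pos.2 hN0)]
    have h1 : ‖X.1 - (2 * X.2) • u‖ ≤ ‖X‖ + 2 * ‖X‖ * (N⁻¹ * m) := by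
      refine (norm_sub_le _ _).trans ?_
      rw [norm_smul, Real.norm_eq_abs, abs_mul, abs_two]
      gcongr
    calc N⁻¹ * ‖X.1 - (2 * X.2) • u‖ ≤ N⁻¹ * (‖X‖ + 2 * ‖X‖ * (N⁻¹ * m)) := mul_le_mul_of_nonneg_left h1 hNi0
      _ = (N⁻¹ + 2 * m * N⁻¹ ^ 2) * ‖X‖ := by ring
      _ ≤ (1 + 2 * m) * N⁻¹ ^ 2 * ‖X‖ := by
          refine mul_le_mul_of_nonneg_right ?_ hX
          nlinarith
  · rw [Real.norm_eq_abs, abs_div, abs_of_pos (by positivity : 0 < N ^ 2), div_eq_mul_inv, ← inv_pow]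
    have h2 : 0 ≤ N⁻¹ ^ 2 := by positivity
    calc |X.2| * N⁻¹ ^ 2 ≤ ‖X‖ * N⁻¹ ^ 2 := mul_le_mul_of_nonneg_right a2 h2
      _ ≤ (1 + 2 * m) * N⁻¹ ^ 2 * ‖X‖ := by nlinarith [mul_nonneg (mul_nonneg hm h2) hX]

/-- **all the affected widths are below the macro scale**: the macro position moves by at most the native distance of the child -/
theorem tia_mpos_edge (hc : c.Ok) (D : TDat c) (hD : D.Good) (I : TAIn D) (hI : I.Ok) (i : ℕ) (h1 : I.bot ≤ i) (h2 : i ≤ I.lam) (T' : D.Lb i × Lat k)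
    (B : D.Lb I.lam × Lat k) (hB : D.upL I.lam I.v₀ i T'.1 = B.1) (z : ST k) :
    ‖D.mpos I.lam I.Sd B (D.ctr i T') - D.mpos I.lam I.Sd B z‖ ≤ ‖D.X i T' z‖ := by
  have hκi := D.κ_pos hD i
  have hκl := D.κ_pos hD I.lam
  have hκb := D.κ_pos hD I.bot
  have hCc : 0 ≤ c.Cc := by linarith [hc.one_le_Cc]
  have hℓ : (0 : ℝ) ≤ c.ℓ := Nat.cast_nonneg _
  have hm : 0 ≤ (c.ℓ : ℝ) * c.Cc := mul_nonneg hℓ hCc
  have hρ1 : 1 ≤ D.κ I.bot / D.κ I.lam := D.one_le_ratio hD hI.bot_le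
  have hSd : 0 < I.Sd := by
    have := hI.Sd_ge
    have h3 : 0 < (1 + 2 * c.ℓ * c.Cc) * (D.κ I.bot / D.κ I.lam) ^ 2 := by positivity
    linarith
  have e1 : D.mpos I.lam I.Sd B (D.ctr i T') - D.mpos I.lam I.Sd B z = -(I.Sd⁻¹ • natX (D.κ I.lam) (D.fr I.lam B.1) (z - D.ctr i T')) := by
    unfold TDat.mpos
    rw [natX_sub, smul_sub]
    abel
  rw [e1, norm_neg, norm_smul, Real.norm_eq_abs, abs_of_pos (inv_pos.2 hSd), ← natX_resc hκi.ne' (D.fr I.lam B.1) (D.fr i T'.1), tg_X_ctr hD]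
  have hN0 : 0 < D.κ I.lam / D.κ i := div_pos hκl hκi
  have hN1 : D.κ I.lam / D.κ i ≤ 1 := (div_le_one hκi).2 (D.κ_le hD h2)
  have einv : (D.κ I.lam / D.κ i)⁻¹ = D.κ i / D.κ I.lam := inv_div _ _
  have hu : ‖D.κ i • (D.fr I.lam B.1 - D.fr i T'.1)‖ ≤ (D.κ I.lam / D.κ i)⁻¹ * (c.ℓ * c.Cc) := by
    obtain ⟨d, hd⟩ : ∃ d, i + d = I.lam := ⟨I.lam - i, by omega⟩
    have h3 := tia_up_near hc D hD I.lam I.v₀ d i hd T'.1
    rw [hB, norm_sub_rev] at h3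
    have hdl : (d : ℝ) ≤ c.ℓ := by
      have := hI.lam_le
      exact_mod_cast (by omega : d ≤ c.ℓ)
    rw [norm_smul, Real.norm_eq_abs, abs_of_pos hκi, einv]
    calc D.κ i * ‖D.fr I.lam B.1 - D.fr i T'.1‖ ≤ D.κ i * (d * c.Cc / D.κ I.lam) := mul_le_mul_of_nonneg_left h3 hκi.le
      _ ≤ D.κ i * (c.ℓ * c.Cc / D.κ I.lam) := by gcongr
      _ = _ := by ring
  have h4 := tia_natX_exp hN0 hN1 hm hu (D.X i T' z)
  rw [einv] at h4
  have hX := norm_nonneg (D.X i T' z)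
  have h5 : D.κ i / D.κ I.lam ≤ D.κ I.bot / D.κ I.lam := div_le_div_of_nonneg_right (D.κ_le hD h1) hκl.le
  have h6 : (D.κ i / D.κ I.lam) ^ 2 ≤ (D.κ I.bot / D.κ I.lam) ^ 2 := pow_le_pow_left₀ (div_pos hκi hκl).le h5 2
  have h7 : (1 + 2 * (c.ℓ * c.Cc)) * (D.κ i / D.κ I.lam) ^ 2 ≤ I.Sd := by
    refine le_trans ?_ hI.Sd_ge
    have : (1 + 2 * (c.ℓ * c.Cc)) = (1 + 2 * c.ℓ * c.Cc) := by ring
    rw [this]
    exact mul_le_mul_of_nonneg_left h6 (by positivity)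
  calc I.Sd⁻¹ * _ ≤ I.Sd⁻¹ * ((1 + 2 * (c.ℓ * c.Cc)) * (D.κ i / D.κ I.lam) ^ 2 * ‖D.X i T' z‖) := mul_le_mul_of_nonneg_left h4 (inv_pos.2 hSd).le
    _ ≤ I.Sd⁻¹ * (I.Sd * ‖D.X i T' z‖) := by gcongr
    _ = _ := by field_simp

/-- Peetre for the macro position -/
theorem tia_mpos_peetre (hc : c.Ok) (D : TDat c) (hD : D.Good) (I : TAIn D) (hI : I.Ok) (i : ℕ) (h1 : I.bot ≤ i) (h2 : i ≤ I.lam) (T' : D.Lb i × Lat k)
    (B : D.Lb I.lam × Lat k) (hB : D.upL I.lam I.v₀ i T'.1 = B.1) (z : ST k) :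
    1 + ‖D.mpos I.lam I.Sd B (D.ctr i T')‖ ≤ (1 + ‖D.mpos I.lam I.Sd B z‖) * (1 + ‖D.X i T' z‖) := by
  have h3 := tia_mpos_edge hc D hD I hI i h1 h2 T' B hB z
  have h4 : ‖D.mpos I.lam I.Sd B (D.ctr i T')‖ ≤ ‖D.mpos I.lam I.Sd B (D.ctr i T') - D.mpos I.lam I.Sd B z‖ + ‖D.mpos I.lam I.Sd B z‖ := by
    have := norm_add_le (D.mpos I.lam I.Sd B (D.ctr i T') - D.mpos I.lam I.Sd B z) (D.mpos I.lam I.Sd B z)
    rwa [sub_add_cancel] at this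
  have h5 := norm_nonneg (D.mpos I.lam I.Sd B z)
  have h6 := norm_nonneg (D.X i T' z)
  nlinarith [mul_nonneg h5 h6]

theorem tia_psi_pos (D : TDat c) (I : TAIn D) (B : D.Lb I.lam × Lat k) (i : ℕ) (T : D.Lb i × Lat k) : 0 < D.psi I B i T := by
  unfold TDat.psi
  split_ifs
  · have : (0 : ℝ) < (k : ℝ) + 2 := by positivity
    exact mul_pos (Real.rpow_pos_of_pos this _) (Real.rpow_pos_of_pos (by positivity) _)
  · positivity

/-- (PSI), edge comparability -/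
theorem tia_psi_edge (hc : c.Ok) (D : TDat c) (hD : D.Good) (I : TAIn D) (hI : I.Ok) {pp : ℝ} (hpp : qk k ≤ pp) (B : D.Lb I.lam × Lat k) (i : ℕ)
    (h1 : I.bot ≤ i) (h2 : i < I.lam) (T' : D.Lb i × Lat k) (T : D.Lb (i + 1) × Lat k) :
    D.psi I B (i + 1) T ^ (2 / (pp - 2)) * D.edge I.Q2 i T' T ≤ D.psi I B i T' ^ (2 / (pp - 2)) * D.edge c.Q i T' T := by
  have hk : (0 : ℝ) < k := by exact_mod_cast hc.k_pos
  have hE0 : 0 < I.Ew := by linarith [hI.Ew_gt]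
  have hQQ : c.Q ≤ I.Q2 := by
    have := hI.Q2_ge
    have : 0 ≤ I.Ew * k / 2 := by positivity
    linarith
  by_cases hp : D.par i T'.1 = T.1
  swap
  · unfold TDat.edge
    rw [if_neg hp, if_neg hp]
    simp
  have hup : D.upL I.lam I.v₀ (i + 1) T.1 = D.upL I.lam I.v₀ i T'.1 := by rw [← hp]; exact D.upL_par I.lam I.v₀ h2 T'.1
  by_cases hB : D.upL I.lam I.v₀ i T'.1 = B.1
  swap
  · unfold TDat.psi
    rw [if_neg hB, if_neg (by rw [hup]; exact hB)]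
    exact mul_le_mul_of_nonneg_left (D.edge_anti hQQ i T' T) (Real.rpow_nonneg (by positivity) _)
  have hq2 : qk k - 2 = 4 / k := by
    unfold qk
    field_simp
    ring
  have hpp2 : 0 < pp - 2 := by
    have : 0 < qk k - 2 := by rw [hq2]; positivity
    linarith
  obtain ⟨x, hx⟩ : ∃ x, x = 2 / (pp - 2) := ⟨_, rfl⟩
  have hx0 : 0 < x := by rw [hx]; positivity
  have hxk : x ≤ k / 2 := by
    rw [hx, div_le_div_iff₀ hpp2 (by norm_num)]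
    have : 4 / (k : ℝ) ≤ pp - 2 := by rw [← hq2]; linarith
    rw [div_le_iff₀ hk] at this
    linarith
  have hEx : I.Ew * x + c.Q ≤ I.Q2 := by
    have := hI.Q2_ge
    have h3 : I.Ew * x ≤ I.Ew * (k / 2) := mul_le_mul_of_nonneg_left hxk hE0.le
    linarith
  rw [← hx]
  unfold TDat.psi TDat.edge TDat.wA
  rw [if_pos hB, if_pos (by rw [hup]; exact hB), if_pos hp, if_pos hp]
  obtain ⟨a, ha⟩ : ∃ a, a = 1 + ‖D.mpos I.lam I.Sd B (D.ctr (i + 1) T)‖ := ⟨_, rfl⟩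
  obtain ⟨a', ha'⟩ : ∃ a', a' = 1 + ‖D.mpos I.lam I.Sd B (D.ctr i T')‖ := ⟨_, rfl⟩
  obtain ⟨δ, hδ⟩ : ∃ δ, δ = 1 + ‖D.X i T' (D.ctr (i + 1) T)‖ := ⟨_, rfl⟩
  have hP := tia_mpos_peetre hc D hD I hI i h1 h2.le T' B hB (D.ctr (i + 1) T)
  rw [← ha, ← ha', ← hδ] at hP ⊢
  have ha0 : 0 < a := by rw [ha]; positivity
  have ha'0 : 0 < a' := by rw [ha']; positivity
  have hδ1 : 1 ≤ δ := by rw [hδ]; linarith [norm_nonneg (D.X i T' (D.ctr (i + 1) T))]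
  have hδ0 : 0 < δ := by linarith
  obtain ⟨K, hK⟩ : ∃ K, K = ((k : ℝ) + 2) ^ I.Ew := ⟨_, rfl⟩
  have hK0 : 0 < K := by rw [hK]; exact Real.rpow_pos_of_pos (by positivity) _
  rw [← hK, Real.mul_rpow hK0.le (Real.rpow_nonneg ha0.le _), Real.mul_rpow hK0.le (Real.rpow_nonneg ha'0.le _),
    ← Real.rpow_mul ha0.le, ← Real.rpow_mul ha'0.le]
  have h3 : (a * δ) ^ (-I.Ew * x) ≤ a' ^ (-I.Ew * x) :=
    Real.rpow_le_rpow_of_nonpos ha'0 hP (by nlinarith)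
  rw [Real.mul_rpow ha0.le hδ0.le] at h3
  have h4 : δ ^ (-I.Q2) ≤ δ ^ (-I.Ew * x) * δ ^ (-c.Q) := by
    rw [← Real.rpow_add hδ0]
    exact Real.rpow_le_rpow_of_exponent_le hδ1 (by linarith)
  have hKx : 0 ≤ K ^ x := Real.rpow_nonneg hK0.le _
  have hax : 0 ≤ a ^ (-I.Ew * x) := Real.rpow_nonneg ha0.le _
  have hδQ : 0 ≤ δ ^ (-c.Q) := Real.rpow_nonneg hδ0.le _
  calc K ^ x * a ^ (-I.Ew * x) * δ ^ (-I.Q2) ≤ K ^ x * a ^ (-I.Ew * x) * (δ ^ (-I.Ew * x) * δ ^ (-c.Q)) :=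
        mul_le_mul_of_nonneg_left h4 (mul_nonneg hKx hax)
    _ = K ^ x * (a ^ (-I.Ew * x) * δ ^ (-I.Ew * x)) * δ ^ (-c.Q) := by ring
    _ ≤ K ^ x * a' ^ (-I.Ew * x) * δ ^ (-c.Q) := by gcongr

/-- (PSI): the weight of the own macro box -/
theorem tia_psi_ge (D : TDat c) (hD : D.Good) (I : TAIn D) (hE : 0 ≤ I.Ew) (T : D.Cl I.lam) : 1 ≤ D.psi I (D.bx0 I.lam I.Sd T) I.lam T.1 := by
  have hκ := D.κ_pos hD I.lam
  unfold TDat.psi
  rw [if_pos (by rw [TDat.upL_self]; rfl)]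
  have e : D.mpos I.lam I.Sd (D.bx0 I.lam I.Sd T) (D.ctr I.lam T.1) = I.Sd⁻¹ • lat T.1.2 - lat (flo (I.Sd⁻¹ • lat T.1.2)) := by
    unfold TDat.mpos TDat.bx0 TDat.ctr
    rw [natX_natI hκ.ne']
  rw [e]
  have h1 := ti_flo_near (I.Sd⁻¹ • lat T.1.2)
  have h0 := norm_nonneg (I.Sd⁻¹ • lat T.1.2 - lat (flo (I.Sd⁻¹ • lat T.1.2)))
  have hk2 : (0 : ℝ) < (k : ℝ) + 2 := by positivity
  have h2 : ((k : ℝ) + 2) ^ (-I.Ew) ≤ (1 + ‖I.Sd⁻¹ • lat T.1.2 - lat (flo (I.Sd⁻¹ • lat T.1.2))‖) ^ (-I.Ew) :=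
    Real.rpow_le_rpow_of_nonpos (by positivity) (by linarith) (by linarith)
  calc (1 : ℝ) = ((k : ℝ) + 2) ^ I.Ew * ((k : ℝ) + 2) ^ (-I.Ew) := by rw [← Real.rpow_add hk2]; simp
    _ ≤ _ := mul_le_mul_of_nonneg_left h2 (Real.rpow_nonneg hk2.le _)

/-- (PSI): the sum over the macro boxes -/
theorem tia_psi_sum {Ew : ℝ} (hE : (k : ℝ) + 1 < Ew) : ∃ C : ℝ, 1 ≤ C ∧ ∀ (c : TCls k) (D : TDat c) (I : TAIn D), I.Ew = Ew → ∀ (i : ℕ) (T : D.Lb i × Lat k),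
    ∑ B : D.BBt I.lam I.Sd, D.psi I B.1 i T ≤ C := by
  obtain ⟨C, hC, H⟩ := ti_lat_sum (k := k) hE
  have hk2 : (0 : ℝ) < (k : ℝ) + 2 := by positivity
  have hK1 : 1 ≤ ((k : ℝ) + 2) ^ Ew := Real.one_le_rpow (by linarith) (by linarith)
  refine ⟨((k : ℝ) + 2) ^ Ew * C + 1, by nlinarith, fun c D I hI i T => ?_⟩
  obtain ⟨v, hv⟩ : ∃ v, v = D.upL I.lam I.v₀ i T.1 := ⟨_, rfl⟩
  obtain ⟨X₀, hX₀⟩ : ∃ X₀, X₀ = I.Sd⁻¹ • natX (D.κ I.lam) (D.fr I.lam v) (D.ctr i T) := ⟨_, rfl⟩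
  obtain ⟨ε₀, hε₀⟩ : ∃ ε₀ : ℝ, ε₀ = 1 / ((Fintype.card (D.BBt I.lam I.Sd) : ℝ) + 1) := ⟨_, rfl⟩
  have hε0 : 0 ≤ ε₀ := by rw [hε₀]; positivity
  have hle : ∀ B : D.BBt I.lam I.Sd, D.psi I B.1 i T ≤ (if v = B.1.1 then ((k : ℝ) + 2) ^ Ew * (1 + ‖X₀ - lat B.1.2‖) ^ (-Ew) else 0) + ε₀ := by
    intro B
    unfold TDat.psi
    rw [← hv, ← hε₀, hI]
    by_cases hB : v = B.1.1
    · rw [if_pos hB, if_pos hB]
      have : D.mpos I.lam I.Sd B.1 (D.ctr i T) = X₀ - lat B.1.2 := by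
        unfold TDat.mpos
        rw [hX₀, hB]
      rw [this]
      linarith
    · rw [if_neg hB, if_neg hB]
      linarith
  refine (Finset.sum_le_sum fun B _ => hle B).trans ?_
  rw [Finset.sum_add_distrib]
  refine add_le_add ?_ ?_
  · rw [← Finset.sum_filter]
    have hinj : Set.InjOn (fun B : D.BBt I.lam I.Sd => B.1.2) (Finset.univ.filter fun B : D.BBt I.lam I.Sd => v = B.1.1) := by
      intro B hB B' hB' e
      have h1 : v = B.1.1 := (Finset.mem_filter.1 hB).2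
      have h2 : v = B'.1.1 := (Finset.mem_filter.1 hB').2
      exact Subtype.ext (Prod.ext (h1.symm.trans h2) e)
    have e := Finset.sum_image (f := fun m : Lat k => ((k : ℝ) + 2) ^ Ew * (1 + ‖X₀ - lat m‖) ^ (-Ew)) hinj
    rw [← e, ← Finset.mul_sum]
    exact mul_le_mul_of_nonneg_left (H _ X₀) (by linarith)
  · rw [Finset.sum_const, Finset.card_univ, nsmul_eq_mul, hε₀]
    rw [mul_one_div, div_le_one (by positivity)]
    linarith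

/-- plate support is inherited upwards -/
theorem tia_sin_up (hc : c.Ok) (D : TDat c) (hD : D.Good) {Cs : ℝ} (hCs : 0 ≤ Cs) {bot lam : ℕ} (σ : TStr k bot lam) (i : ℕ) (v : D.Lb i) (h : D.sinS Cs i σ v) :
    D.sinS Cs (i + 1) σ (D.par i v) := by
  unfold TDat.sinS at h ⊢
  have hκ := D.κ_pos hD i
  have hκ1 := D.κ_pos hD (i + 1)
  have hCc : 0 ≤ c.Cc := by linarith [hc.one_le_Cc]
  have h1 : |⟪D.fr (i + 1) (D.par i v) - D.fr i v, σ.n⟫_ℝ| ≤ c.Cc / D.κ (i + 1) := by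
    refine (abs_real_inner_le_norm _ _).trans ?_
    rw [σ.nrm, mul_one, norm_sub_rev]
    exact hD.par_near i v
  have h2 : (Cs + i * c.Cc) / D.κ i ≤ (Cs + i * c.Cc) / D.κ (i + 1) :=
    div_le_div_of_nonneg_left (by positivity) hκ1 (hD.κ_anti i)
  have e : ⟪D.fr (i + 1) (D.par i v), σ.n⟫_ℝ - σ.t = (⟪D.fr i v, σ.n⟫_ℝ - σ.t) + ⟪D.fr (i + 1) (D.par i v) - D.fr i v, σ.n⟫_ℝ := by
    rw [inner_sub_left]
    ring
  rw [e]
  calc _ ≤ |⟪D.fr i v, σ.n⟫_ℝ - σ.t| + |⟪D.fr (i + 1) (D.par i v) - D.fr i v, σ.n⟫_ℝ| := abs_add_le _ _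
    _ ≤ (Cs + i * c.Cc) / D.κ (i + 1) + c.Cc / D.κ (i + 1) := add_le_add (h.trans h2) h1
    _ = _ := by push_cast; ring

/-- a leaf direction in the true strip of width `Cs/κ_j` lies in the enlarged strip of its ancestor of height `j` -/
theorem tia_sin_anc (hc : c.Ok) (D : TDat c) (hD : D.Good) {Cs : ℝ} {bot lam : ℕ} (σ : TStr k bot lam) (ω : D.Lb 0) (j : ℕ)
    (h : |⟪D.fr 0 ω, σ.n⟫_ℝ - σ.t| ≤ Cs / D.κ j) : D.sinS Cs j σ (D.anc j ω) := by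
  have key : ∀ i, i ≤ j → |⟪D.fr i (D.anc i ω), σ.n⟫_ℝ - σ.t| ≤ (Cs + i * c.Cc) / D.κ j := by
    intro i
    induction i with
    | zero =>
      intro _
      simpa [TDat.anc] using h
    | succ i ih =>
      intro hi
      have ih' := ih (by omega)
      have hκj := D.κ_pos hD j
      have hCc : 0 ≤ c.Cc := by linarith [hc.one_le_Cc]
      have h1 : |⟪D.fr (i + 1) (D.par i (D.anc i ω)) - D.fr i (D.anc i ω), σ.n⟫_ℝ| ≤ c.Cc / D.κ j := by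
        refine (abs_real_inner_le_norm _ _).trans ?_
        rw [σ.nrm, mul_one, norm_sub_rev]
        exact (hD.par_near i _).trans (div_le_div_of_nonneg_left hCc hκj (D.κ_le hD hi))
      have e : ⟪D.fr (i + 1) (D.anc (i + 1) ω), σ.n⟫_ℝ - σ.t = (⟪D.fr i (D.anc i ω), σ.n⟫_ℝ - σ.t) + ⟪D.fr (i + 1) (D.par i (D.anc i ω)) - D.fr i (D.anc i ω), σ.n⟫_ℝ := by
        rw [inner_sub_left]
        show ⟪D.fr (i + 1) (D.par i (D.anc i ω)), σ.n⟫_ℝ - σ.t = _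
        ring
      rw [e]
      calc _ ≤ |⟪D.fr i (D.anc i ω), σ.n⟫_ℝ - σ.t| + |⟪D.fr (i + 1) (D.par i (D.anc i ω)) - D.fr i (D.anc i ω), σ.n⟫_ℝ| := abs_add_le _ _
        _ ≤ (Cs + i * c.Cc) / D.κ j + c.Cc / D.κ j := add_le_add ih' h1
        _ = _ := by push_cast; ring
  exact key j le_rfl

end

end Claimed.Agent.R257.Tree
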