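import Claimed.Agent.R257.Tree.Ok
import Claimed.Agent.R257.FR2.PathDef
import Claimed.Agent.R257.FR3.Fin

/-!
# ROW 257, unit INST, file 9: DIRECTIONS, CAPS, TILTED CELLS: `TGeo.Ok` AND `FinHyp` FOR THE CONCRETE SYSTEM      (architect helper155; owner of the leaves: helper238)          CONTRACT

`TDat.geo : TGeo D.sys`:  `Dir = Lb 0` (leaf labels), `Cap i = Lb i`, `anc i` = iterated assigned parent, `Cel i = ℤ^{k+1}`, `cel i y ω` = integer part of `natX (κ i) (fr 0 ω) (pt y)` (lattice of height `i` TILTED by the leaf direction `ω`), `wb = wA P ℓ`.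
`ti_geo_ok` (glue, proved here) from the leaves `L-257-TI-T*`.    `ti_fin` : the INST half of `FR3.FinHyp` (leaf T12).
Paper: H `frame.tex` l.855-905 (far paths, eligibility), l.906-960 (tilted cells, multiplicities, leaf background).
GEOMETRY.  `K = κ i`, `v = fr i (anc i ω)`, `w = fr 0 ω`, `‖w - v‖ ≤ ℓ Cc / K` (`ti_anc_near`).   `natX K v z - natX K w z = (-(2 z.2 / K) • (v - w), 0) = (-(2 τ) • (K • (v - w)), 0)`, `τ = z.2 / K²` = the common native time: BOUNDED shear on a time interval of native length `O(1)`.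
-/

set_option autoImplicit false

namespace Claimed.Agent.R257.Tree

open Claimed.Agent.R257 Claimed.Agent.R257.FR2
open scoped BigOperators Classical BoundedContinuousFunction

noncomputable section

variable {k : ℕ} {c : TCls k}

/-- integer part of a native point -/
def flo (X : ST k) : Lat k := (fun j => ⌊X.1 j⌋, ⌊X.2⌋)

namespace TDat

/-- the assigned ancestor of height `i` of a leaf label -/
def anc (D : TDat c) : ∀ i, D.Lb 0 → D.Lb i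
  | 0 => id
  | i + 1 => fun ω => D.par i (anc D i ω)

/-- **directions, caps, tilted cells of the data** -/
def geo (D : TDat c) : TGeo D.sys where
  Dir := D.Lb 0
  fDir := inferInstance
  dir := fun γ : D.Cl 0 => γ.1.1
  Cap := D.Lb
  cap := fun i (T : D.Cl i) => T.1.1
  anc := D.anc
  Cel := fun _ => Lat k
  cel := fun i y ω => flo (natX (D.κ i) (D.fr 0 ω) (D.pt y))
  wb := fun (T : D.Cl c.ℓ) y => D.wA c.P c.ℓ T.1 (D.pt y)

/-- the explicit constants of the geometry -/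
def gp (D : TDat c) (C : ℝ) : GPar where
  Γc := C
  Γw := C
  δ := (1 + D.G c.ℓ / 2) ^ (-(c.Q - c.P))
  ϖb := C * D.ϖ
  m := C * D.G 0 ^ (k + 1)
  Kc := C * D.G 0 ^ (2 * c.Q)

end TDat

/-- the enlargements decrease with the height -/
theorem ti_G_le (hc : c.Ok) (D : TDat c) (hD : D.Good) {i j : ℕ} (hij : i ≤ j) (hj : j ≤ c.ℓ) : D.G j ≤ D.G i := by
  induction j, hij using Nat.le_induction with
  | base => exact le_rfl
  | succ j _ ih =>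
    have h1 := hD.G_step j (by omega)
    have h2 := hD.one_le_G (j + 1) hj
    have h3 := hc.one_le_Cc
    have h4 : D.G (j + 1) ≤ 2 * (1 + 2 * c.Cc) * D.G (j + 1) := by nlinarith
    exact (h4.trans h1).trans (ih (by omega))

/-- **LEAF L-257-TI-T1.**  A point is within `k + 1` of its integer part.   (`0 ≤ x - ⌊x⌋ < 1`; `‖x‖ ≤ ∑ |x j| ≤ k`.) -/
theorem ti_flo_near (X : ST k) : ‖X - lat (flo X)‖ ≤ (k : ℝ) + 1 := by
  have hk : (0 : ℝ) ≤ k := Nat.cast_nonneg k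
  rw [Prod.norm_def]
  refine max_le ?_ ?_
  · have h1 : ‖(X - lat (flo X)).1‖ ^ 2 ≤ ((k : ℝ) + 1) ^ 2 := by
      rw [EuclideanSpace.real_norm_sq_eq]
      calc ∑ j, ((X - lat (flo X)).1 j) ^ 2 ≤ ∑ _j : Fin k, (1 : ℝ) := by
            refine Finset.sum_le_sum fun j _ => ?_
            have e : (X - lat (flo X)).1 j = X.1 j - (⌊X.1 j⌋ : ℝ) := by simp [lat, flo]
            rw [e]
            have a1 := Int.floor_le (X.1 j)
            have a2 := Int.lt_floor_add_one (X.1 j)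
            nlinarith
        _ = k := by simp
        _ ≤ ((k : ℝ) + 1) ^ 2 := by nlinarith
    exact abs_le_of_sq_le_sq' h1 (by linarith) |>.2 |> (le_trans (le_abs_self _) ∘ fun h => by rwa [abs_of_nonneg (norm_nonneg _)])
  · have e : (X - lat (flo X)).2 = X.2 - (⌊X.2⌋ : ℝ) := by simp [lat, flo]
    rw [e, Real.norm_eq_abs, abs_le]
    have a1 := Int.floor_le X.2
    have a2 := Int.lt_floor_add_one X.2
    constructor <;> linarith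

/-- **LEAF L-257-TI-T2.**  A leaf label is close to its ancestors.   PLAN: induction on `i`: `hD.par_near`, `κ (i+1) ≤ κ j`; `i ≤ ℓ`. -/
theorem ti_anc_near (hc : c.Ok) (D : TDat c) (hD : D.Good) (i : ℕ) (hi : i ≤ c.ℓ) (ω : D.Lb 0) : ‖D.fr 0 ω - D.fr i (D.anc i ω)‖ ≤ c.ℓ * c.Cc / D.κ i := by
  have hCc : 0 ≤ c.Cc := by linarith [hc.one_le_Cc]
  have key : ∀ i, ‖D.fr 0 ω - D.fr i (D.anc i ω)‖ ≤ i * c.Cc / D.κ i := by
    intro i
    induction i with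
    | zero => simp [TDat.anc]
    | succ i ih =>
      have hκ := D.κ_pos hD i
      have hκ' := D.κ_pos hD (i + 1)
      have h1 : ‖D.fr 0 ω - D.fr (i + 1) (D.anc (i + 1) ω)‖
          ≤ ‖D.fr 0 ω - D.fr i (D.anc i ω)‖ + ‖D.fr i (D.anc i ω) - D.fr (i + 1) (D.par i (D.anc i ω))‖ := by
        have := norm_add_le (D.fr 0 ω - D.fr i (D.anc i ω)) (D.fr i (D.anc i ω) - D.fr (i + 1) (D.par i (D.anc i ω)))
        rwa [sub_add_sub_cancel] at this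
      have h2 : (i : ℝ) * c.Cc / D.κ i ≤ i * c.Cc / D.κ (i + 1) :=
        div_le_div_of_nonneg_left (by positivity) hκ' (hD.κ_anti i)
      calc _ ≤ _ := h1
        _ ≤ i * c.Cc / D.κ (i + 1) + c.Cc / D.κ (i + 1) := add_le_add (ih.trans h2) (hD.par_near i _)
        _ = ((i + 1 : ℕ) : ℝ) * c.Cc / D.κ (i + 1) := by push_cast; ring
  refine (key i).trans ?_
  have hκ := D.κ_pos hD i
  have : (i : ℝ) ≤ c.ℓ := by exact_mod_cast hi
  exact div_le_div_of_nonneg_right (mul_le_mul_of_nonneg_right this hCc) hκ.le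

/-- **LEAF L-257-TI-T3.**  The bin of an ancestor (induction, `hD.bin_par`). -/
theorem ti_anc_bin (D : TDat c) (hD : D.Good) (i : ℕ) (hi : i ≤ c.tr) (ω : D.Lb 0) : D.bin i (D.anc i ω) = D.bin 0 ω := by
  induction i with
  | zero => rfl
  | succ i ih =>
    show D.bin (i + 1) (D.par i (D.anc i ω)) = D.bin 0 ω
    rw [hD.bin_par i hi, ih (by omega)]

/-- **LEAF L-257-TI-T4: the kernels are bounded.**   `tr ≤ i`: `≤ 1`.   `i < tr`: `≤ ∑_S wA Q tr S z ≤ C_lat` (ONE label by `hD.bin_inj`; `ti_lat_sum` / `tg_sum_lat`). -/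
theorem ti_ker_le (hc : c.Ok) : ∃ C : ℝ, 1 ≤ C ∧ ∀ D : TDat c, D.Good → ∀ (i : ℕ) (T : D.Lb i × Lat k) (z : ST k), D.ker c.Q i T z ≤ C := by
  have hQ : (k : ℝ) + 1 < c.Q := by linarith [hc.P_gt, hc.P_lt]
  obtain ⟨C, hC, H⟩ := tg_ker_le k hQ
  exact ⟨C, hC, fun D hD i T z => H c D hD i T z⟩

/-- **LEAF L-257-TI-T5: a child far from `z` under a parent near `z`: the edge is long** (field `far_edge`).
PLAN.  If `par i T'.1 ≠ T.1` both sides vanish.   Otherwise the SECOND clause of `near i z T'` holds: `i + 1 < tr`: the mask `S` of `near (i+1) z T` and `hD.bin_par`; `i + 1 = tr`: `S = T` itself (lemma `∀ j, j = c.tr → …`, `subst`).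
So `‖X i T' z‖ > G i`.   `ti_child_lip` + `TDat.X_ctr`: `‖X i T' z - X i T' (ctr T)‖ ≤ (1 + 2Cc) ‖X (i+1) T z‖ ≤ (1 + 2Cc) G (i+1) ≤ G i / 2` (`hD.G_step`), so `d := ‖X i T' (ctr T)‖ ≥ G i / 2 ≥ G ℓ / 2`;
`(1 + d)^(-Q) = (1 + d)^(-(Q - P)) (1 + d)^(-P)`. -/
theorem ti_far_edge (hc : c.Ok) (D : TDat c) (hD : D.Good) (i : ℕ) (hi : i < c.ℓ) (T' : D.Cl i) (T : D.Cl (i + 1)) (z : ST k) (h1 : D.near (i + 1) z T.1) (h2 : ¬ D.near i z T'.1) :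
    D.edge c.Q i T'.1 T.1 ≤ (1 + D.G c.ℓ / 2) ^ (-(c.Q - c.P)) * D.edge c.P i T'.1 T.1 := by
  have hPQ : c.P ≤ c.Q := hc.P_lt.le
  refine (tg_far_edge hD hPQ i hi T'.1 T.1 T.2 z h1 h2).trans (mul_le_mul_of_nonneg_right ?_ (D.edge_nonneg _ _ _ _))
  have hG := ti_G_le hc D hD hi.le le_rfl
  have h1G := hD.one_le_G c.ℓ le_rfl
  exact Real.rpow_le_rpow_of_nonpos (by linarith) (by linarith) (by linarith)

/-- **LEAF L-257-TI-T6** (field `far_root`).   `ℓ ≥ tr`: `near ℓ z T ↔ ‖X ℓ T z‖ ≤ G ℓ`, `ker Q ℓ = wA Q ℓ`. -/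
theorem ti_far_root (hc : c.Ok) (D : TDat c) (hD : D.Good) (T : D.Cl c.ℓ) (z : ST k) (h : ¬ D.near c.ℓ z T.1) :
    D.ker c.Q c.ℓ T.1 z ≤ (1 + D.G c.ℓ / 2) ^ (-(c.Q - c.P)) * D.wA c.P c.ℓ T.1 z := by
  have hPQ : c.P ≤ c.Q := hc.P_lt.le
  have htr : ¬ c.ℓ < c.tr := by have := hc.tr_le; omega
  have h0 := tg_far_root hD hPQ le_rfl htr T.1 z h
  rw [tg_ker_ge D c.P htr] at h0
  refine h0.trans (mul_le_mul_of_nonneg_right ?_ (D.wA_pos _ _ _ _).le)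
  have h1G := hD.one_le_G c.ℓ le_rfl
  exact Real.rpow_le_rpow_of_nonpos (by linarith) (by linarith) (by linarith)

/-- change of the direction at a fixed scale: a shear proportional to the native time -/
theorem ti_tilt {K : ℝ} (hK : K ≠ 0) (v w : E k) (z : ST k) :
    natX K v z = natX K w z - ((2 * (z.2 / K ^ 2)) • (K • (v - w)), (0 : ℝ)) := by
  unfold natX
  ext1
  · simp only [Prod.fst_sub]
    have h : 2 * (z.2 / K ^ 2) * K = K⁻¹ * (2 * z.2) := by field_simp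
    rw [smul_smul, h, mul_smul K⁻¹ (2 * z.2) (v - w), ← smul_sub]
    congr 1
    rw [smul_sub]
    abel
  · simp

theorem ti_norm_fst0 (a : E k) : ‖((a, (0 : ℝ)) : ST k)‖ = ‖a‖ := by
  rw [Prod.norm_mk, norm_zero, max_eq_left (norm_nonneg _)]

/-- the basic estimate for tilted cells -/
theorem ti_tilt_est {K B : ℝ} (hK : 0 < K) {v w : E k} (hvw : ‖v - w‖ ≤ B / K) (z a b : ST k) (t0 : ℝ) :
    ‖(b - ((2 * t0) • (K • (v - w)), (0 : ℝ))) - a‖ ≤ ‖natX K v z - a‖ + ‖natX K w z - b‖ + 2 * |z.2 / K ^ 2 - t0| * B := by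
  have hs : ‖K • (v - w)‖ ≤ B := by
    rw [norm_smul, Real.norm_of_nonneg hK.le]
    rw [le_div_iff₀ hK] at hvw
    linarith
  have e : (b - ((2 * t0) • (K • (v - w)), (0 : ℝ))) - a
      = (natX K v z - a) - (natX K w z - b) + (((2 * (z.2 / K ^ 2 - t0)) • (K • (v - w)), (0 : ℝ)) : ST k) := by
    rw [ti_tilt hK.ne' v w z]
    ext1
    · simp only [Prod.fst_sub, Prod.fst_add, mul_sub, sub_smul]
      abel
    · simp
  rw [e]
  refine (norm_add_le _ _).trans (add_le_add (norm_sub_le _ _) ?_)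
  rw [ti_norm_fst0, norm_smul, Real.norm_eq_abs, abs_mul, abs_two]
  exact mul_le_mul_of_nonneg_left hs (by positivity)

theorem ti_flo_snd (X : ST k) : |X.2 - ((flo X).2 : ℝ)| ≤ 1 := by
  have a1 := Int.floor_le X.2
  have a2 := Int.lt_floor_add_one X.2
  show |X.2 - (⌊X.2⌋ : ℝ)| ≤ 1
  rw [abs_le]
  constructor <;> linarith

/-- the common numerical step of the two multiplicity bounds -/
theorem ti_count_num {B g G0 : ℝ} (hB : 0 ≤ B) (hg : 1 ≤ g) (hgG : g ≤ G0) :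
    (2 * (1 + (g * (1 + 2 * B) + ((k : ℝ) + 1)))) ^ (k + 1) ≤ (2 * ((k : ℝ) + 3 + 2 * B)) ^ (k + 1) * G0 ^ (k + 1) := by
  have hk : (0 : ℝ) ≤ k := Nat.cast_nonneg k
  rw [← mul_pow]
  refine pow_le_pow_left₀ (by positivity) ?_ _
  nlinarith [mul_nonneg hB (by linarith : (0:ℝ) ≤ G0 - g), mul_nonneg hk (by linarith : (0:ℝ) ≤ G0 - 1)]

/-- **LEAF L-257-TI-T7: few enlarged native cells of the assigned cap meet one tilted cell** (field `mult1`).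
PLAN (see GEOMETRY).  All `T ∈ U` have the label `v = anc i ω`, so `T ↦ T.1.2` is injective on `U`.   If `flo (natX K w z) = m` and `‖natX K v z - lat λ‖ ≤ G i` then `τ ∈ [m.2, m.2 + 1)` and
`‖lat λ - (lat m - ((2 m.2) • (K • (v - w)), 0))‖ ≤ G i + (k + 1) + 2 ℓ Cc`;  `ti_lat_count`;  `G i ≤ G 0`, `1 ≤ G 0`. -/
theorem ti_mult1 (hc : c.Ok) : ∃ C : ℝ, 1 ≤ C ∧ ∀ D : TDat c, D.Good → ∀ i, i ≤ c.ℓ → ∀ (ω : D.Lb 0) (m : Lat k) (U : Finset (D.Cl i)),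
    (∀ T ∈ U, T.1.1 = D.anc i ω ∧ ∃ y, flo (natX (D.κ i) (D.fr 0 ω) (D.pt y)) = m ∧ D.near i (D.pt y) T.1) → (U.card : ℝ) ≤ C * D.G 0 ^ (k + 1) := by
  have hk : (0 : ℝ) ≤ k := Nat.cast_nonneg k
  have hB : 0 ≤ (c.ℓ : ℝ) * c.Cc := mul_nonneg (Nat.cast_nonneg _) (by linarith [hc.one_le_Cc])
  refine ⟨(2 * ((k : ℝ) + 3 + 2 * (c.ℓ * c.Cc))) ^ (k + 1), one_le_pow₀ (by linarith), fun D hD i hi ω m U h => ?_⟩
  have hκ := D.κ_pos hD i
  have hg := hD.one_le_G i hi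
  have hgG := ti_G_le hc D hD (Nat.zero_le i) hi
  have hvw : ‖D.fr i (D.anc i ω) - D.fr 0 ω‖ ≤ c.ℓ * c.Cc / D.κ i := by
    rw [norm_sub_rev]; exact ti_anc_near hc D hD i hi ω
  have hinj : Set.InjOn (fun T : D.Cl i => T.1.2) U := by
    intro T hT T' hT' e
    exact Subtype.ext (Prod.ext ((h T hT).1.trans (h T' hT').1.symm) e)
  rw [← Finset.card_image_of_injOn hinj]
  refine le_trans (ti_lat_count (lat m - ((2 * (m.2 : ℝ)) • (D.κ i • (D.fr i (D.anc i ω) - D.fr 0 ω)), (0 : ℝ)))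
    (r := D.G i * (1 + 2 * (c.ℓ * c.Cc)) + ((k : ℝ) + 1)) (by positivity) _ ?_) (ti_count_num hB hg hgG)
  intro lam hlam
  obtain ⟨T, hT, rfl⟩ := Finset.mem_image.1 hlam
  obtain ⟨hlab, y, hm, hn⟩ := h T hT
  have h1 := ti_tilt_est hκ hvw (D.pt y) (lat T.1.2) (lat m) (m.2 : ℝ)
  have h2 : ‖natX (D.κ i) (D.fr i (D.anc i ω)) (D.pt y) - lat T.1.2‖ ≤ D.G i := by
    rw [← hlab]; exact hn.1
  have h3 : ‖natX (D.κ i) (D.fr 0 ω) (D.pt y) - lat m‖ ≤ (k : ℝ) + 1 := by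
    rw [← hm]; exact ti_flo_near _
  have h4 : |(D.pt y).2 / D.κ i ^ 2 - (m.2 : ℝ)| ≤ 1 := by
    rw [← hm]; exact ti_flo_snd (natX (D.κ i) (D.fr 0 ω) (D.pt y))
  refine h1.trans ?_
  nlinarith [mul_nonneg hB (by linarith : (0:ℝ) ≤ 1 - |(D.pt y).2 / D.κ i ^ 2 - (m.2 : ℝ)|), mul_nonneg hB (by linarith : (0:ℝ) ≤ D.G i - 1)]

/-- **LEAF L-257-TI-T8: … and conversely** (field `mult2`).
PLAN.  `‖natX K v z - lat λ‖ ≤ G i` gives `|τ - λ.2| ≤ G i` and `‖natX K w z - (lat λ + ((2 λ.2) • (K • (v - w)), 0))‖ ≤ G i (1 + 2 ℓ Cc)`; with `ti_flo_near`: `lat m` within `G i (1 + 2 ℓ Cc) + k + 1` of a fixed point; `ti_lat_count`. -/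
theorem ti_mult2 (hc : c.Ok) : ∃ C : ℝ, 1 ≤ C ∧ ∀ D : TDat c, D.Good → ∀ i, i ≤ c.ℓ → ∀ (ω : D.Lb 0) (T : D.Cl i), T.1.1 = D.anc i ω → ∀ U : Finset (Lat k),
    (∀ m ∈ U, ∃ y, flo (natX (D.κ i) (D.fr 0 ω) (D.pt y)) = m ∧ D.near i (D.pt y) T.1) → (U.card : ℝ) ≤ C * D.G 0 ^ (k + 1) := by
  have hk : (0 : ℝ) ≤ k := Nat.cast_nonneg k
  have hB : 0 ≤ (c.ℓ : ℝ) * c.Cc := mul_nonneg (Nat.cast_nonneg _) (by linarith [hc.one_le_Cc])
  refine ⟨(2 * ((k : ℝ) + 3 + 2 * (c.ℓ * c.Cc))) ^ (k + 1), one_le_pow₀ (by linarith), fun D hD i hi ω T hlab U h => ?_⟩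
  have hκ := D.κ_pos hD i
  have hg := hD.one_le_G i hi
  have hgG := ti_G_le hc D hD (Nat.zero_le i) hi
  have hvw : ‖D.fr 0 ω - D.fr i (D.anc i ω)‖ ≤ c.ℓ * c.Cc / D.κ i := ti_anc_near hc D hD i hi ω
  refine le_trans (ti_lat_count (lat T.1.2 - ((2 * (T.1.2.2 : ℝ)) • (D.κ i • (D.fr 0 ω - D.fr i (D.anc i ω))), (0 : ℝ)))
    (r := D.G i * (1 + 2 * (c.ℓ * c.Cc)) + ((k : ℝ) + 1)) (by positivity) _ ?_) (ti_count_num hB hg hgG)
  intro m hmU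
  obtain ⟨y, hm, hn⟩ := h m hmU
  have h1 := ti_tilt_est hκ hvw (D.pt y) (lat m) (lat T.1.2) (T.1.2.2 : ℝ)
  have h2 : ‖natX (D.κ i) (D.fr i (D.anc i ω)) (D.pt y) - lat T.1.2‖ ≤ D.G i := by
    rw [← hlab]; exact hn.1
  have h3 : ‖natX (D.κ i) (D.fr 0 ω) (D.pt y) - lat m‖ ≤ (k : ℝ) + 1 := by
    rw [← hm]; exact ti_flo_near _
  have h4 : |(D.pt y).2 / D.κ i ^ 2 - (T.1.2.2 : ℝ)| ≤ D.G i := by
    refine le_trans ?_ h2
    rw [← Real.norm_eq_abs]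
    exact norm_snd_le (natX (D.κ i) (D.fr i (D.anc i ω)) (D.pt y) - lat T.1.2)
  refine h1.trans ?_
  nlinarith [mul_nonneg hB (by linarith : (0:ℝ) ≤ D.G i - |(D.pt y).2 / D.κ i ^ 2 - (T.1.2.2 : ℝ)|)]

/-- **LEAF L-257-TI-T9: the plain leaf weight varies by a constant on a tilted cell.**
PLAN: `natX (κ 0) w (z - z') = ((κ i/κ 0) • X.1, (κ i/κ 0)² X.2)` with `X = natX (κ i) w (z - z')`, `‖X‖ ≤ 2 (k + 1)` (`ti_flo_near` twice), `κ i ≤ κ 0`; `1 + a ≤ (2k + 3)(1 + b)` if `a ≤ b + 2(k+1)`. -/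
theorem ti_leaf_tilt (hc : c.Ok) (D : TDat c) (hD : D.Good) {A : ℝ} (hA : 0 ≤ A) (i : ℕ) (γ : D.Lb 0 × Lat k) (z z' : ST k)
    (h : flo (natX (D.κ i) (D.fr 0 γ.1) z) = flo (natX (D.κ i) (D.fr 0 γ.1) z')) : D.wA A 0 γ z' ≤ (2 * (k : ℝ) + 3) ^ A * D.wA A 0 γ z := by
  have hk : (0 : ℝ) ≤ k := Nat.cast_nonneg k
  have hκ := D.κ_pos hD i
  have h1 : ‖natX (D.κ 0) (D.fr 0 γ.1) z - natX (D.κ 0) (D.fr 0 γ.1) z'‖
      ≤ (1 + 2 * 0) * ‖natX (D.κ i) (D.fr 0 γ.1) z - natX (D.κ i) (D.fr 0 γ.1) z'‖ :=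
    ti_child_lip hκ (D.κ_le hD (Nat.zero_le i)) (by simp) z z'
  have h2 : ‖natX (D.κ i) (D.fr 0 γ.1) z - natX (D.κ i) (D.fr 0 γ.1) z'‖ ≤ 2 * ((k : ℝ) + 1) := by
    have a1 := ti_flo_near (natX (D.κ i) (D.fr 0 γ.1) z)
    have a2 := ti_flo_near (natX (D.κ i) (D.fr 0 γ.1) z')
    rw [h] at a1
    have := norm_sub_le (natX (D.κ i) (D.fr 0 γ.1) z - lat (flo (natX (D.κ i) (D.fr 0 γ.1) z')))
      (natX (D.κ i) (D.fr 0 γ.1) z' - lat (flo (natX (D.κ i) (D.fr 0 γ.1) z')))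
    rw [sub_sub_sub_cancel_right] at this
    linarith
  have h3 : ‖D.X 0 γ z‖ ≤ ‖D.X 0 γ z'‖ + 2 * ((k : ℝ) + 1) := by
    have : D.X 0 γ z = D.X 0 γ z' + (natX (D.κ 0) (D.fr 0 γ.1) z - natX (D.κ 0) (D.fr 0 γ.1) z') := by
      unfold TDat.X; abel
    rw [this]
    refine (norm_add_le _ _).trans ?_
    linarith
  have h4 : (1 + ‖D.X 0 γ z‖) / (2 * (k : ℝ) + 3) ≤ 1 + ‖D.X 0 γ z'‖ := by
    rw [div_le_iff₀ (by positivity)]
    nlinarith [norm_nonneg (D.X 0 γ z')]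
  have h5 : (1 + ‖D.X 0 γ z'‖) ^ (-A) ≤ ((1 + ‖D.X 0 γ z‖) / (2 * (k : ℝ) + 3)) ^ (-A) :=
    Real.rpow_le_rpow_of_nonpos (by positivity) h4 (by linarith)
  refine h5.trans (le_of_eq ?_)
  unfold TDat.wA
  rw [Real.div_rpow (by positivity) (by positivity), Real.rpow_neg (by positivity : (0:ℝ) ≤ 2 * (k : ℝ) + 3), div_inv_eq_mul, mul_comm]

/-- **LEAF L-257-TI-T10: two-sided comparison of the two-step kernel with the plain weight** (`0 < tr`).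
UPPER: `ti_conv` with the cap constant `ℓ Cc` (`ti_bin_near`), one label (`hD.bin_inj`).   LOWER: keep the single term `S`; `ti_pw_peetre` (constant `ℓ Cc`), `TDat.X_ctr`. -/
theorem ti_ker_two (hc : c.Ok) : ∃ C : ℝ, 1 ≤ C ∧ ∀ D : TDat c, D.Good → 0 < c.tr → ∀ (γ : D.Lb 0 × Lat k) (z : ST k),
    D.ker c.Q 0 γ z ≤ C * D.wA c.Q 0 γ z ∧
    ∀ S ∈ D.W c.tr, D.bin c.tr S.1 = D.bin 0 γ.1 → D.wA c.Q 0 γ z ≤ C * (1 + ‖D.X c.tr S z‖) ^ (2 * c.Q) * D.ker c.Q 0 γ z := by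
  have hk : (0 : ℝ) ≤ k := Nat.cast_nonneg k
  have hQ : (k : ℝ) + 2 ≤ c.Q := by linarith [hc.P_gt, hc.P_lt]
  have hQ0 : 0 ≤ c.Q := by linarith
  have hB : 0 ≤ (c.ℓ : ℝ) * c.Cc := mul_nonneg (Nat.cast_nonneg _) (by linarith [hc.one_le_Cc])
  obtain ⟨C, hC, H⟩ := tg_bc k hQ hB
  set L : ℝ := (1 + 2 * (c.ℓ * c.Cc)) ^ c.Q with hL
  have hL1 : 1 ≤ L := Real.one_le_rpow (by linarith) hQ0
  refine ⟨C + L, by linarith, fun D hD htr γ z => ⟨?_, fun S hS hb => ?_⟩⟩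
  · -- upper bound
    have hw0 := (D.wA_pos c.Q 0 γ z).le
    rw [tg_ker_lt D c.Q htr, tgK2]
    by_cases hv : ∃ v0, D.bin c.tr v0 = D.bin 0 γ.1
    · obtain ⟨v0, hv0⟩ := hv
      have h1 : ∀ S ∈ D.W c.tr, (if D.bin c.tr S.1 = D.bin 0 γ.1 then D.wA c.Q c.tr S z * D.wA c.Q 0 γ (D.ctr c.tr S) else 0)
          = if v0 = S.1 then pw c.Q (D.κ c.tr) (D.fr c.tr v0) (lat S.2) z
              * pw c.Q (D.κ 0) (D.fr 0 γ.1) (lat γ.2) (natI (D.κ c.tr) (D.fr c.tr v0) (lat S.2)) else 0 := by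
        intro S _
        by_cases hb : D.bin c.tr S.1 = D.bin 0 γ.1
        · have e : v0 = S.1 := hD.bin_inj (hv0.trans hb.symm)
          rw [if_pos hb, if_pos e, e]
          rfl
        · rw [if_neg hb, if_neg (fun e => hb (by rw [← e, hv0]))]
      rw [Finset.sum_congr rfl h1, tg_fib (D.W c.tr) v0 fun m => pw c.Q (D.κ c.tr) (D.fr c.tr v0) (lat m) z
        * pw c.Q (D.κ 0) (D.fr 0 γ.1) (lat γ.2) (natI (D.κ c.tr) (D.fr c.tr v0) (lat m))]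
      refine (H _ _ _ _ _ _ _ (hD.one_le_κ _) (D.κ_le hD (Nat.zero_le _)) (ti_bin_near hc D hD 0 (Nat.zero_le _) γ.1 v0 hv0)).trans ?_
      exact mul_le_mul_of_nonneg_right (by linarith) hw0
    · have : ∑ S ∈ D.W c.tr, (if D.bin c.tr S.1 = D.bin 0 γ.1 then D.wA c.Q c.tr S z * D.wA c.Q 0 γ (D.ctr c.tr S) else 0) = 0 :=
        Finset.sum_eq_zero fun S _ => if_neg fun e => hv ⟨S.1, e⟩
      rw [this]
      exact mul_nonneg (by linarith) hw0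
  · -- lower bound
    have hκ := D.κ_pos hD c.tr
    have h2 := ti_pw_peetre hκ (D.κ_le hD (Nat.zero_le _)) hB hQ0 (ti_bin_near hc D hD 0 (Nat.zero_le _) γ.1 S.1 hb) (lat γ.2) (D.ctr c.tr S) z
    have h3 : natX (D.κ c.tr) (D.fr c.tr S.1) (D.ctr c.tr S) - natX (D.κ c.tr) (D.fr c.tr S.1) z = -D.X c.tr S z := by
      unfold TDat.X TDat.ctr
      rw [natX_natI hκ.ne']
      abel
    rw [h3, norm_neg] at h2
    have h4 : D.wA c.Q c.tr S z * D.wA c.Q 0 γ (D.ctr c.tr S) ≤ D.ker c.Q 0 γ z := by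
      rw [tg_ker_lt D c.Q htr, tgK2]
      have hnn : ∀ S' ∈ D.W c.tr, 0 ≤ (if D.bin c.tr S'.1 = D.bin 0 γ.1 then D.wA c.Q c.tr S' z * D.wA c.Q 0 γ (D.ctr c.tr S') else 0) := by
        intro S' _
        split_ifs
        exacts [mul_nonneg (D.wA_pos _ _ _ _).le (D.wA_pos _ _ _ _).le, le_rfl]
      refine le_trans (le_of_eq ?_) (Finset.single_le_sum hnn hS)
      rw [if_pos hb]
    set d : ℝ := 1 + ‖D.X c.tr S z‖ with hd
    have hd0 : 0 < d := by positivity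
    have h5 : d ^ (2 * c.Q) * D.wA c.Q c.tr S z = d ^ c.Q := by
      show d ^ (2 * c.Q) * d ^ (-c.Q) = d ^ c.Q
      rw [← Real.rpow_add hd0]
      congr 1
      ring
    have hdQ : 0 ≤ d ^ (2 * c.Q) := Real.rpow_nonneg hd0.le _
    calc D.wA c.Q 0 γ z ≤ L * d ^ c.Q * D.wA c.Q 0 γ (D.ctr c.tr S) := h2
      _ = L * d ^ (2 * c.Q) * (D.wA c.Q c.tr S z * D.wA c.Q 0 γ (D.ctr c.tr S)) := by rw [← h5]; ring
      _ ≤ L * d ^ (2 * c.Q) * D.ker c.Q 0 γ z := mul_le_mul_of_nonneg_left h4 (mul_nonneg (by linarith) hdQ)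
      _ ≤ (C + L) * d ^ (2 * c.Q) * D.ker c.Q 0 γ z :=
          mul_le_mul_of_nonneg_right (mul_le_mul_of_nonneg_right (by linarith) hdQ) (D.ker_nonneg _ _ _ _)

/-- **LEAF L-257-TI-T11: the leaf kernel varies by `Kc` on a tilted cell, at attached witnesses** (field `leafcmp`).
PLAN.  `tr = 0`: `ker = wA`, `ti_leaf_tilt`.   `0 < tr`: `ker z' ≤ C wA z' ≤ C (2k+3)^Q wA z ≤ C' (1 + G tr)^(2Q) ker z` (`ti_ker_two`, `ti_leaf_tilt`; the mask `S` = the attached cell of height `tr`, `ti_anc_bin`), `1 + G tr ≤ 2 G 0`. -/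
theorem ti_leafcmp (hc : c.Ok) : ∃ C : ℝ, 1 ≤ C ∧ ∀ D : TDat c, D.Good → ∀ i, i ≤ c.ℓ → ∀ (γ : D.Cl 0) (z z' : ST k),
    flo (natX (D.κ i) (D.fr 0 γ.1.1) z) = flo (natX (D.κ i) (D.fr 0 γ.1.1) z') →
    (∃ T : D.Cl c.tr, T.1.1 = D.anc c.tr γ.1.1 ∧ D.near c.tr z T.1) → D.ker c.Q 0 γ.1 z' ≤ C * D.G 0 ^ (2 * c.Q) * D.ker c.Q 0 γ.1 z := by
  have hk : (0 : ℝ) ≤ k := Nat.cast_nonneg k
  have hQ0 : 0 ≤ c.Q := by linarith [hc.P_gt, hc.P_lt]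
  obtain ⟨C, hC, H⟩ := ti_ker_two hc
  set M : ℝ := (2 * (k : ℝ) + 3) ^ c.Q with hM
  have hM1 : 1 ≤ M := Real.one_le_rpow (by linarith) hQ0
  have h4Q : (1 : ℝ) ≤ 2 ^ (2 * c.Q) := Real.one_le_rpow (by norm_num) (by linarith)
  refine ⟨C * M * C * 2 ^ (2 * c.Q), by
    have : 1 ≤ C * M := by nlinarith
    have : 1 ≤ C * M * C := by nlinarith
    nlinarith, fun D hD i hi γ z z' h hatt => ?_⟩
  have hG0 : 1 ≤ D.G 0 := hD.one_le_G 0 (Nat.zero_le _)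
  have hGQ : 1 ≤ D.G 0 ^ (2 * c.Q) := Real.one_le_rpow hG0 (by linarith)
  have hker := D.ker_nonneg c.Q 0 γ.1 z
  have ht := ti_leaf_tilt hc D hD hQ0 i γ.1 z z' h
  by_cases htr : 0 < c.tr
  · obtain ⟨T, hlab, hn⟩ := hatt
    have hb : D.bin c.tr T.1.1 = D.bin 0 γ.1.1 := by rw [hlab, ti_anc_bin D hD c.tr le_rfl]
    have h1 := (H D hD htr γ.1 z').1
    have h2 := (H D hD htr γ.1 z).2 T.1 T.2 hb
    have hGtr := hD.one_le_G c.tr hc.tr_le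
    have hGle := ti_G_le hc D hD (Nat.zero_le c.tr) hc.tr_le
    have h3 : (1 + ‖D.X c.tr T.1 z‖) ^ (2 * c.Q) ≤ 2 ^ (2 * c.Q) * D.G 0 ^ (2 * c.Q) := by
      rw [← Real.mul_rpow (by norm_num) (by linarith)]
      exact Real.rpow_le_rpow (by positivity) (by linarith [hn.1]) (by linarith)
    calc D.ker c.Q 0 γ.1 z' ≤ C * D.wA c.Q 0 γ.1 z' := h1
      _ ≤ C * (M * D.wA c.Q 0 γ.1 z) := mul_le_mul_of_nonneg_left ht (by linarith)
      _ ≤ C * (M * (C * (1 + ‖D.X c.tr T.1 z‖) ^ (2 * c.Q) * D.ker c.Q 0 γ.1 z)) :=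
          mul_le_mul_of_nonneg_left (mul_le_mul_of_nonneg_left h2 (by linarith)) (by linarith)
      _ ≤ C * (M * (C * (2 ^ (2 * c.Q) * D.G 0 ^ (2 * c.Q)) * D.ker c.Q 0 γ.1 z)) := by
          refine mul_le_mul_of_nonneg_left (mul_le_mul_of_nonneg_left (mul_le_mul_of_nonneg_right (mul_le_mul_of_nonneg_left h3 ?_) hker) ?_) ?_ <;> linarith
      _ = _ := by ring
  · have htr' : ¬ 0 < c.tr := htr
    rw [tg_ker_ge D c.Q htr', tg_ker_ge D c.Q htr']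
    refine ht.trans (mul_le_mul_of_nonneg_right ?_ (D.wA_pos _ _ _ _).le)
    have a1 : M ≤ C * M * C := by
      have : M ≤ C * M := by nlinarith
      nlinarith
    have a2 : C * M * C ≤ C * M * C * 2 ^ (2 * c.Q) := by nlinarith
    have a3 : 0 ≤ C * M * C * 2 ^ (2 * c.Q) := by positivity
    nlinarith

/-- **`TGeo.Ok` for the concrete system** (glue) -/
theorem ti_geo_ok (hc : c.Ok) : ∃ C : ℝ, 1 ≤ C ∧ ∀ C' : ℝ, C ≤ C' → ∀ D : TDat c, D.Good → D.geo.Ok (D.gp C') := by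
  have hQ : (k : ℝ) + 2 < c.Q := hc.P_gt.trans hc.P_lt
  obtain ⟨C1, hC1, hconv⟩ := ti_ker_conv hc hQ
  obtain ⟨C2, hC2, hle⟩ := ti_ker_le hc
  obtain ⟨C3, hC3, hsq⟩ := ti_sqP_le hc
  obtain ⟨C4, hC4, hm1⟩ := ti_mult1 hc
  obtain ⟨C5, hC5, hm2⟩ := ti_mult2 hc
  obtain ⟨C6, hC6, hlc⟩ := ti_leafcmp hc
  refine ⟨C1 + C2 + C3 + C4 + C5 + C6, by linarith, fun C' hC' D hD => ?_⟩
  have h1C : 1 ≤ C' := by linarith
  have hG0 : 1 ≤ D.G 0 := hD.one_le_G 0 (Nat.zero_le _)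
  have hGk : 1 ≤ D.G 0 ^ (k + 1) := one_le_pow₀ hG0
  have hQ0 : 0 ≤ c.Q := by
    have : (0 : ℝ) ≤ k := Nat.cast_nonneg k
    linarith
  have hGQ : 1 ≤ D.G 0 ^ (2 * c.Q) := Real.one_le_rpow hG0 (by linarith)
  have hϖ := hD.one_le_ϖ
  have f_conv : ∀ i, ∀ (T' : D.Cl i) (z : D.Y), ∑ T : D.Cl (i + 1), D.edge c.Q i T'.1 T.1 * D.ker c.Q (i + 1) T.1 (D.pt z) ≤ C' * D.ker c.Q i T'.1 (D.pt z) :=
    fun i T' z => (hconv D hD i T'.1 (D.pt z)).trans (mul_le_mul_of_nonneg_right (by linarith) (D.ker_nonneg _ _ _ _))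
  have f_sqb : ∀ z : D.Y, ∑ T : D.Cl c.ℓ, D.bb c.ℓ T ^ 2 * D.wA c.P c.ℓ T.1 (D.pt z) ≤ C' * D.ϖ := by
    intro z
    have h0 := hsq D hD c.ℓ le_rfl z
    have h1 : ∀ T : D.Cl c.ℓ, D.ker c.P c.ℓ T.1 (D.pt z) = D.wA c.P c.ℓ T.1 (D.pt z) := by
      intro T
      unfold TDat.ker
      rw [if_neg (by have := hc.tr_le; omega)]
    simp only [h1] at h0
    exact h0.trans (mul_le_mul_of_nonneg_right (by linarith) (by linarith))
  have f_m1 : ∀ i, i ≤ c.ℓ → ∀ (ω : D.Lb 0) (m : Lat k) (U : Finset (D.Cl i)),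
      (∀ T ∈ U, T.1.1 = D.anc i ω ∧ ∃ y, flo (natX (D.κ i) (D.fr 0 ω) (D.pt y)) = m ∧ D.near i (D.pt y) T.1) → (U.card : ℝ) ≤ C' * D.G 0 ^ (k + 1) :=
    fun i hi ω m U h => (hm1 D hD i hi ω m U h).trans (mul_le_mul_of_nonneg_right (by linarith) (by linarith))
  have f_m2 : ∀ i, i ≤ c.ℓ → ∀ (ω : D.Lb 0) (T : D.Cl i), T.1.1 = D.anc i ω → ∀ U : Finset (Lat k),
      (∀ m ∈ U, ∃ y, flo (natX (D.κ i) (D.fr 0 ω) (D.pt y)) = m ∧ D.near i (D.pt y) T.1) → (U.card : ℝ) ≤ C' * D.G 0 ^ (k + 1) :=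
    fun i hi ω T hT U h => (hm2 D hD i hi ω T hT U h).trans (mul_le_mul_of_nonneg_right (by linarith) (by linarith))
  have f_lc : ∀ i, i ≤ c.ℓ → ∀ (γ : D.Cl 0) (z z' : D.Y), flo (natX (D.κ i) (D.fr 0 γ.1.1) (D.pt z)) = flo (natX (D.κ i) (D.fr 0 γ.1.1) (D.pt z')) →
      (∀ j, j ≤ c.ℓ → ∃ T : D.Cl j, T.1.1 = D.anc j γ.1.1 ∧ D.near j (D.pt z) T.1) → D.ker c.Q 0 γ.1 (D.pt z') ≤ C' * D.G 0 ^ (2 * c.Q) * D.ker c.Q 0 γ.1 (D.pt z) :=
    fun i hi γ z z' h hatt => (hlc D hD i hi γ _ _ h (hatt c.tr hc.tr_le)).trans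
      (mul_le_mul_of_nonneg_right (mul_le_mul_of_nonneg_right (by linarith) (by linarith)) (D.ker_nonneg _ _ _ _))
  have f_nest : ∀ i, ∀ (T' : D.Cl i) (T : D.Cl (i + 1)) (ω : D.Lb 0), D.edge c.P i T'.1 T.1 ≠ 0 → T'.1.1 = D.anc i ω → T.1.1 = D.anc (i + 1) ω := by
    intro i T' T ω he hT'
    unfold TDat.edge at he
    split_ifs at he with hp
    · rw [← hp, hT']; rfl
    · exact absurd rfl he
  exact
    { one_le_Γc := h1C
      one_le_Γw := h1C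
      δ_nonneg := Real.rpow_nonneg (by linarith [hD.one_le_G c.ℓ le_rfl]) _
      one_le_m := by show 1 ≤ C' * D.G 0 ^ (k + 1); nlinarith
      one_le_Kc := by show 1 ≤ C' * D.G 0 ^ (2 * c.Q); nlinarith
      wb_nonneg := fun T z => (D.wA_pos _ _ _ _).le
      anc_leaf := fun γ => rfl
      nest := fun i _ T' T ω he hT' => f_nest i T' T ω he hT'
      conv := fun i _ T' z => f_conv i T' z
      w_le := fun i _ T z => (hle D hD i T.1 (D.pt z)).trans (by show C2 ≤ C'; linarith)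
      far_edge := fun i hi T' T z h1 h2 => ti_far_edge hc D hD i hi T' T (D.pt z) h1 h2
      far_root := fun T z h => ti_far_root hc D hD T (D.pt z) h
      sqb_le := f_sqb
      mult1 := fun i hi ω m U h => f_m1 i hi ω m U h
      mult2 := fun i hi ω T hT U h => f_m2 i hi ω T hT U h
      leafcmp := fun i hi γ z z' h hatt => f_lc i hi γ z z' h hatt }

/-- **the INST half of `FR3.FinHyp`** at the transition height: `near` = second enlargement of radius `Gn`, `wl = wA P tr`, `Ce = 1`; `ao`, `σ`, `Ke` come from FR1 ((f:original-amplitudes), (f:original-energy)).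
**LEAF L-257-TI-T12.**  PLAN.  At the height `tr`: `msk = 1`, `ker A tr = wA A tr` (`if_neg (lt_irrefl _)`).   `ev_le`: `ti_pk_le`, `pw ≤ 1`.   `far`: `d > Gn`: `(1+d)^(-Q) = (1+d)^(-(Q-P)) (1+d)^(-P) ≤ (1+Gn)^(-(Q-P)) (1+d)^(-P)`.
`sql_le`: `ti_sqP_le` at `i = tr`.   `near_le`: `1 ≤ (1+Gn)^P wA P tr T z` on `near`, then `ti_sqP_le`.   State every field first in concrete terms (`have f_… : …`) and finish with `exact { … }` as in `ti_geo_ok`. -/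
theorem ti_fin (hc : c.Ok) : ∃ C : ℝ, 1 ≤ C ∧ ∀ D : TDat c, D.Good → ∀ (Gn : ℝ), 0 ≤ Gn → ∀ (ao : D.Cl c.tr → ℝ) (σ Ke : ℝ), 0 ≤ σ → (∀ T, σ ≤ ao T) →
    D.κ c.tr ^ (k + 2) * ∑ T, ao T ^ 2 ≤ Ke * D.sys.D →
    FR3.FinHyp D.sys c.tr (fun y (T : D.Cl c.tr) => ‖D.X c.tr T.1 (D.pt y)‖ ≤ Gn) (fun (T : D.Cl c.tr) y => D.wA c.P c.tr T.1 (D.pt y)) ao 1
      ((1 + Gn) ^ (-(c.Q - c.P))) (C * D.ϖ) (C * (1 + Gn) ^ c.P * D.ϖ) σ Ke := by
  have hk : (0 : ℝ) ≤ k := Nat.cast_nonneg k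
  have hP0 : 0 ≤ c.P := by linarith [hc.P_gt]
  have hPQ : c.P ≤ c.Q := hc.P_lt.le
  have hM0 : 0 ≤ c.M := by linarith [hc.M_gt, hc.P_gt, hc.P_lt]
  obtain ⟨C, hC, H⟩ := ti_sqP_le hc
  refine ⟨C, hC, fun D hD Gn hGn ao σ Ke hσ hao hen => ?_⟩
  have htr : ¬ c.tr < c.tr := lt_irrefl _
  have hϖ : 0 ≤ D.ϖ := by linarith [hD.one_le_ϖ]
  have f_ev : ∀ (T : D.Cl c.tr) (a : ℝ) (f : ST k →ᵇ ℂ) (z : D.Y), IsPk (c.ρ c.tr) c.M (D.κ c.tr) (D.fr c.tr T.1.1) (lat T.1.2) a f →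
      ‖D.msk c.tr T.1.1 (D.pt z) * f (D.pt z)‖ ≤ 1 * a := by
    intro T a f z h
    have h1 : D.msk c.tr T.1.1 (D.pt z) = 1 := by unfold TDat.msk; rw [if_neg htr]
    rw [h1, one_mul, one_mul]
    refine (ti_pk_le h (D.pt z)).trans ?_
    have h2 : pw c.M (D.κ c.tr) (D.fr c.tr T.1.1) (lat T.1.2) (D.pt z) ≤ 1 := D.wA_le_one hM0 c.tr T.1 (D.pt z)
    have h3 := ti_pk_nonneg h
    nlinarith
  have f_far : ∀ (T : D.Cl c.tr) (z : D.Y), ¬ ‖D.X c.tr T.1 (D.pt z)‖ ≤ Gn →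
      D.ker c.Q c.tr T.1 (D.pt z) ≤ (1 + Gn) ^ (-(c.Q - c.P)) * D.wA c.P c.tr T.1 (D.pt z) := by
    intro T z h
    rw [tg_ker_ge D c.Q htr]
    exact tg_gain hPQ hGn (not_le.1 h).le
  have f_sql : ∀ z : D.Y, ∑ T : D.Cl c.tr, D.bb c.tr T ^ 2 * D.wA c.P c.tr T.1 (D.pt z) ≤ C * D.ϖ := by
    intro z
    have h0 := H D hD c.tr hc.tr_le z
    have h1 : ∀ T : D.Cl c.tr, D.ker c.P c.tr T.1 (D.pt z) = D.wA c.P c.tr T.1 (D.pt z) := fun T => tg_ker_ge D c.P htr _ _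
    simp only [h1] at h0
    exact h0
  have f_near : ∀ z : D.Y, (∑ T : D.Cl c.tr, if ‖D.X c.tr T.1 (D.pt z)‖ ≤ Gn then D.bb c.tr T ^ 2 else 0) ≤ C * (1 + Gn) ^ c.P * D.ϖ := by
    intro z
    have hg0 : 0 ≤ (1 + Gn) ^ c.P := Real.rpow_nonneg (by linarith) _
    have h1 : ∀ T : D.Cl c.tr, (if ‖D.X c.tr T.1 (D.pt z)‖ ≤ Gn then D.bb c.tr T ^ 2 else 0)
        ≤ (1 + Gn) ^ c.P * (D.bb c.tr T ^ 2 * D.wA c.P c.tr T.1 (D.pt z)) := by
      intro T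
      split_ifs with hn
      · have a1 : (1 + Gn) ^ (-c.P) ≤ D.wA c.P c.tr T.1 (D.pt z) :=
          Real.rpow_le_rpow_of_nonpos (by positivity) (by linarith) (by linarith)
        have a2 : (1 + Gn) ^ c.P * (1 + Gn) ^ (-c.P) = 1 := by
          rw [← Real.rpow_add (by linarith), add_neg_cancel, Real.rpow_zero]
        calc D.bb c.tr T ^ 2 = D.bb c.tr T ^ 2 * ((1 + Gn) ^ c.P * (1 + Gn) ^ (-c.P)) := by rw [a2, mul_one]
          _ ≤ D.bb c.tr T ^ 2 * ((1 + Gn) ^ c.P * D.wA c.P c.tr T.1 (D.pt z)) :=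
              mul_le_mul_of_nonneg_left (mul_le_mul_of_nonneg_left a1 hg0) (sq_nonneg _)
          _ = _ := by ring
      · exact mul_nonneg hg0 (mul_nonneg (sq_nonneg _) (D.wA_pos _ _ _ _).le)
    calc _ ≤ ∑ T : D.Cl c.tr, (1 + Gn) ^ c.P * (D.bb c.tr T ^ 2 * D.wA c.P c.tr T.1 (D.pt z)) := Finset.sum_le_sum fun T _ => h1 T
      _ = (1 + Gn) ^ c.P * ∑ T : D.Cl c.tr, D.bb c.tr T ^ 2 * D.wA c.P c.tr T.1 (D.pt z) := by rw [Finset.mul_sum]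
      _ ≤ (1 + Gn) ^ c.P * (C * D.ϖ) := mul_le_mul_of_nonneg_left (f_sql z) hg0
      _ = _ := by ring
  exact
    { t_le := hc.tr_le
      Ce_nonneg := zero_le_one
      δ_nonneg := Real.rpow_nonneg (by linarith) _
      σ_nonneg := hσ
      ev_le := fun T a f z h => f_ev T a f z h
      far := fun T z h => f_far T z h
      wl_nonneg := fun T z => (D.wA_pos _ _ _ _).le
      sql_le := f_sql
      near_le := f_near
      ao_ge := hao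
      ao_en := hen }

theorem ti_tg_eqns_cite : True := by
  have := @flo.eq_1
  have := @TDat.anc.eq_1
  have := @TDat.anc.eq_2
  have := @TDat.geo.eq_1
  have := @TDat.gp.eq_1
  trivial

end

end Claimed.Agent.R257.Tree
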