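import Claimed.Agent.R257.Tree.TG
import Claimed.Agent.R257.FR2.AngDefs

/-!
# ROW 257, unit ANG-INST, file 1: THE ANGULAR DATA OF THE CONCRETE SYSTEM (definitions)      (architect helper37)

NOTHING is sorried in this file (definitions only).   `TDat.ang D I : TAng D.sys D.geo` = the instance of `FR2/AngDefs.lean` for the concrete tree `D : TDat c` of INST (`Tree/Defs.lean`, `Tree/TG.lean`).   Paper: H `frame.tex` l.1041-1107.
PARAMETERS `I : TAIn D`:  `lam` (height of the cap parameter `l`), `bot ≤ lam` (lowest mesh height of the block), `v₀ : Lb lam` (junk value), `Sd` (side of the macro boxes in the NATIVE coordinates of the `lam`-caps),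
`Ew > k + 1` (order of the macro weights), `Q2` (THIRD order, `Q + Ew k / 2 ≤ Q2`, `Q2 + k + 2 ≤ C0`, `Q2 ≤ M`), `Cs ≥ 1` (enlargement of the strips).
* `TDat.upL n v₀ i v`    the assigned ancestor of height `n` of the label `v` of height `i ≤ n` (`Nat.leRecOn`; junk `v₀` for `i > n`)
* `TStr k bot lam`       hyperplane strips: mesh height `lev ∈ [bot, lam]`, unit normal `n`, offset `t`.     The strip of mesh height `j` is `{ξ : |⟪ξ, n⟫ - t| ≤ 1/κ_j}` ENLARGED:
* `TDat.sinS Cs i σ v`   `|⟪fr i v, n⟫ - t| ≤ (Cs + i Cc)/κ_i`     (does not depend on `lev σ`; inherited upwards by `par_near`;  a leaf label `ω` with `|⟪fr 0 ω, n⟫ - t| ≤ Cs/κ_j` has `sinS j σ (anc j ω)`)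
* `TDat.bx0 lam Sd T`    the macro box of a cell of height `lam`: (label, integer part of `Sd⁻¹ • lat T.2`);   `BB` = the boxes which occur (finite)
* `TDat.psi …`           `Ψ_B(T) = (k+2)^Ew (1 + ‖Sd⁻¹ • natX κ_lam (fr lam v_B) z_T - lat m_B‖)^(-Ew)` if the `lam`-ancestor of `T` is the cap `v_B` of `B`, and the SMALL CONSTANT `1/(#BB + 1)` otherwise
                         (positivity is needed for the conjugation; an edge joins cells with the same `lam`-ancestor, so the constant cancels in (PSI); the sum over the boxes of the other caps is `≤ 1`)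
* `WtPl k p A M`         the CONTRACT "`p:weighted` for labels within `C1/N` of an affine hyperplane", UNIFORM in the hyperplane (provider: `PK1/WRot.lean` from `pkw_weighted_plane` + rotation invariance)
-/

set_option autoImplicit false

namespace Claimed.Agent.R257.Tree

open Claimed.Agent.R257 Claimed.Agent.R257.FR2
open scoped BigOperators Classical BoundedContinuousFunction InnerProductSpace

noncomputable section

variable {k : ℕ}

/-- **`p:weighted` for plate-supported families, discrete unit-supremum form**: as `WtAt`, the labels lie within `C1/N` of the affine hyperplane `{⟪ξ, n⟫ = t}`; the constant does not depend on the hyperplane. -/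
def WtPl (k : ℕ) (p A M : ℝ) : Prop :=
  ∀ ρ Cc Cm C1 ε : ℝ, 0 < ε → ∃ C : ℝ, 1 ≤ C ∧ ∀ N : ℝ, 1 ≤ N → ∀ (Λ : Type) [Fintype Λ] (fr : Λ → E k),
    (∀ ξ : E k, ((Finset.univ.filter fun v => ‖fr v - ξ‖ ≤ N⁻¹).card : ℝ) ≤ Cm) →
    ∀ (s : Finset (Λ × Lat k)) (a b : Λ × Lat k → ℝ) (f : Λ × Lat k → ST k → ℂ), (∀ T ∈ s, ‖fr T.1‖ ≤ Cc) →
    (∀ T ∈ s, IsPk ρ M N (fr T.1) (lat T.2) (a T) (f T)) → (∀ T ∈ s, 0 ≤ b T) → (∀ T ∈ s, a T ≠ 0 → 0 < b T) →
    ∀ (n : E k) (t : ℝ), ‖n‖ = 1 → (∀ T ∈ s, |⟪fr T.1, n⟫_ℝ - t| ≤ C1 / N) →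
    ∀ Y : Finset (ST k), USep Y →
      ∑ z ∈ Y, (∑ T ∈ s, b T ^ 2 * pw A N (fr T.1) (lat T.2) z) ^ ((2 - p) / 2) * ‖∑ T ∈ s, f T z‖ ^ p
        ≤ C * N ^ ε * N ^ (k + 2) * ∑ T ∈ s, a T ^ p * b T ^ (2 - p)

/-- hyperplane strips -/
structure TStr (k bot lam : ℕ) where
  /-- the mesh height -/
  lev : ℕ
  /-- the unit normal -/
  n : E k
  /-- the offset -/
  t : ℝ
  bot_le : bot ≤ lev
  le_lam : lev ≤ lam
  nrm : ‖n‖ = 1

variable {c : TCls k}

/-- the parameters of the angular instance -/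
structure TAIn (D : TDat c) where
  lam : ℕ
  bot : ℕ
  v₀ : D.Lb lam
  /-- side of the macro boxes, in the native coordinates of the `lam`-caps -/
  Sd : ℝ
  /-- order of the macro weights -/
  Ew : ℝ
  /-- the third order -/
  Q2 : ℝ
  /-- enlargement of the strips -/
  Cs : ℝ

namespace TDat

variable (D : TDat c)

/-- the assigned ancestor of height `n` of a label of height `i ≤ n` -/
def upL (n : ℕ) (v₀ : D.Lb n) (i : ℕ) (v : D.Lb i) : D.Lb n :=
  if h : i ≤ n then Nat.leRecOn (C := D.Lb) h (fun {m} x => D.par m x) v else v₀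

/-- the cap meets the enlarged strip -/
def sinS (Cs : ℝ) {bot lam : ℕ} (i : ℕ) (σ : TStr k bot lam) (v : D.Lb i) : Prop :=
  |⟪D.fr i v, σ.n⟫_ℝ - σ.t| ≤ (Cs + i * c.Cc) / D.κ i

/-- the macro box of a cell of height `lam` -/
def bx0 (lam : ℕ) (Sd : ℝ) (T : D.Cl lam) : D.Lb lam × Lat k := (T.1.1, flo (Sd⁻¹ • lat T.1.2))

/-- the macro boxes which occur -/
abbrev BBt (lam : ℕ) (Sd : ℝ) : Type := {B : D.Lb lam × Lat k // B ∈ Finset.univ.image (D.bx0 lam Sd)}

/-- the position of the point `z` relative to the macro box `B`, in units of the side -/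
def mpos (lam : ℕ) (Sd : ℝ) (B : D.Lb lam × Lat k) (z : ST k) : ST k := Sd⁻¹ • natX (D.κ lam) (D.fr lam B.1) z - lat B.2

/-- the macro weights -/
def psi (I : TAIn D) (B : D.Lb I.lam × Lat k) (i : ℕ) (T : D.Lb i × Lat k) : ℝ :=
  if D.upL I.lam I.v₀ i T.1 = B.1 then ((k : ℝ) + 2) ^ I.Ew * (1 + ‖D.mpos I.lam I.Sd B (D.ctr i T)‖) ^ (-I.Ew)
  else 1 / ((Fintype.card (D.BBt I.lam I.Sd) : ℝ) + 1)

/-- **the angular data of the concrete system** -/
def ang (I : TAIn D) : TAng D.sys D.geo where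
  lam := I.lam
  bot := I.bot
  Str := TStr k I.bot I.lam
  lev := fun σ => σ.lev
  sin := fun i σ (v : D.Lb i) => D.sinS I.Cs i σ v
  ehh := fun i (T' : D.Cl i) (T : D.Cl (i + 1)) => D.edge I.Q2 i T'.1 T.1
  BB := D.BBt I.lam I.Sd
  fBB := inferInstance
  Bx := fun (T : D.Cl I.lam) => ⟨D.bx0 I.lam I.Sd T, Finset.mem_image_of_mem _ (Finset.mem_univ T)⟩
  Psi := fun B i (T : D.Cl i) => D.psi I B.1 i T.1
  up := fun i (v : D.Lb i) => D.upL I.lam I.v₀ i v

/-- the constants of the angular instance: `C` depends only on the class, on `Ew`, `Q2`, `Cs`, `q'` and on `ε` -/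
def ap (C ε q' : ℝ) : TAPar where
  q' := q'
  L' := C * (D.κ 0 / D.κ c.ℓ) ^ ε
  Lq := C * (D.κ 0 / D.κ c.ℓ) ^ ε
  CPsi := C

end TDat

/-- the hypotheses on the parameters -/
structure TAIn.Ok {D : TDat c} (I : TAIn D) : Prop where
  bot_le : I.bot ≤ I.lam
  lam_le : I.lam ≤ c.ℓ
  Ew_gt : (k : ℝ) + 1 < I.Ew
  Q2_ge : c.Q + I.Ew * k / 2 ≤ I.Q2
  Q2_C0 : I.Q2 + k + 2 ≤ c.C0
  Q2_M : I.Q2 ≤ c.M
  one_le_Cs : 1 ≤ I.Cs
  /-- all the affected widths and durations are below the macro scale -/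
  Sd_ge : (1 + 2 * c.ℓ * c.Cc) * (D.κ I.bot / D.κ I.lam) ^ 2 ≤ I.Sd

end

end Claimed.Agent.R257.Tree
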