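import Claimed.Agent.R257.Tree.AngKv
import Claimed.Agent.R257.PK1.WRot

/-!
# ROW 257, unit ANG-INST, file 6: EXIT (the analytic providers plugged in)      (helper37)

PROVED, no sorry, no hypothesis besides the relations between the orders.
* `tia_main`   `(D.ang I).Ok p (D.ap C' ε q')` and `(D.ang I).Var (D.kv I C')` for every `C' ≥ C`, `C = C(class, Ew, Q2, Cs, q', ε)`.
  ORDERS: `k + 1 < Ew`, `0 ≤ Q2`, `Q2 + k + 2 ≤ C0`, `Q2 ≤ M`;   EXPONENT: `q_k < q'`, `q' (k - 1) ≤ 2 (k + 1)` (`k = 1`: every `q' > 6`).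
* `tia_qa`, `tia_qa_gt`, `tia_qa_le`   ONE admissible choice of the exponent for all `k ≥ 1`: `q' = q_k + 4 / k²`    (`q_{k-1} - q_k = 4/(k(k-1)) ≥ 4/k²`).
-/

set_option autoImplicit false

namespace Claimed.Agent.R257.Tree

open Claimed.Agent.R257 Claimed.Agent.R257.FR2
open scoped BigOperators Classical BoundedContinuousFunction InnerProductSpace

noncomputable section

variable {k : ℕ} {c : TCls k}

/-- one admissible lower dimensional exponent -/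
def tia_qa (k : ℕ) : ℝ := qk k + 4 / (k : ℝ) ^ 2

theorem tia_qa_gt (hk : 1 ≤ k) : qk k < tia_qa k := by
  have : (0 : ℝ) < k := by exact_mod_cast hk
  unfold tia_qa
  have : 0 < 4 / (k : ℝ) ^ 2 := by positivity
  linarith

theorem tia_qa_le (hk : 1 ≤ k) : tia_qa k * ((k : ℝ) - 1) ≤ 2 * ((k : ℝ) + 1) := by
  have h0 : (0 : ℝ) < k := by exact_mod_cast hk
  unfold tia_qa qk
  have e : (2 * ((k : ℝ) + 2) / k + 4 / (k : ℝ) ^ 2) * ((k : ℝ) - 1) = 2 * ((k : ℝ) + 1) - 4 / (k : ℝ) ^ 2 := by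
    field_simp
    ring
  rw [e]
  have : 0 < 4 / (k : ℝ) ^ 2 := by positivity
  linarith

/-- **EXIT of ANG-INST** -/
theorem tia_main (hc : c.Ok) {Ew Q2 Cs q' ε : ℝ} (hE : (k : ℝ) + 1 < Ew) (hQ0 : 0 ≤ Q2) (hQC : Q2 + k + 2 ≤ c.C0) (hQM : Q2 ≤ c.M) (hq' : qk k < q')
    (hq'' : q' * ((k : ℝ) - 1) ≤ 2 * ((k : ℝ) + 1)) (hε : 0 < ε) :
    ∃ C : ℝ, 1 ≤ C ∧ ∀ C' : ℝ, C ≤ C' → ∀ D : TDat c, D.Good → ∀ I : TAIn D, I.Ew = Ew → I.Q2 = Q2 → I.Cs = Cs → I.Ok →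
      (∀ p : TPar, p.q = qk k → (D.ang I).Ok p (D.ap C' ε q')) ∧ (D.ang I).Var (D.kv I C') := by
  have hk0 : (0 : ℝ) < k := by exact_mod_cast hc.k_pos
  have hq2 : 2 < qk k := ti_qk_gt hc.k_pos
  have hM : (k : ℝ) + 1 < c.M := by
    have := hc.M_gt; have := hc.P_gt; have := hc.P_lt
    linarith
  have hqk : qk k * (k : ℝ) ≤ 2 * ((k : ℝ) + 2) := by
    unfold qk
    rw [div_mul_cancel₀ _ hk0.ne']
  obtain ⟨C1, hC1, H1⟩ := tia_ok hc (Cs := Cs) hE hQ0 hQC hq' (pkw_wtAt hq2.le hqk hQ0 hQM hM) (pkw_wtPl (hq2.trans hq').le hq'' hQ0 hQM hM) hε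
  obtain ⟨C2, hC2, H2⟩ := tia_var hc
  refine ⟨C1 + C2, by linarith, fun C' hC' D hD I h1 h2 h3 hI => ⟨fun p hp => H1 C' (by linarith) D hD I h1 h2 h3 hI p hp, H2 C' (by linarith) D hD I hI.lam_le ?_⟩⟩
  have hCc : 0 ≤ c.Cc := by linarith [hc.one_le_Cc]
  have h4 : 0 < (1 + 2 * c.ℓ * c.Cc) * (D.κ I.bot / D.κ I.lam) ^ 2 := by
    have := div_pos (D.κ_pos hD I.bot) (D.κ_pos hD I.lam)
    positivity
  exact lt_of_lt_of_le h4 hI.Sd_ge

end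

end Claimed.Agent.R257.Tree
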