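import Claimed.Agent.R257.Tree.Defs

/-!
# ROW 257, unit INST / GRID: NESTED WINDOWS (definition)      (helper162)

NOTHING is sorried in this file (one definition).
In the paper the native lattices of the cells are infinite; the finite windows `D.W i` are an artefact of the formalisation.   `TDat.Good.win` says that the windows are large SEEN FROM THE WITNESSES.
The lower bound "reference weight of a cell `≳` background of its cap" (H `frame.tex` l.1183, `fi_bg_low` of `FR3/InflTree.lean`, hypothesis `FiFull` of `fi_blk_cnt`) needs that they are large SEEN FROM THE CELLS OF THE COARSER WINDOWS: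
* `D.Full`   for every cell `T` of a window of height `i ≤ ℓ` and every label `v` of a finer height `h < i`, `h ≠ 0`, `h ≠ tr`, the window of height `h` contains a cell with the label `v` within `k + 1` of the centre of `T`.
PRODUCER: `Tree/Full.lean` (`ti_exists_gsp_full`: the windows of GRID are free, they are chosen from the top height downwards).
-/

set_option autoImplicit false

namespace Claimed.Agent.R257.Tree

open Claimed.Agent.R257 Claimed.Agent.R257.FR2

noncomputable section

variable {k : ℕ} {c : TCls k}

/-- **nested windows** -/
def TDat.Full (D : TDat c) : Prop :=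
  ∀ i, i ≤ c.ℓ → ∀ h, h < i → h ≠ 0 → h ≠ c.tr → ∀ T ∈ D.W i, ∀ v : D.Lb h, ∃ m : Lat k, (v, m) ∈ D.W h ∧ ‖D.X h (v, m) (D.ctr i T)‖ ≤ (k : ℝ) + 1

end

end Claimed.Agent.R257.Tree
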