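import Claimed.Agent.R257.Tree.AngG
import Claimed.Agent.R257.FR2.AngExit

/-!
# ROW 257, unit ANG-INST, file 5: `TAng.Var` FOR THE CONCRETE SYSTEM      (helper94)

No sorry.   `tiv_var`: the leaf kernels of the descendants of a `lam`-cap vary by `Kv = C (1 + δ)^Q (1 + G tr)^(2Q)` over (the enlargement of) a macro box (H `frame.tex` l.1038-1043).
HYPOTHESES ("the endpoint is separated by `Cu`", "`l` is away from the transition seam"):   with `Δ = 2 G lam + 2 (k + 1) Sd` (native diameter of an enlarged macro box)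
* `(1 + 4 ℓ Cc) Δ κ_lam ≤ δ κ_0`;
* if `0 < tr ≤ lam`:  `(1 + 4 ℓ Cc) Δ κ_lam ≤ δ κ_tr`       (the kernel is compared termwise through the retained masks);
* if `lam < tr` nothing more: the mask of the incidence relation gives the lower bound (`ti_ker_two`), cost `(1 + G tr)^(2Q)`.
-/

set_option autoImplicit false

namespace Claimed.Agent.R257.Tree

open Claimed.Agent.R257 Claimed.Agent.R257.FR2
open scoped BigOperators Classical BoundedContinuousFunction InnerProductSpace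

noncomputable section

variable {k : ℕ} {c : TCls k}

/-- child native coordinates contract parent native coordinates by the ratio of the scales (up to the bounded shear) -/
theorem tiv_lip {κ κ' B : ℝ} {v v' : E k} (hκ : 0 < κ) (hκκ : κ ≤ κ') (hv : ‖v' - v‖ ≤ B / κ) (y : ST k) :
    ‖natX κ' v' y‖ ≤ κ / κ' * (1 + 2 * B) * ‖natX κ v y‖ := by
  have hκ'0 : 0 < κ' := by linarith
  have hr0 : 0 < κ / κ' := div_pos hκ hκ'0
  have hr1 : κ / κ' ≤ 1 := (div_le_one hκ'0).2 hκκ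
  have hwn : ‖(2 * κ) • (v - v')‖ ≤ 2 * B := by
    rw [norm_smul, Real.norm_of_nonneg (by positivity), norm_sub_rev]
    calc 2 * κ * ‖v' - v‖ ≤ 2 * κ * (B / κ) := mul_le_mul_of_nonneg_left hv (by positivity)
      _ = 2 * B := by field_simp
  have h1 : natX κ' v' y = tgB (κ / κ') ((2 * κ) • (v - v')) (natX κ v y) := by
    rw [← tg_transfer hκ'0.ne' v v', natI_natX hκ.ne']
  rw [h1]
  refine (tg_B_norm hr0.le hr1 _ _).trans ?_
  refine mul_le_mul_of_nonneg_right (mul_le_mul_of_nonneg_left (by linarith) hr0.le) (norm_nonneg _)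

/-- Peetre: a displacement of native size `≤ δ` changes the weight by `(1 + δ)^A` -/
theorem tiv_peetre (D : TDat c) {A δ : ℝ} (hA : 0 ≤ A) (hδ : 0 ≤ δ) (i : ℕ) (T : D.Lb i × Lat k) (z z' : ST k)
    (h : ‖natX (D.κ i) (D.fr i T.1) (z - z')‖ ≤ δ) : D.wA A i T z ≤ (1 + δ) ^ A * D.wA A i T z' := by
  have h1 : ‖D.X i T z'‖ ≤ ‖D.X i T z‖ + δ := by
    have e : D.X i T z' = D.X i T z - natX (D.κ i) (D.fr i T.1) (z - z') := by
      rw [← tg_X_sub]; abel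
    rw [e]
    exact (norm_sub_le _ _).trans (by linarith)
  have h2 : (1 + ‖D.X i T z'‖) / (1 + δ) ≤ 1 + ‖D.X i T z‖ := by
    rw [div_le_iff₀ (by positivity)]
    nlinarith [norm_nonneg (D.X i T z)]
  have h3 : (1 + ‖D.X i T z‖) ^ (-A) ≤ ((1 + ‖D.X i T z'‖) / (1 + δ)) ^ (-A) :=
    Real.rpow_le_rpow_of_nonpos (by positivity) h2 (by linarith)
  refine h3.trans (le_of_eq ?_)
  unfold TDat.wA
  rw [Real.div_rpow (by positivity) (by positivity), Real.rpow_neg (by positivity : (0:ℝ) ≤ 1 + δ), div_inv_eq_mul, mul_comm]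

/-- the lattice points of two cells of one macro box -/
theorem tiv_box {Sd : ℝ} (hS : 0 < Sd) {m m' : Lat k} (h : flo (Sd⁻¹ • lat m) = flo (Sd⁻¹ • lat m')) : ‖lat m - lat m'‖ ≤ 2 * ((k : ℝ) + 1) * Sd := by
  have a1 := ti_flo_near (Sd⁻¹ • lat m)
  have a2 := ti_flo_near (Sd⁻¹ • lat m')
  rw [h] at a1
  have h1 : ‖Sd⁻¹ • lat m - Sd⁻¹ • lat m'‖ ≤ 2 * ((k : ℝ) + 1) := by
    have := norm_sub_le (Sd⁻¹ • lat m - lat (flo (Sd⁻¹ • lat m'))) (Sd⁻¹ • lat m' - lat (flo (Sd⁻¹ • lat m')))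
    rw [sub_sub_sub_cancel_right] at this
    linarith
  rw [← smul_sub, norm_smul, Real.norm_of_nonneg (inv_pos.2 hS).le, inv_mul_le_iff₀ hS] at h1
  linarith

/-- the native diameter of an enlarged macro box -/
theorem tiv_diam (D : TDat c) {Sd : ℝ} (hS : 0 < Sd) (i : ℕ) {T T' : D.Lb i × Lat k} (h1 : T.1 = T'.1) (h2 : flo (Sd⁻¹ • lat T.2) = flo (Sd⁻¹ • lat T'.2))
    {z z' : ST k} (hz : ‖D.X i T z‖ ≤ D.G i) (hz' : ‖D.X i T' z'‖ ≤ D.G i) :
    ‖natX (D.κ i) (D.fr i T.1) (z - z')‖ ≤ 2 * D.G i + 2 * ((k : ℝ) + 1) * Sd := by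
  have e : natX (D.κ i) (D.fr i T.1) (z - z') = D.X i T z - D.X i T' z' + (lat T.2 - lat T'.2) := by
    unfold TDat.X
    rw [natX_sub, ← h1]
    abel
  rw [e]
  refine (norm_add_le _ _).trans (add_le_add ((norm_sub_le _ _).trans (by linarith)) (tiv_box hS h2))

/-- the side of the macro boxes is positive -/
theorem tiv_Sd_pos (hc : c.Ok) (D : TDat c) (hD : D.Good) (I : TAIn D) (hI : I.Ok) : 0 < I.Sd := by
  have h1 := D.one_le_ratio hD hI.bot_le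
  have h2 : (0 : ℝ) ≤ 2 * c.ℓ * c.Cc := by
    have := hc.one_le_Cc
    positivity
  have h3 : 1 ≤ (D.κ I.bot / D.κ I.lam) ^ 2 := one_le_pow₀ h1
  have := hI.Sd_ge
  nlinarith

/-- two ancestors of one leaf label -/
theorem tiv_anc_anc (hc : c.Ok) (D : TDat c) (hD : D.Good) {i j : ℕ} (hij : i ≤ j) (hj : j ≤ c.ℓ) (ω : D.Lb 0) :
    ‖D.fr i (D.anc i ω) - D.fr j (D.anc j ω)‖ ≤ 2 * (c.ℓ * c.Cc) / D.κ j := by
  have h1 := ti_anc_near hc D hD i (hij.trans hj) ω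
  have h2 := ti_anc_near hc D hD j hj ω
  have hB : 0 ≤ (c.ℓ : ℝ) * c.Cc := mul_nonneg (Nat.cast_nonneg _) (by linarith [hc.one_le_Cc])
  have h3 : (c.ℓ : ℝ) * c.Cc / D.κ i ≤ c.ℓ * c.Cc / D.κ j := div_le_div_of_nonneg_left hB (D.κ_pos hD j) (D.κ_le hD hij)
  have e : D.fr i (D.anc i ω) - D.fr j (D.anc j ω) = (D.fr 0 ω - D.fr j (D.anc j ω)) - (D.fr 0 ω - D.fr i (D.anc i ω)) := by abel
  rw [e]
  refine (norm_sub_le _ _).trans ?_
  have : 2 * ((c.ℓ : ℝ) * c.Cc) / D.κ j = c.ℓ * c.Cc / D.κ j + c.ℓ * c.Cc / D.κ j := by ring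
  linarith

/-- the displacement seen in the native coordinates of a lower ancestor -/
theorem tiv_disp (hc : c.Ok) (D : TDat c) (hD : D.Good) {i j : ℕ} (hij : i ≤ j) (hj : j ≤ c.ℓ) (ω : D.Lb 0) (y : ST k) {Δ δ : ℝ}
    (hy : ‖natX (D.κ j) (D.fr j (D.anc j ω)) y‖ ≤ Δ) (h : (1 + 4 * c.ℓ * c.Cc) * Δ * D.κ j ≤ δ * D.κ i) :
    ‖natX (D.κ i) (D.fr i (D.anc i ω)) y‖ ≤ δ := by
  have hκi := D.κ_pos hD i
  have hκj := D.κ_pos hD j
  have hB : 0 ≤ (c.ℓ : ℝ) * c.Cc := mul_nonneg (Nat.cast_nonneg _) (by linarith [hc.one_le_Cc])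
  have h1 := tiv_lip hκj (D.κ_le hD hij) (tiv_anc_anc hc D hD hij hj ω) y
  refine h1.trans ?_
  have h2 : D.κ j / D.κ i * (1 + 2 * (2 * (c.ℓ * c.Cc))) * ‖natX (D.κ j) (D.fr j (D.anc j ω)) y‖
      ≤ D.κ j / D.κ i * (1 + 2 * (2 * (c.ℓ * c.Cc))) * Δ :=
    mul_le_mul_of_nonneg_left hy (mul_nonneg (div_pos hκj hκi).le (by linarith))
  refine h2.trans ?_
  rw [div_mul_eq_mul_div, div_mul_eq_mul_div, div_le_iff₀ hκi]
  linarith

/-- **`TAng.Var` for the concrete system** -/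
theorem tiv_var (hc : c.Ok) : ∃ C : ℝ, 1 ≤ C ∧ ∀ D : TDat c, D.Good → ∀ I : TAIn D, I.Ok → ∀ δ : ℝ, 0 ≤ δ →
    (1 + 4 * c.ℓ * c.Cc) * (2 * D.G I.lam + 2 * ((k : ℝ) + 1) * I.Sd) * D.κ I.lam ≤ δ * D.κ 0 →
    (0 < c.tr → c.tr ≤ I.lam → (1 + 4 * c.ℓ * c.Cc) * (2 * D.G I.lam + 2 * ((k : ℝ) + 1) * I.Sd) * D.κ I.lam ≤ δ * D.κ c.tr) →
    (D.ang I).Var (C * (1 + δ) ^ c.Q * (1 + D.G c.tr) ^ (2 * c.Q)) := by
  have hk : (0 : ℝ) ≤ k := Nat.cast_nonneg k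
  have hQ0 : 0 ≤ c.Q := by linarith [hc.P_gt, hc.P_lt]
  obtain ⟨C, hC, H⟩ := ti_ker_two hc
  refine ⟨C * C, by nlinarith, fun D hD I hI δ hδ h0 h1 => ?_⟩
  have hS := tiv_Sd_pos hc D hD I hI
  have hGtr : 1 ≤ D.G c.tr := hD.one_le_G c.tr hc.tr_le
  have hd1 : 1 ≤ (1 + δ) ^ c.Q := Real.one_le_rpow (by linarith) hQ0
  have hg1 : 1 ≤ (1 + D.G c.tr) ^ (2 * c.Q) := Real.one_le_rpow (by linarith) (by linarith)
  have hCC : 1 ≤ C * C := by nlinarith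
  have hK1 : (1 + δ) ^ c.Q ≤ C * C * (1 + δ) ^ c.Q * (1 + D.G c.tr) ^ (2 * c.Q) := by
    have : (1 + δ) ^ c.Q ≤ C * C * (1 + δ) ^ c.Q := by nlinarith
    nlinarith
  have key : ∀ (T T' : D.Cl I.lam) (z z' : ST k), T.1.1 = T'.1.1 → flo (I.Sd⁻¹ • lat T.1.2) = flo (I.Sd⁻¹ • lat T'.1.2) →
      D.near I.lam z T.1 → D.near I.lam z' T'.1 → ∀ γ : D.Cl 0, D.anc I.lam γ.1.1 = T.1.1 →
      D.ker c.Q 0 γ.1 z ≤ C * C * (1 + δ) ^ c.Q * (1 + D.G c.tr) ^ (2 * c.Q) * D.ker c.Q 0 γ.1 z' := by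
    intro T T' z z' e1 e2 hz hz' γ hγ
    have hdiam := tiv_diam D hS I.lam e1 e2 hz.1 hz'.1
    rw [← hγ] at hdiam
    have hleaf : D.wA c.Q 0 γ.1 z ≤ (1 + δ) ^ c.Q * D.wA c.Q 0 γ.1 z' :=
      tiv_peetre D hQ0 hδ 0 γ.1 z z' (tiv_disp hc D hD (Nat.zero_le _) hI.lam_le γ.1.1 (z - z') hdiam h0)
    by_cases htr : 0 < c.tr
    · by_cases hl : c.tr ≤ I.lam
      · -- termwise through the retained masks
        have hker := D.ker_nonneg c.Q 0 γ.1 z'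
        refine le_trans ?_ (mul_le_mul_of_nonneg_right hK1 hker)
        rw [tg_ker_lt D c.Q htr, tg_ker_lt D c.Q htr, tgK2, tgK2, Finset.mul_sum]
        refine Finset.sum_le_sum fun S _ => ?_
        split_ifs with hb
        · have eS : S.1 = D.anc c.tr γ.1.1 := hD.bin_inj (by rw [hb, ti_anc_bin D hD c.tr le_rfl])
          have hd := tiv_disp hc D hD hl hI.lam_le γ.1.1 (z - z') hdiam (h1 htr hl)
          rw [← eS] at hd
          have := tiv_peetre D hQ0 hδ c.tr S z z' hd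
          calc D.wA c.Q c.tr S z * D.wA c.Q 0 γ.1 (D.ctr c.tr S)
              ≤ ((1 + δ) ^ c.Q * D.wA c.Q c.tr S z') * D.wA c.Q 0 γ.1 (D.ctr c.tr S) :=
                mul_le_mul_of_nonneg_right this (D.wA_pos _ _ _ _).le
            _ = _ := by ring
        · simp
      · -- the mask of the incidence relation
        have hl' : I.lam < c.tr := not_le.1 hl
        obtain ⟨S, hS, hb, hn⟩ := hz'.2 hl'
        have hb' : D.bin c.tr S.1 = D.bin 0 γ.1.1 := by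
          rw [hb, ← e1, ← hγ, ti_anc_bin D hD I.lam hl'.le]
        have a1 := (H D hD htr γ.1 z).1
        have a2 := (H D hD htr γ.1 z').2 S hS hb'
        have a3 : (1 + ‖D.X c.tr S z'‖) ^ (2 * c.Q) ≤ (1 + D.G c.tr) ^ (2 * c.Q) :=
          Real.rpow_le_rpow (by positivity) (by linarith) (by linarith)
        have hker := D.ker_nonneg c.Q 0 γ.1 z'
        calc D.ker c.Q 0 γ.1 z ≤ C * D.wA c.Q 0 γ.1 z := a1
          _ ≤ C * ((1 + δ) ^ c.Q * D.wA c.Q 0 γ.1 z') := mul_le_mul_of_nonneg_left hleaf (by linarith)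
          _ ≤ C * ((1 + δ) ^ c.Q * (C * (1 + ‖D.X c.tr S z'‖) ^ (2 * c.Q) * D.ker c.Q 0 γ.1 z')) :=
              mul_le_mul_of_nonneg_left (mul_le_mul_of_nonneg_left a2 (by linarith)) (by linarith)
          _ ≤ C * ((1 + δ) ^ c.Q * (C * (1 + D.G c.tr) ^ (2 * c.Q) * D.ker c.Q 0 γ.1 z')) := by
              refine mul_le_mul_of_nonneg_left (mul_le_mul_of_nonneg_left (mul_le_mul_of_nonneg_right (mul_le_mul_of_nonneg_left a3 ?_) hker) ?_) ?_ <;> linarith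
          _ = _ := by ring
    · rw [tg_ker_ge D c.Q htr, tg_ker_ge D c.Q htr]
      exact hleaf.trans (mul_le_mul_of_nonneg_right hK1 (D.wA_pos _ _ _ _).le)
  refine ⟨by nlinarith, ?_⟩
  intro T T' z z' hB hz hz' γ hγ
  have hB' : D.bx0 I.lam I.Sd T = D.bx0 I.lam I.Sd T' := congrArg Subtype.val hB
  unfold TDat.bx0 at hB'
  have e1 : T.1.1 = T'.1.1 := (Prod.mk.inj hB').1
  have e2 : flo (I.Sd⁻¹ • lat T.1.2) = flo (I.Sd⁻¹ • lat T'.1.2) := (Prod.mk.inj hB').2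
  exact key T T' (D.pt z) (D.pt z') e1 e2 hz hz' γ hγ

end

end Claimed.Agent.R257.Tree
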