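import Claimed.Agent.R257.Tree.GridDefs

/-!
# ROW 257, unit INST / GRID, file 2: THE REFINED TREE IS GOOD; THE REFINED CONFIGURATION KEEPS ALL THE PROPERTIES OF FR1      (architect helper155)          CONTRACT

PAPER-FREE (finite sets, rounding, lattice points, one `HasSum`).   Definitions: `Tree/GridDefs.lean` (READ ITS HEADER).     Every `sorry` is a leaf `L-257-GR-*` (name in the docstring); the glue is proved here.
EXITS:  `ti_grid_good` (`Good` of `D.grid ℓ tr Cm s`, for all `Cm ≥ Cm₀(k, Cc, Cm_old)`: the constants do NOT depend on the grid),  `ti_exists_win` (the windows exist),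
        `ti_grid_gok`, `ti_grid_pow`, `ti_grid_sub` (`NCfg.Ok/Pow/Sub` of FR1  ⟹  `GOk/GPow/GSub` of the refined configuration),  `ti_transv_pert`, `ti_gok_trans` (transversality of the labels of ALL heights `j` with `2 K Cc ≤ κ_j`).
NOTATION in the plans: `D' = D.grid ℓ tr Cm s`, `κ = s.κ`.     DEFINITIONAL UNFOLDINGS (all by `rfl`):  `D'.κ = s.κ`, `D'.fr j x = D.gfr tr κ j x.1`, `(D'.par j x).1 = D.gpar ℓ tr κ j x.1`, `D'.bin j x = D.gbin x.1`, `D'.W = D.gW ℓ tr κ s.Wn`,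
`(c.gr ℓ tr Cm).tr = tr`, `.ℓ = ℓ`, `.Cc = c.Cc + k`, `.P = c.P`, `.χ = c.χ`, `.ρ 0 = c.ρ 0`;   `D'.X j T z = natX (κ j) (D.gfr tr κ j T.1.1) z - lat T.2`.
-/

set_option autoImplicit false

namespace Claimed.Agent.R257.Tree

open Claimed.Agent.R257 Claimed.Agent.R257.FR2 Claimed.Agent.R257.FR1
open scoped BigOperators Classical BoundedContinuousFunction

noncomputable section

variable {k : ℕ} {c : TCls k}

/-! ## A. rounding, the form of the labels, distances -/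

/-- **LEAF L-257-GR-A1.**  Rounding error.   (`abs_sub_round`; `‖x‖ ≤ ∑ |x j|`: as in `ti_flo_near`, `ti_lat_near`.) -/
theorem ti_rnd_near (x : E k) : ‖x - latE (rnd x)‖ ≤ (k : ℝ) / 2 := by
  rw [EuclideanSpace.norm_eq]
  refine Real.sqrt_le_iff.2 ⟨by positivity, ?_⟩
  have h1 : ∀ i : Fin k, ‖(x - latE (rnd x)) i‖ ^ 2 ≤ 1 / 4 := by
    intro i
    have h2 : (x - latE (rnd x)) i = x i - (round (x i) : ℝ) := rfl
    rw [h2, Real.norm_eq_abs]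
    have h3 := abs_sub_round (x i)
    have h4 := abs_nonneg (x i - (round (x i) : ℝ))
    nlinarith
  calc ∑ i : Fin k, ‖(x - latE (rnd x)) i‖ ^ 2 ≤ ∑ _i : Fin k, (1 / 4 : ℝ) := Finset.sum_le_sum fun i _ => h1 i
    _ = (k : ℝ) * (1 / 4) := by simp
    _ ≤ ((k : ℝ) / 2) ^ 2 := by
      rcases Nat.eq_zero_or_pos k with rfl | hk
      · simp
      · have : (1 : ℝ) ≤ k := by exact_mod_cast hk
        nlinarith

/-- **LEAF L-257-GR-A2.**  One rounding step at the scale `κ`.   (`f - κ⁻¹ • y = κ⁻¹ • (κ • f - y)`, `norm_smul`, A1.) -/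
theorem ti_rnd_step {κ : ℝ} (hκ : 0 < κ) (f : E k) : ‖f - κ⁻¹ • latE (rnd (κ • f))‖ ≤ (k : ℝ) / 2 / κ := by
  have h1 : f - κ⁻¹ • latE (rnd (κ • f)) = κ⁻¹ • (κ • f - latE (rnd (κ • f))) := by
    rw [smul_sub, smul_smul, inv_mul_cancel₀ hκ.ne', one_smul]
  rw [h1, norm_smul, Real.norm_eq_abs, abs_of_pos (inv_pos.2 hκ), div_eq_inv_mul]
  exact mul_le_mul_of_nonneg_left (ti_rnd_near _) (inv_pos.2 hκ).le

/-- **LEAF L-257-GR-A3.**  The labels are the assigned ancestors of the leaf labels which occur.   (Induction on `j`; `Finset.mem_image`.) -/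
theorem ti_gS_iff (D : TDat c) (ℓ tr : ℕ) (κ : ℕ → ℝ) (j : ℕ) (x : D.GLab) :
    x ∈ D.gS ℓ tr κ j ↔ ∃ T ∈ D.W 0, x = D.ganc ℓ tr κ j (Sum.inl T.1) := by
  induction j generalizing x with
  | zero =>
    simp only [TDat.gS, TDat.ganc, Finset.mem_image, id]
    exact ⟨fun ⟨T, hT, h⟩ => ⟨T, hT, h.symm⟩, fun ⟨T, hT, h⟩ => ⟨T, hT, h.symm⟩⟩
  | succ j ih =>
    simp only [TDat.gS, TDat.ganc, Finset.mem_image]
    constructor
    · rintro ⟨y, hy, rfl⟩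
      obtain ⟨T, hT, rfl⟩ := (ih y).1 hy
      exact ⟨T, hT, rfl⟩
    · rintro ⟨T, hT, rfl⟩
      exact ⟨_, (ih _).2 ⟨T, hT, rfl⟩, rfl⟩

/-- **LEAF L-257-GR-A4.**  Above the height `ℓ` everything is frozen.   (Induction on `j ≥ ℓ`: `Nat.le_induction`; `gpar = id`.) -/
theorem ti_ganc_top (D : TDat c) (ℓ tr : ℕ) (κ : ℕ → ℝ) {j : ℕ} (h : ℓ ≤ j) (x : D.GLab) : D.ganc ℓ tr κ j x = D.ganc ℓ tr κ ℓ x := by
  induction j, h using Nat.le_induction with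
  | base => rfl
  | succ j hj ih =>
    show D.gpar ℓ tr κ j (D.ganc ℓ tr κ j x) = _
    unfold TDat.gpar
    rw [if_pos hj, ih]

/-- **LEAF L-257-GR-A5.**  (Cases on `x`.) -/
theorem ti_gfr_top (D : TDat c) {ℓ tr : ℕ} (κ : ℕ → ℝ) (htr : tr ≤ ℓ) {j : ℕ} (h : ℓ ≤ j) (hκ : κ j = κ ℓ) (x : D.GLab) : D.gfr tr κ j x = D.gfr tr κ ℓ x := by
  rcases x with v | ⟨_ | b, n⟩
  · rfl
  · show (κ j)⁻¹ • latE n = (κ ℓ)⁻¹ • latE n
    rw [hκ]
  · show (if tr ≤ j then D.fr 1 b else (κ j)⁻¹ • latE n) = (if tr ≤ ℓ then D.fr 1 b else (κ ℓ)⁻¹ • latE n)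
    rw [if_pos (htr.trans h), if_pos htr]

/-- **LEAF L-257-GR-A6.**  The bin is kept up to the height `tr`.   (Induction on `j`; unfold `gpar`: `j < ℓ`, `j + 1 < tr` or `j + 1 = tr`.) -/
theorem ti_ganc_bin (D : TDat c) {ℓ tr : ℕ} (κ : ℕ → ℝ) (htr : tr ≤ ℓ) {j : ℕ} (h : j ≤ tr) (v : D.Lb 0) : D.gbin (D.ganc ℓ tr κ j (Sum.inl v)) = some (D.par 0 v) := by
  induction j with
  | zero => rfl
  | succ j ih =>
    have ih' := ih (by omega)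
    show D.gbin (D.gpar ℓ tr κ j (D.ganc ℓ tr κ j (Sum.inl v))) = _
    unfold TDat.gpar
    rw [if_neg (by omega)]
    by_cases h1 : j + 1 < tr
    · rw [if_pos h1]
      exact ih'
    · rw [if_neg h1, if_pos (by omega)]
      exact ih'

/-- **LEAF L-257-GR-A7.**  Form of the labels strictly between the heights `0` and `tr`.   (`j = j' + 1`; A6 at `j'`.) -/
theorem ti_ganc_low (D : TDat c) {ℓ tr : ℕ} (κ : ℕ → ℝ) (htr : tr ≤ ℓ) {j : ℕ} (h0 : 0 < j) (h1 : j < tr) (v : D.Lb 0) :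
    ∃ n, D.ganc ℓ tr κ j (Sum.inl v) = Sum.inr (some (D.par 0 v), n) := by
  obtain ⟨j', rfl⟩ : ∃ j', j = j' + 1 := ⟨j - 1, by omega⟩
  have h2 := ti_ganc_bin D (ℓ := ℓ) κ htr (j := j') (by omega) v
  refine ⟨rnd (κ (j' + 1) • D.gfr tr κ j' (D.ganc ℓ tr κ j' (Sum.inl v))), ?_⟩
  show D.gpar ℓ tr κ j' (D.ganc ℓ tr κ j' (Sum.inl v)) = _
  unfold TDat.gpar
  rw [if_neg (by omega), if_pos h1, h2]

/-- **LEAF L-257-GR-A8.**  Form of the labels of the height `tr`.   (`tr = j' + 1`; A6 at `j'`.) -/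
theorem ti_ganc_tr (D : TDat c) {ℓ tr : ℕ} (κ : ℕ → ℝ) (h1 : 1 ≤ tr) (htr : tr ≤ ℓ) (v : D.Lb 0) :
    D.ganc ℓ tr κ tr (Sum.inl v) = Sum.inr (some (D.par 0 v), 0) := by
  obtain ⟨j', rfl⟩ : ∃ j', tr = j' + 1 := ⟨tr - 1, by omega⟩
  have h2 := ti_ganc_bin D (ℓ := ℓ) κ htr (j := j') (by omega) v
  show D.gpar ℓ (j' + 1) κ j' (D.ganc ℓ (j' + 1) κ j' (Sum.inl v)) = _
  unfold TDat.gpar
  rw [if_neg (by omega), if_neg (lt_irrefl _), if_pos rfl, h2]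

/-- **LEAF L-257-GR-A9.**  Form of the labels above the height `tr`.   (`j ≤ ℓ`: `j = j' + 1`, `j' < ℓ`, `tr < j' + 1`.) -/
theorem ti_ganc_high (D : TDat c) {ℓ tr : ℕ} (κ : ℕ → ℝ) {j : ℕ} (h1 : tr < j) (h2 : j ≤ ℓ) (x : D.GLab) :
    ∃ n, D.ganc ℓ tr κ j x = Sum.inr (none, n) := by
  obtain ⟨j', rfl⟩ : ∃ j', j = j' + 1 := ⟨j - 1, by omega⟩
  show ∃ n, D.gpar ℓ tr κ j' (D.ganc ℓ tr κ j' x) = Sum.inr (none, n)
  unfold TDat.gpar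
  rw [if_neg (by omega), if_neg (by omega), if_neg (by omega)]
  exact ⟨_, rfl⟩

/-- (A10) one step below `tr` -/
theorem ti_ganc_near_low_step (D : TDat c) {ℓ tr : ℕ} (κ : ℕ → ℝ) (htr : tr ≤ ℓ) {j : ℕ} (h : j + 1 < tr) (v : D.Lb 0) :
    D.gfr tr κ (j + 1) (D.ganc ℓ tr κ (j + 1) (Sum.inl v))
      = (κ (j + 1))⁻¹ • latE (rnd (κ (j + 1) • D.gfr tr κ j (D.ganc ℓ tr κ j (Sum.inl v)))) := by
  show D.gfr tr κ (j + 1) (D.gpar ℓ tr κ j (D.ganc ℓ tr κ j (Sum.inl v))) = _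
  unfold TDat.gpar
  rw [if_neg (by omega), if_pos h, ti_ganc_bin D κ htr (by omega) v]
  show (if tr ≤ j + 1 then _ else _) = _
  rw [if_neg (by omega)]

/-- (A11) one step above `tr` -/
theorem ti_ganc_near_high_step (D : TDat c) {ℓ tr : ℕ} (κ : ℕ → ℝ) {j : ℕ} (h : tr < j + 1) (h2 : j + 1 ≤ ℓ) (x : D.GLab) :
    D.gfr tr κ (j + 1) (D.ganc ℓ tr κ (j + 1) x)
      = (κ (j + 1))⁻¹ • latE (rnd (κ (j + 1) • D.gfr tr κ j (D.ganc ℓ tr κ j x))) := by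
  show D.gfr tr κ (j + 1) (D.gpar ℓ tr κ j (D.ganc ℓ tr κ j x)) = _
  unfold TDat.gpar
  rw [if_neg (by omega), if_neg (by omega), if_neg (by omega)]
  rfl

/-- (A10, A11) the arithmetic of one lacunary step -/
theorem ti_ganc_near_arith {k : ℕ} {a b : ℝ} (hb : 0 < b) (h : 2 * b ≤ a) : (k : ℝ) / a + (k : ℝ) / 2 / b ≤ (k : ℝ) / b := by
  have ha : 0 < a := by linarith
  have hk : (0 : ℝ) ≤ k := Nat.cast_nonneg k
  have h1 : (k : ℝ) / a ≤ (k : ℝ) / (2 * b) := div_le_div_of_nonneg_left hk (by positivity) h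
  have h2 : (k : ℝ) / (2 * b) + (k : ℝ) / 2 / b = (k : ℝ) / b := by
    field_simp
    ring
  linarith

variable {D : TDat c} {ℓ tr : ℕ} {s : GSp k}

/-- **LEAF L-257-GR-A10.**  Below `tr`: the rounding errors add up to `k / κ_j`.
PLAN: induction on `j ≥ 1`.   `j = 1`: A2 (`gfr 0 (inl v) = fr 0 v`; `gfr 1 (inr (some b, n)) = (κ 1)⁻¹ • latE n` as `¬ tr ≤ 1`).   Step `j → j + 1 < tr`: A2 gives `k/2/κ_{j+1}`; `k/κ_j ≤ k/2/κ_{j+1}` by `hs.lac j` (`j ≠ 0`, `j ≠ tr`, `j + 1 ≠ tr`, `j + 1 ≤ ℓ`). -/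
theorem ti_ganc_near_low (hs : s.Ok D ℓ tr) {j : ℕ} (h0 : 0 < j) (h1 : j < tr) (v : D.Lb 0) :
    ‖D.fr 0 v - D.gfr tr s.κ j (D.ganc ℓ tr s.κ j (Sum.inl v))‖ ≤ (k : ℝ) / s.κ j := by
  have hκ0 : ∀ i, 0 < s.κ i := fun i => lt_of_lt_of_le one_pos (hs.one_le_κ i)
  have hk : (0 : ℝ) ≤ k := Nat.cast_nonneg k
  induction j, h0 using Nat.le_induction with
  | base =>
    rw [ti_ganc_near_low_step D s.κ hs.tr_le h1 v]
    refine (ti_rnd_step (hκ0 _) _).trans ?_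
    exact div_le_div_of_nonneg_right (by linarith) (hκ0 _).le
  | succ j hj ih =>
    have ih' := ih (by omega)
    rw [ti_ganc_near_low_step D s.κ hs.tr_le h1 v]
    have h2 := ti_rnd_step (hκ0 (j + 1)) (D.gfr tr s.κ j (D.ganc ℓ tr s.κ j (Sum.inl v)))
    have h3 := hs.lac j (by have := hs.tr_le; omega) (by omega) (by omega) (by omega)
    calc ‖D.fr 0 v - (s.κ (j + 1))⁻¹ • latE (rnd (s.κ (j + 1) • D.gfr tr s.κ j (D.ganc ℓ tr s.κ j (Sum.inl v))))‖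
        ≤ ‖D.fr 0 v - D.gfr tr s.κ j (D.ganc ℓ tr s.κ j (Sum.inl v))‖
          + ‖D.gfr tr s.κ j (D.ganc ℓ tr s.κ j (Sum.inl v)) - (s.κ (j + 1))⁻¹ • latE (rnd (s.κ (j + 1) • D.gfr tr s.κ j (D.ganc ℓ tr s.κ j (Sum.inl v))))‖ :=
          norm_sub_le_norm_sub_add_norm_sub _ _ _
      _ ≤ (k : ℝ) / s.κ j + (k : ℝ) / 2 / s.κ (j + 1) := add_le_add ih' h2
      _ ≤ (k : ℝ) / s.κ (j + 1) := ti_ganc_near_arith (hκ0 _) h3

/-- **LEAF L-257-GR-A11.**  Above `tr`: the same, starting from the frequency of the bin.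
PLAN: induction on `j ≥ tr + 1` (`Nat.le_induction`).   `j = tr + 1`: A8, `gfr tr (inr (some b, 0)) = fr 1 b`, A2.   Step: A9 for the form, A2, `hs.lac j` (`tr < j`, `j + 1 ≤ ℓ`). -/
theorem ti_ganc_near_high (hs : s.Ok D ℓ tr) {j : ℕ} (h1 : tr < j) (h2 : j ≤ ℓ) (v : D.Lb 0) :
    ‖D.fr 1 (D.par 0 v) - D.gfr tr s.κ j (D.ganc ℓ tr s.κ j (Sum.inl v))‖ ≤ (k : ℝ) / s.κ j := by
  have hκ0 : ∀ i, 0 < s.κ i := fun i => lt_of_lt_of_le one_pos (hs.one_le_κ i)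
  have hk : (0 : ℝ) ≤ k := Nat.cast_nonneg k
  have h1' : tr + 1 ≤ j := h1
  induction j, h1' using Nat.le_induction with
  | base =>
    rw [ti_ganc_near_high_step D s.κ (by omega) h2, ti_ganc_tr D s.κ hs.tr_pos hs.tr_le v]
    have e : D.gfr tr s.κ tr (Sum.inr (some (D.par 0 v), 0)) = D.fr 1 (D.par 0 v) := by
      show (if tr ≤ tr then _ else _) = _
      rw [if_pos le_rfl]
    rw [e]
    refine (ti_rnd_step (hκ0 _) _).trans ?_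
    exact div_le_div_of_nonneg_right (by linarith) (hκ0 _).le
  | succ j hj ih =>
    have ih' := ih (by omega) (by omega)
    rw [ti_ganc_near_high_step D s.κ (by omega) h2]
    have h3 := ti_rnd_step (hκ0 (j + 1)) (D.gfr tr s.κ j (D.ganc ℓ tr s.κ j (Sum.inl v)))
    have h4 := hs.lac j h2 (by omega) (by omega) (by omega)
    calc ‖D.fr 1 (D.par 0 v) - (s.κ (j + 1))⁻¹ • latE (rnd (s.κ (j + 1) • D.gfr tr s.κ j (D.ganc ℓ tr s.κ j (Sum.inl v))))‖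
        ≤ ‖D.fr 1 (D.par 0 v) - D.gfr tr s.κ j (D.ganc ℓ tr s.κ j (Sum.inl v))‖
          + ‖D.gfr tr s.κ j (D.ganc ℓ tr s.κ j (Sum.inl v)) - (s.κ (j + 1))⁻¹ • latE (rnd (s.κ (j + 1) • D.gfr tr s.κ j (D.ganc ℓ tr s.κ j (Sum.inl v))))‖ :=
          norm_sub_le_norm_sub_add_norm_sub _ _ _
      _ ≤ (k : ℝ) / s.κ j + (k : ℝ) / 2 / s.κ (j + 1) := add_le_add ih' h3
      _ ≤ (k : ℝ) / s.κ (j + 1) := ti_ganc_near_arith (hκ0 _) h4

/-- **LEAF L-257-GR-A12: a leaf label is UNIFORMLY close to its ancestors.**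
PLAN.  `j = 0`: zero.   `0 < j < tr`: A10.   `j = tr`: A8 + `hD.par_near 0 v` + `hs.κ_tr`.    `tr < j ≤ ℓ`: triangle inequality, `hD.par_near 0 v`, A11, `κ_j ≤ κ_tr` (antitone: `antitone_nat_of_succ_le hs.κ_anti`).   `ℓ < j`: A4, A5, `hs.κ_top`. -/
theorem ti_ganc_near (hc : c.Ok) (hD : D.Good) (hs : s.Ok D ℓ tr) (j : ℕ) (v : D.Lb 0) :
    ‖D.fr 0 v - D.gfr tr s.κ j (D.ganc ℓ tr s.κ j (Sum.inl v))‖ ≤ (c.Cc + k) / s.κ j := by
  have hκ0 : ∀ i, 0 < s.κ i := fun i => lt_of_lt_of_le one_pos (hs.one_le_κ i)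
  have hk : (0 : ℝ) ≤ k := Nat.cast_nonneg k
  have hCc : (1 : ℝ) ≤ c.Cc := hc.one_le_Cc
  have hanti : Antitone s.κ := antitone_nat_of_succ_le hs.κ_anti
  have hpar : ‖D.fr 0 v - D.fr 1 (D.par 0 v)‖ ≤ c.Cc / s.κ tr := by
    rw [hs.κ_tr]
    exact hD.par_near 0 v
  have key : ∀ j, j ≤ ℓ → ‖D.fr 0 v - D.gfr tr s.κ j (D.ganc ℓ tr s.κ j (Sum.inl v))‖ ≤ (c.Cc + k) / s.κ j := by
    intro j hj
    rcases Nat.eq_zero_or_pos j with rfl | h0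
    · have e : D.gfr tr s.κ 0 (D.ganc ℓ tr s.κ 0 (Sum.inl v)) = D.fr 0 v := rfl
      rw [e, sub_self, norm_zero]
      exact div_nonneg (by linarith) (hκ0 _).le
    rcases lt_trichotomy j tr with h1 | rfl | h1
    · refine (ti_ganc_near_low hs h0 h1 v).trans ?_
      exact div_le_div_of_nonneg_right (by linarith) (hκ0 _).le
    · rw [ti_ganc_tr D s.κ hs.tr_pos hs.tr_le v]
      have e : D.gfr j s.κ j (Sum.inr (some (D.par 0 v), 0)) = D.fr 1 (D.par 0 v) := by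
        show (if j ≤ j then _ else _) = _
        rw [if_pos le_rfl]
      rw [e]
      refine hpar.trans ?_
      exact div_le_div_of_nonneg_right (by linarith) (hκ0 _).le
    · have h2 := ti_ganc_near_high hs h1 hj v
      have h3 : c.Cc / s.κ tr ≤ c.Cc / s.κ j := div_le_div_of_nonneg_left (by linarith) (hκ0 _) (hanti h1.le)
      calc ‖D.fr 0 v - D.gfr tr s.κ j (D.ganc ℓ tr s.κ j (Sum.inl v))‖
          ≤ ‖D.fr 0 v - D.fr 1 (D.par 0 v)‖ + ‖D.fr 1 (D.par 0 v) - D.gfr tr s.κ j (D.ganc ℓ tr s.κ j (Sum.inl v))‖ :=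
            norm_sub_le_norm_sub_add_norm_sub _ _ _
        _ ≤ c.Cc / s.κ j + (k : ℝ) / s.κ j := add_le_add (hpar.trans h3) h2
        _ = (c.Cc + k) / s.κ j := by rw [add_div]
  rcases le_total j ℓ with hj | hj
  · exact key j hj
  · rw [ti_ganc_top D ℓ tr s.κ hj, ti_gfr_top D s.κ hs.tr_le hj (hs.κ_top j hj), hs.κ_top j hj]
    exact key ℓ le_rfl

/-- **LEAF L-257-GR-A13** (field `par_near`).
PLAN.  `ℓ ≤ j`: `gpar = id`, A5 twice: the distance is `0`.    `j + 1 < tr` or `tr < j + 1`: A2 (`k/2 ≤ Cc + k`).    `j + 1 = tr`: `x = ganc j (inl v)` (A3), `gpar j x = ganc tr (inl v) = inr (some (par 0 v), 0)` (A8);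
`‖gfr j x - fr 0 v‖ ≤ k/κ_j ≤ k/κ_tr` (A10; zero if `j = 0`), `‖fr 0 v - fr 1 (par 0 v)‖ ≤ Cc/κ_tr`. -/
theorem ti_gpar_near (hc : c.Ok) (hD : D.Good) (hs : s.Ok D ℓ tr) (j : ℕ) (x : D.GLab) (hx : x ∈ D.gS ℓ tr s.κ j) :
    ‖D.gfr tr s.κ j x - D.gfr tr s.κ (j + 1) (D.gpar ℓ tr s.κ j x)‖ ≤ (c.Cc + k) / s.κ (j + 1) := by
  have hκ0 : ∀ i, 0 < s.κ i := fun i => lt_of_lt_of_le one_pos (hs.one_le_κ i)
  have hk : (0 : ℝ) ≤ k := Nat.cast_nonneg k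
  have hCc : (1 : ℝ) ≤ c.Cc := hc.one_le_Cc
  have hanti : Antitone s.κ := antitone_nat_of_succ_le hs.κ_anti
  have hstep : ‖D.gfr tr s.κ j x - (s.κ (j + 1))⁻¹ • latE (rnd (s.κ (j + 1) • D.gfr tr s.κ j x))‖ ≤ (c.Cc + k) / s.κ (j + 1) :=
    (ti_rnd_step (hκ0 (j + 1)) _).trans (div_le_div_of_nonneg_right (by linarith) (hκ0 _).le)
  by_cases hℓ : ℓ ≤ j
  · have e1 : D.gpar ℓ tr s.κ j x = x := by
      unfold TDat.gpar
      rw [if_pos hℓ]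
    rw [e1, ti_gfr_top D s.κ hs.tr_le hℓ (hs.κ_top j hℓ), ti_gfr_top D s.κ hs.tr_le (by omega : ℓ ≤ j + 1) (hs.κ_top _ (by omega)), sub_self, norm_zero]
    exact div_nonneg (by linarith) (hκ0 _).le
  by_cases h1 : j + 1 < tr
  · have e1 : D.gfr tr s.κ (j + 1) (D.gpar ℓ tr s.κ j x) = (s.κ (j + 1))⁻¹ • latE (rnd (s.κ (j + 1) • D.gfr tr s.κ j x)) := by
      unfold TDat.gpar
      rw [if_neg hℓ, if_pos h1]
      cases D.gbin x with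
      | none => rfl
      | some b =>
        show (if tr ≤ j + 1 then _ else _) = _
        rw [if_neg (by omega)]
    rw [e1]
    exact hstep
  by_cases h2 : j + 1 = tr
  · obtain ⟨T, hT, rfl⟩ := (ti_gS_iff D ℓ tr s.κ j x).1 hx
    have e1 : D.gpar ℓ tr s.κ j (D.ganc ℓ tr s.κ j (Sum.inl T.1)) = D.ganc ℓ tr s.κ (j + 1) (Sum.inl T.1) := rfl
    rw [e1, h2, ti_ganc_tr D s.κ hs.tr_pos hs.tr_le T.1]
    have e : D.gfr tr s.κ tr (Sum.inr (some (D.par 0 T.1), 0)) = D.fr 1 (D.par 0 T.1) := by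
      show (if tr ≤ tr then _ else _) = _
      rw [if_pos le_rfl]
    rw [e]
    have hpar : ‖D.fr 0 T.1 - D.fr 1 (D.par 0 T.1)‖ ≤ c.Cc / s.κ tr := by
      rw [hs.κ_tr]
      exact hD.par_near 0 T.1
    have hlow : ‖D.gfr tr s.κ j (D.ganc ℓ tr s.κ j (Sum.inl T.1)) - D.fr 0 T.1‖ ≤ (k : ℝ) / s.κ tr := by
      rcases Nat.eq_zero_or_pos j with rfl | h0
      · have e0 : D.gfr tr s.κ 0 (D.ganc ℓ tr s.κ 0 (Sum.inl T.1)) = D.fr 0 T.1 := rfl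
        rw [e0, sub_self, norm_zero]
        exact div_nonneg hk (hκ0 _).le
      · rw [norm_sub_rev]
        refine (ti_ganc_near_low hs h0 (by omega) T.1).trans ?_
        exact div_le_div_of_nonneg_left hk (hκ0 _) (hanti (by omega))
    calc ‖D.gfr tr s.κ j (D.ganc ℓ tr s.κ j (Sum.inl T.1)) - D.fr 1 (D.par 0 T.1)‖
        ≤ ‖D.gfr tr s.κ j (D.ganc ℓ tr s.κ j (Sum.inl T.1)) - D.fr 0 T.1‖ + ‖D.fr 0 T.1 - D.fr 1 (D.par 0 T.1)‖ :=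
          norm_sub_le_norm_sub_add_norm_sub _ _ _
      _ ≤ (k : ℝ) / s.κ tr + c.Cc / s.κ tr := add_le_add hlow hpar
      _ = (c.Cc + k) / s.κ tr := by rw [add_div, add_comm]
  · have e1 : D.gfr tr s.κ (j + 1) (D.gpar ℓ tr s.κ j x) = (s.κ (j + 1))⁻¹ • latE (rnd (s.κ (j + 1) • D.gfr tr s.κ j x)) := by
      unfold TDat.gpar
      rw [if_neg hℓ, if_neg h1, if_neg h2]
      rfl
    rw [e1]
    exact hstep

/-- **LEAF L-257-GR-A14: all the frequencies are bounded; the top ones by `Cc + k`** (field `top_bdd`).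
PLAN.  `x = ganc j (inl v)` (A3).   First: `ℓ = tr`: A8, `h2.top1`;  `tr < ℓ`: A11 + `h2.top1` + `1 ≤ κ_ℓ`.     Second: `‖fr 0 v‖ ≤ ‖fr 1 (par 0 v)‖ + Cc/κ_1 ≤ 2 Cc`, A12, `1 ≤ κ_j`. -/
theorem ti_gfr_bdd (hc : c.Ok) (hD : D.Good) (h2 : D.Two) (hs : s.Ok D ℓ tr) :
    (∀ x ∈ D.gS ℓ tr s.κ ℓ, ‖D.gfr tr s.κ ℓ x‖ ≤ c.Cc + k) ∧ ∀ j, ∀ x ∈ D.gS ℓ tr s.κ j, ‖D.gfr tr s.κ j x‖ ≤ 3 * c.Cc + k := by
  have hκ0 : ∀ i, 0 < s.κ i := fun i => lt_of_lt_of_le one_pos (hs.one_le_κ i)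
  have hk : (0 : ℝ) ≤ k := Nat.cast_nonneg k
  have hCc : (1 : ℝ) ≤ c.Cc := hc.one_le_Cc
  have hdiv : ∀ (a : ℝ) (i : ℕ), 0 ≤ a → a / s.κ i ≤ a := fun a i ha => div_le_self ha (hs.one_le_κ i)
  constructor
  · intro x hx
    obtain ⟨T, hT, rfl⟩ := (ti_gS_iff D ℓ tr s.κ ℓ x).1 hx
    rcases lt_or_eq_of_le hs.tr_le with h | h
    · have h3 := ti_ganc_near_high hs h le_rfl T.1
      have h4 := h2.top1 (D.par 0 T.1)
      have h5 : ‖D.gfr tr s.κ ℓ (D.ganc ℓ tr s.κ ℓ (Sum.inl T.1))‖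
          ≤ ‖D.fr 1 (D.par 0 T.1)‖ + ‖D.fr 1 (D.par 0 T.1) - D.gfr tr s.κ ℓ (D.ganc ℓ tr s.κ ℓ (Sum.inl T.1))‖ := by
        have := norm_sub_le (D.fr 1 (D.par 0 T.1)) (D.fr 1 (D.par 0 T.1) - D.gfr tr s.κ ℓ (D.ganc ℓ tr s.κ ℓ (Sum.inl T.1)))
        rwa [sub_sub_cancel] at this
      have h6 := hdiv k ℓ hk
      linarith
    · subst h
      rw [ti_ganc_tr D s.κ hs.tr_pos le_rfl T.1]
      have e : D.gfr tr s.κ tr (Sum.inr (some (D.par 0 T.1), 0)) = D.fr 1 (D.par 0 T.1) := by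
        show (if tr ≤ tr then _ else _) = _
        rw [if_pos le_rfl]
      rw [e]
      have h4 := h2.top1 (D.par 0 T.1)
      linarith
  · intro j x hx
    obtain ⟨T, hT, rfl⟩ := (ti_gS_iff D ℓ tr s.κ j x).1 hx
    have h3 := ti_ganc_near hc hD hs j T.1
    have h4 := h2.top1 (D.par 0 T.1)
    have h5 : ‖D.fr 0 T.1 - D.fr 1 (D.par 0 T.1)‖ ≤ c.Cc := by
      refine (hD.par_near 0 T.1).trans ?_
      exact div_le_self (by linarith) (hD.one_le_κ _)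
    have h6 : ‖D.fr 0 T.1‖ ≤ ‖D.fr 1 (D.par 0 T.1)‖ + ‖D.fr 0 T.1 - D.fr 1 (D.par 0 T.1)‖ := by
      have := norm_add_le (D.fr 1 (D.par 0 T.1)) (D.fr 0 T.1 - D.fr 1 (D.par 0 T.1))
      rwa [add_sub_cancel] at this
    have h7 : ‖D.gfr tr s.κ j (D.ganc ℓ tr s.κ j (Sum.inl T.1))‖
        ≤ ‖D.fr 0 T.1‖ + ‖D.fr 0 T.1 - D.gfr tr s.κ j (D.ganc ℓ tr s.κ j (Sum.inl T.1))‖ := by
      have := norm_sub_le (D.fr 0 T.1) (D.fr 0 T.1 - D.gfr tr s.κ j (D.ganc ℓ tr s.κ j (Sum.inl T.1)))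
      rwa [sub_sub_cancel] at this
    have h8 := hdiv (c.Cc + k) j (by linarith)
    linarith

/-! ## B. counting -/

/-- **LEAF L-257-GR-B1: covering.**   If every ball of radius `1/κ` contains at most `Cm` labels, a ball of radius `R t/κ` (`t ≥ 1`) contains at most `N(k, R) Cm t^k` labels.
PLAN.  `N = (2 R k + 3)^k` (for `R ≥ 0`; `R < 0`: the set is empty).   Centres `ξ + (kκ)⁻¹ • latE m`, `m ∈ Fintype.piFinset fun _ => Finset.Icc (-L) L`, `L = ⌈R t k⌉`: a label `v` of the big ball belongs to the small ball of `m = rnd ((kκ) • (fr v - ξ))`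
(A2 at the scale `kκ`: error `k/2/(kκ) ≤ 1/κ`; `|m_i| ≤ L` since `|y_i| ≤ ‖y‖ ≤ R t k`: `round` is monotone, `round_le`/`abs_sub_round`).    `Finset.card_le_card` + `Finset.card_biUnion_le`; `(2L + 1)^k ≤ ((2Rk + 3) t)^k`.     `k = 0` is allowed (one centre). -/
theorem ti_cover (k : ℕ) (R : ℝ) : ∃ N : ℝ, 1 ≤ N ∧ ∀ (Λ : Type) [Fintype Λ] (fr : Λ → E k) (κ Cm : ℝ), 0 < κ → 0 ≤ Cm →
    (∀ ξ : E k, ((Finset.univ.filter fun v => ‖fr v - ξ‖ ≤ κ⁻¹).card : ℝ) ≤ Cm) →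
    ∀ t : ℝ, 1 ≤ t → ∀ ξ : E k, ((Finset.univ.filter fun v => ‖fr v - ξ‖ ≤ R * t * κ⁻¹).card : ℝ) ≤ N * Cm * t ^ k := by
  have hN1 : (1 : ℝ) ≤ 2 * ((k : ℝ) + 1) * |R| + 5 := by
    have : 0 ≤ 2 * ((k : ℝ) + 1) * |R| := by positivity
    linarith
  refine ⟨(2 * ((k : ℝ) + 1) * |R| + 5) ^ k, one_le_pow₀ hN1, ?_⟩
  intro Λ _ fr κ Cm hκ hCm hsm t ht ξ
  have hk0 : (0 : ℝ) ≤ k := Nat.cast_nonneg k
  obtain ⟨a, ha⟩ : ∃ a : ℝ, a = ((k : ℝ) + 1) * κ := ⟨_, rfl⟩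
  have ha0 : 0 < a := by
    rw [ha]
    positivity
  obtain ⟨B, hB⟩ : ∃ B : ℝ, B = ((k : ℝ) + 1) * |R| * t := ⟨_, rfl⟩
  have hB0 : 0 ≤ B := by
    rw [hB]
    positivity
  obtain ⟨L, hL⟩ : ∃ L : ℤ, L = ⌈B⌉ + 1 := ⟨_, rfl⟩
  have hLB : B + 1 ≤ (L : ℝ) := by
    rw [hL]
    push_cast
    linarith [Int.le_ceil B]
  have hLB2 : (L : ℝ) ≤ B + 2 := by
    rw [hL]
    push_cast
    linarith [Int.ceil_lt_add_one B]
  have hsub : (Finset.univ.filter fun v => ‖fr v - ξ‖ ≤ R * t * κ⁻¹) ⊆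
      (Fintype.piFinset fun _ : Fin k => Finset.Icc (-L) L).biUnion
        fun m => Finset.univ.filter fun v => ‖fr v - (ξ + a⁻¹ • latE m)‖ ≤ κ⁻¹ := by
    intro v hv
    rw [Finset.mem_filter] at hv
    have hv2 := hv.2
    rw [Finset.mem_biUnion]
    refine ⟨rnd (a • (fr v - ξ)), ?_, ?_⟩
    · rw [Fintype.mem_piFinset]
      intro i
      have h1 : |(a • (fr v - ξ)) i| ≤ B := by
        calc |(a • (fr v - ξ)) i| = ‖(a • (fr v - ξ)) i‖ := (Real.norm_eq_abs _).symm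
          _ ≤ ‖a • (fr v - ξ)‖ := PiLp.norm_apply_le _ i
          _ = a * ‖fr v - ξ‖ := by rw [norm_smul, Real.norm_eq_abs, abs_of_pos ha0]
          _ ≤ a * (|R| * t * κ⁻¹) := by
              apply mul_le_mul_of_nonneg_left _ ha0.le
              refine hv2.trans ?_
              have : R ≤ |R| := le_abs_self R
              gcongr
          _ = B := by
              rw [ha, hB]
              field_simp
      have h2 := abs_sub_round ((a • (fr v - ξ)) i)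
      rw [abs_le] at h1 h2
      rw [Finset.mem_Icc]
      constructor
      · have : (-(L : ℝ)) ≤ (round ((a • (fr v - ξ)) i) : ℝ) := by linarith [h1.1, h2.2]
        show -L ≤ round ((a • (fr v - ξ)) i)
        exact_mod_cast this
      · have : (round ((a • (fr v - ξ)) i) : ℝ) ≤ (L : ℝ) := by linarith [h1.2, h2.1]
        show round ((a • (fr v - ξ)) i) ≤ L
        exact_mod_cast this
    · rw [Finset.mem_filter]
      refine ⟨Finset.mem_univ _, ?_⟩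
      have h1 := ti_rnd_step ha0 (fr v - ξ)
      have h2 : fr v - (ξ + a⁻¹ • latE (rnd (a • (fr v - ξ)))) = fr v - ξ - a⁻¹ • latE (rnd (a • (fr v - ξ))) := by abel
      rw [h2]
      refine h1.trans ?_
      rw [ha, div_le_iff₀ (by positivity)]
      have : κ⁻¹ * (((k : ℝ) + 1) * κ) = (k : ℝ) + 1 := by field_simp
      rw [this]
      linarith
  have hcard : ((Fintype.piFinset fun _ : Fin k => Finset.Icc (-L) L).card : ℝ) ≤ ((2 * ((k : ℝ) + 1) * |R| + 5) * t) ^ k := by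
    rw [Fintype.card_piFinset]
    simp only [Int.card_Icc, Finset.prod_const, Finset.card_univ, Fintype.card_fin]
    push_cast
    apply pow_le_pow_left₀ (Nat.cast_nonneg _)
    have hL0 : 0 ≤ L + 1 - -L := by
      have : (0 : ℝ) ≤ ((L + 1 - -L : ℤ) : ℝ) := by
        push_cast
        linarith
      exact_mod_cast this
    have h3 : (((L + 1 - -L).toNat : ℤ) : ℝ) = ((L + 1 - -L : ℤ) : ℝ) := by
      rw [Int.toNat_of_nonneg hL0]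
    have h4 : (((L + 1 - -L).toNat : ℕ) : ℝ) = (((L + 1 - -L).toNat : ℤ) : ℝ) := by
      push_cast
      rfl
    rw [h4, h3]
    push_cast
    rw [hB] at hLB2
    nlinarith
  calc ((Finset.univ.filter fun v => ‖fr v - ξ‖ ≤ R * t * κ⁻¹).card : ℝ)
      ≤ (((Fintype.piFinset fun _ : Fin k => Finset.Icc (-L) L).biUnion
        fun m => Finset.univ.filter fun v => ‖fr v - (ξ + a⁻¹ • latE m)‖ ≤ κ⁻¹).card : ℝ) := by
        exact_mod_cast Finset.card_le_card hsub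
    _ ≤ ∑ m ∈ Fintype.piFinset fun _ : Fin k => Finset.Icc (-L) L,
        ((Finset.univ.filter fun v => ‖fr v - (ξ + a⁻¹ • latE m)‖ ≤ κ⁻¹).card : ℝ) := by
        exact_mod_cast Finset.card_biUnion_le
    _ ≤ ∑ _m ∈ Fintype.piFinset fun _ : Fin k => Finset.Icc (-L) L, Cm :=
        Finset.sum_le_sum fun m _ => hsm _
    _ = ((Fintype.piFinset fun _ : Fin k => Finset.Icc (-L) L).card : ℝ) * Cm := by
        rw [Finset.sum_const, nsmul_eq_mul]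
    _ ≤ ((2 * ((k : ℝ) + 1) * |R| + 5) * t) ^ k * Cm := mul_le_mul_of_nonneg_right hcard hCm
    _ = (2 * ((k : ℝ) + 1) * |R| + 5) ^ k * Cm * t ^ k := by
        rw [mul_pow]
        ring

theorem ti_grid_mult_cnt {k : ℕ} (Z : E k) (t : Finset (Fin k → ℤ)) (h : ∀ n ∈ t, ‖latE n - Z‖ ≤ 1) : (t.card : ℝ) ≤ 4 ^ (k + 1) := by
  have h1 := ti_lat_count (k := k) ((Z, 0) : ST k) (r := 1) zero_le_one (t.image fun n => ((n, 0) : Lat k)) (by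
    intro m hm
    rw [Finset.mem_image] at hm
    obtain ⟨n, hn, rfl⟩ := hm
    rw [Prod.norm_def]
    refine max_le ?_ ?_
    · have : (((Z, 0) : ST k) - lat (n, 0)).1 = Z - latE n := rfl
      rw [this, norm_sub_rev]
      exact h n hn
    · simp [lat])
  rw [Finset.card_image_of_injective _ (fun a b hab => (Prod.ext_iff.1 hab).1)] at h1
  norm_num at h1 ⊢
  exact h1

theorem ti_grid_mult_prod {α β γ : Type} (F : Finset (α ⊕ (β × γ))) (A : Finset β) (B : Finset γ)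
    (hF : ∀ x ∈ F, ∃ p : β × γ, x = Sum.inr p ∧ p.1 ∈ A ∧ p.2 ∈ B) : F.card ≤ A.card * B.card := by
  rw [← Finset.card_product]
  have : F ⊆ (A ×ˢ B).image Sum.inr := by
    intro x hx
    obtain ⟨p, rfl, h1, h2⟩ := hF x hx
    exact Finset.mem_image_of_mem _ (Finset.mem_product.2 ⟨h1, h2⟩)
  exact (Finset.card_le_card this).trans Finset.card_image_le

theorem ti_grid_mult_scale {k : ℕ} {κ : ℝ} (hκ : 0 < κ) (n : Fin k → ℤ) (ξ : E k) (h : ‖κ⁻¹ • latE n - ξ‖ ≤ κ⁻¹) : ‖latE n - κ • ξ‖ ≤ 1 := by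
  have h1 : latE n - κ • ξ = κ • (κ⁻¹ • latE n - ξ) := by
    rw [smul_sub, smul_smul, mul_inv_cancel₀ hκ.ne', one_smul]
  rw [h1, norm_smul, Real.norm_eq_abs, abs_of_pos hκ]
  calc κ * ‖κ⁻¹ • latE n - ξ‖ ≤ κ * κ⁻¹ := mul_le_mul_of_nonneg_left h hκ.le
    _ = 1 := mul_inv_cancel₀ hκ.ne'

/-- the second components of the labels in a small ball -/
theorem ti_grid_mult_snd {k : ℕ} {β α : Type} {κ : ℝ} (hκ : 0 < κ) (ξ : E k) (F : Finset (α ⊕ (β × (Fin k → ℤ))))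
    (hF : ∀ x ∈ F, ∃ p : β × (Fin k → ℤ), x = Sum.inr p ∧ ‖κ⁻¹ • latE p.2 - ξ‖ ≤ κ⁻¹) :
    ∃ B : Finset (Fin k → ℤ), (B.card : ℝ) ≤ 4 ^ (k + 1) ∧ ∀ p : β × (Fin k → ℤ), Sum.inr p ∈ F → p.2 ∈ B := by
  refine ⟨F.image (fun x => Sum.elim (fun _ => 0) Prod.snd x), ?_, ?_⟩
  · refine ti_grid_mult_cnt (κ • ξ) _ ?_
    intro n hn
    rw [Finset.mem_image] at hn
    obtain ⟨x, hx, rfl⟩ := hn
    obtain ⟨p, rfl, hp⟩ := hF x hx
    exact ti_grid_mult_scale hκ _ _ hp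
  · intro p hp
    exact Finset.mem_image.2 ⟨_, hp, rfl⟩

theorem ti_grid_mult_core {k : ℕ} {c : TCls k} (hc : c.Ok) {D : TDat c} (hD : D.Good) {ℓ tr : ℕ} {s : GSp k} (hs : s.Ok D ℓ tr) {N : ℝ} (hN : 1 ≤ N)
    (hcov : ∀ ξ : E k, ((Finset.univ.filter fun b : D.Lb 1 => ‖D.fr 1 b - ξ‖ ≤ (c.Cc + k + 1) * 1 * (D.κ 1)⁻¹).card : ℝ) ≤ N * c.Cm * 1 ^ k)
    {j : ℕ} (hj : j ≤ ℓ) (ξ : E k) :
    (((D.gS ℓ tr s.κ j).filter fun x => ‖D.gfr tr s.κ j x - ξ‖ ≤ (s.κ j)⁻¹).card : ℝ) ≤ 4 ^ (k + 1) * N * c.Cm := by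
  have hCm := hc.one_le_Cm
  have h4 : (1 : ℝ) ≤ 4 ^ (k + 1) := one_le_pow₀ (by norm_num)
  have hκ0 : ∀ i, 0 < s.κ i := fun i => lt_of_lt_of_le one_pos (hs.one_le_κ i)
  have h4N : 1 ≤ 4 ^ (k + 1) * N := by nlinarith
  rcases Nat.eq_zero_or_pos j with rfl | h0
  · -- height zero
    have hsub : ((D.gS ℓ tr s.κ 0).filter fun x => ‖D.gfr tr s.κ 0 x - ξ‖ ≤ (s.κ 0)⁻¹) ⊆
        (Finset.univ.filter fun v : D.Lb 0 => ‖D.fr 0 v - ξ‖ ≤ (D.κ 0)⁻¹).image Sum.inl := by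
      intro x hx
      rw [Finset.mem_filter] at hx
      obtain ⟨hx1, hx2⟩ := hx
      obtain ⟨T, -, rfl⟩ := (ti_gS_iff D ℓ tr s.κ 0 x).1 hx1
      refine Finset.mem_image.2 ⟨T.1, ?_, rfl⟩
      rw [Finset.mem_filter]
      refine ⟨Finset.mem_univ _, ?_⟩
      rw [← hs.κ_zero]
      exact hx2
    have h1 : (((D.gS ℓ tr s.κ 0).filter fun x => ‖D.gfr tr s.κ 0 x - ξ‖ ≤ (s.κ 0)⁻¹).card : ℝ) ≤ c.Cm := by
      refine le_trans ?_ (hD.mult 0 ξ)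
      exact_mod_cast (Finset.card_le_card hsub).trans Finset.card_image_le
    nlinarith
  rcases lt_trichotomy j tr with h1 | rfl | h1
  · -- strictly between
    have hanti : s.κ tr ≤ s.κ j := antitone_nat_of_succ_le hs.κ_anti h1.le
    have hform : ∀ x ∈ (D.gS ℓ tr s.κ j).filter fun x => ‖D.gfr tr s.κ j x - ξ‖ ≤ (s.κ j)⁻¹,
        ∃ p : Option (D.Lb 1) × (Fin k → ℤ), x = Sum.inr p ∧ ‖(s.κ j)⁻¹ • latE p.2 - ξ‖ ≤ (s.κ j)⁻¹ ∧
          p.1 ∈ (Finset.univ.filter fun b : D.Lb 1 => ‖D.fr 1 b - ξ‖ ≤ (c.Cc + k + 1) * 1 * (D.κ 1)⁻¹).image some := by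
      intro x hx
      rw [Finset.mem_filter] at hx
      obtain ⟨hx1, hx2⟩ := hx
      obtain ⟨T, -, rfl⟩ := (ti_gS_iff D ℓ tr s.κ j x).1 hx1
      obtain ⟨n, hn⟩ := ti_ganc_low D s.κ hs.tr_le h0 h1 T.1
      have hA10 := ti_ganc_near_low hs h0 h1 T.1
      rw [hn] at hx2 hA10
      have hg : D.gfr tr s.κ j (Sum.inr (some (D.par 0 T.1), n)) = (s.κ j)⁻¹ • latE n := by
        show (if tr ≤ j then D.fr 1 (D.par 0 T.1) else (s.κ j)⁻¹ • latE n) = _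
        rw [if_neg (by omega)]
      rw [hg] at hx2 hA10
      refine ⟨(some (D.par 0 T.1), n), hn, hx2, ?_⟩
      refine Finset.mem_image.2 ⟨D.par 0 T.1, ?_, rfl⟩
      rw [Finset.mem_filter]
      refine ⟨Finset.mem_univ _, ?_⟩
      have hp := hD.par_near 0 T.1
      have hκ1 : 0 < D.κ 1 := by
        rw [← hs.κ_tr]
        exact hκ0 tr
      have hinv : (s.κ j)⁻¹ ≤ (D.κ 1)⁻¹ := by
        rw [← hs.κ_tr]
        exact inv_anti₀ (hκ0 tr) hanti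
      have hk0 : (0 : ℝ) ≤ k := Nat.cast_nonneg k
      calc ‖D.fr 1 (D.par 0 T.1) - ξ‖
          = ‖-(D.fr 0 T.1 - D.fr 1 (D.par 0 T.1)) + (D.fr 0 T.1 - (s.κ j)⁻¹ • latE n) + ((s.κ j)⁻¹ • latE n - ξ)‖ := by
            congr 1
            abel
        _ ≤ ‖D.fr 0 T.1 - D.fr 1 (D.par 0 T.1)‖ + ‖D.fr 0 T.1 - (s.κ j)⁻¹ • latE n‖ + ‖(s.κ j)⁻¹ • latE n - ξ‖ := by
            refine (norm_add_le _ _).trans ?_
            refine add_le_add_left ?_ _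
            refine (norm_add_le _ _).trans ?_
            rw [norm_neg]
        _ ≤ c.Cc / D.κ (0 + 1) + (k : ℝ) / s.κ j + (s.κ j)⁻¹ := add_le_add (add_le_add hp hA10) hx2
        _ ≤ c.Cc * (D.κ 1)⁻¹ + (k : ℝ) * (D.κ 1)⁻¹ + (D.κ 1)⁻¹ := by
            rw [div_eq_mul_inv, div_eq_mul_inv]
            refine add_le_add (add_le_add le_rfl ?_) hinv
            exact mul_le_mul_of_nonneg_left hinv hk0
        _ = (c.Cc + k + 1) * 1 * (D.κ 1)⁻¹ := by ring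
    obtain ⟨B, hB, hBm⟩ := ti_grid_mult_snd (hκ0 j) ξ _ (fun x hx => by
      obtain ⟨p, h1, h2, -⟩ := hform x hx
      exact ⟨p, h1, h2⟩)
    have hcard := ti_grid_mult_prod _ ((Finset.univ.filter fun b : D.Lb 1 => ‖D.fr 1 b - ξ‖ ≤ (c.Cc + k + 1) * 1 * (D.κ 1)⁻¹).image some) B (fun x hx => by
      obtain ⟨p, h1, -, h3⟩ := hform x hx
      exact ⟨p, h1, h3, hBm p (h1 ▸ hx)⟩)
    have hA : ((((Finset.univ.filter fun b : D.Lb 1 => ‖D.fr 1 b - ξ‖ ≤ (c.Cc + k + 1) * 1 * (D.κ 1)⁻¹).image some).card : ℕ) : ℝ) ≤ N * c.Cm := by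
      have := hcov ξ
      have e : N * c.Cm * 1 ^ k = N * c.Cm := by rw [one_pow, mul_one]
      rw [e] at this
      refine le_trans ?_ this
      exact_mod_cast Finset.card_image_le
    calc (((D.gS ℓ tr s.κ j).filter fun x => ‖D.gfr tr s.κ j x - ξ‖ ≤ (s.κ j)⁻¹).card : ℝ)
        ≤ ((((Finset.univ.filter fun b : D.Lb 1 => ‖D.fr 1 b - ξ‖ ≤ (c.Cc + k + 1) * 1 * (D.κ 1)⁻¹).image some).card : ℕ) : ℝ) * (B.card : ℝ) := by
          exact_mod_cast hcard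
      _ ≤ (N * c.Cm) * 4 ^ (k + 1) := mul_le_mul hA hB (Nat.cast_nonneg _) (by positivity)
      _ = 4 ^ (k + 1) * N * c.Cm := by ring
  · -- the transition height
    have hsub : ((D.gS ℓ j s.κ j).filter fun x => ‖D.gfr j s.κ j x - ξ‖ ≤ (s.κ j)⁻¹) ⊆
        (Finset.univ.filter fun b : D.Lb 1 => ‖D.fr 1 b - ξ‖ ≤ (D.κ 1)⁻¹).image (fun b => Sum.inr (some b, 0)) := by
      intro x hx
      rw [Finset.mem_filter] at hx
      obtain ⟨hx1, hx2⟩ := hx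
      obtain ⟨T, -, rfl⟩ := (ti_gS_iff D ℓ j s.κ j x).1 hx1
      have hn := ti_ganc_tr D s.κ hs.tr_pos hs.tr_le T.1
      rw [hn] at hx2
      have hg : D.gfr j s.κ j (Sum.inr (some (D.par 0 T.1), 0)) = D.fr 1 (D.par 0 T.1) := by
        show (if j ≤ j then D.fr 1 (D.par 0 T.1) else (s.κ j)⁻¹ • latE 0) = _
        rw [if_pos le_rfl]
      rw [hg] at hx2
      refine Finset.mem_image.2 ⟨D.par 0 T.1, ?_, hn.symm⟩
      rw [Finset.mem_filter]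
      refine ⟨Finset.mem_univ _, ?_⟩
      rw [← hs.κ_tr]
      exact hx2
    have h1 : (((D.gS ℓ j s.κ j).filter fun x => ‖D.gfr j s.κ j x - ξ‖ ≤ (s.κ j)⁻¹).card : ℝ) ≤ c.Cm := by
      refine le_trans ?_ (hD.mult 1 ξ)
      exact_mod_cast (Finset.card_le_card hsub).trans Finset.card_image_le
    nlinarith
  · -- above the transition height
    have hform : ∀ x ∈ (D.gS ℓ tr s.κ j).filter fun x => ‖D.gfr tr s.κ j x - ξ‖ ≤ (s.κ j)⁻¹,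
        ∃ p : Option (D.Lb 1) × (Fin k → ℤ), x = Sum.inr p ∧ ‖(s.κ j)⁻¹ • latE p.2 - ξ‖ ≤ (s.κ j)⁻¹ ∧ p.1 ∈ ({none} : Finset (Option (D.Lb 1))) := by
      intro x hx
      rw [Finset.mem_filter] at hx
      obtain ⟨hx1, hx2⟩ := hx
      obtain ⟨T, -, rfl⟩ := (ti_gS_iff D ℓ tr s.κ j x).1 hx1
      obtain ⟨n, hn⟩ := ti_ganc_high D s.κ h1 hj (Sum.inl T.1)
      rw [hn] at hx2
      exact ⟨(none, n), hn, hx2, Finset.mem_singleton.2 rfl⟩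
    obtain ⟨B, hB, hBm⟩ := ti_grid_mult_snd (hκ0 j) ξ _ (fun x hx => by
      obtain ⟨p, h1, h2, -⟩ := hform x hx
      exact ⟨p, h1, h2⟩)
    have hcard := ti_grid_mult_prod _ ({none} : Finset (Option (D.Lb 1))) B (fun x hx => by
      obtain ⟨p, h1, -, h3⟩ := hform x hx
      exact ⟨p, h1, h3, hBm p (h1 ▸ hx)⟩)
    rw [Finset.card_singleton, one_mul] at hcard
    have h5 : (((D.gS ℓ tr s.κ j).filter fun x => ‖D.gfr tr s.κ j x - ξ‖ ≤ (s.κ j)⁻¹).card : ℝ) ≤ 4 ^ (k + 1) := by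
      refine le_trans ?_ hB
      exact_mod_cast hcard
    have h6 : (4 : ℝ) ^ (k + 1) * 1 ≤ 4 ^ (k + 1) * (N * c.Cm) := by
      apply mul_le_mul_of_nonneg_left _ (by positivity)
      nlinarith
    nlinarith

/-- **LEAF L-257-GR-B2: bounded multiplicity of the labels of the refined tree** (field `mult`), with a constant which does not depend on the grid.
PLAN.  Pass from the subtype to `(D.gS ℓ tr κ j).filter …` (`Finset.card_subtype`/`Finset.card_le_card_of_injOn Subtype.val`).   Reduce `j > ℓ` to `j = ℓ` (A3, A4, A5: `gS j = gS ℓ`).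
`j = 0`: `x = inl v`: `hD.mult 0 ξ` (`hs.κ_zero`), `Sum.inl` injective.       `j = tr`: `x = inr (some b, 0)`: `hD.mult 1 ξ` (`hs.κ_tr`).       `tr < j ≤ ℓ`: `x = inr (none, n)`, `‖latE n - κ_j • ξ‖ ≤ 1`: at most `4^(k+1)` (`ti_lat_count` with `m = (n, 0)`).
`0 < j < tr`: `x = inr (some b, n)`: at most `4^(k+1)` values of `n`; for each `n`: `‖fr 1 b - n/κ_j‖ ≤ (Cc + k)/κ_tr` (A10 + `hD.par_near 0 v`, `κ_tr ≤ κ_j`): B1 with `Λ = D.Lb 1`, `R = Cc + k`, `t = 1`: at most `N Cm` values of `b`. -/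
theorem ti_grid_mult (k : ℕ) (Cc Cm : ℝ) : ∃ C : ℝ, 1 ≤ C ∧ ∀ c : TCls k, c.Ok → c.Cc = Cc → c.Cm = Cm → ∀ D : TDat c, D.Good → D.Two → ∀ (ℓ tr : ℕ) (s : GSp k), s.Ok D ℓ tr →
    ∀ (Cm' : ℝ) (j : ℕ) (ξ : E k), ((Finset.univ.filter fun v : (D.grid ℓ tr Cm' s).Lb j => ‖(D.grid ℓ tr Cm' s).fr j v - ξ‖ ≤ ((D.grid ℓ tr Cm' s).κ j)⁻¹).card : ℝ) ≤ C := by
  obtain ⟨N, hN, hcov⟩ := ti_cover k (Cc + k + 1)
  have h4 : (1 : ℝ) ≤ 4 ^ (k + 1) := one_le_pow₀ (by norm_num)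
  refine ⟨4 ^ (k + 1) * N * max Cm 1, ?_, ?_⟩
  · have : (1 : ℝ) ≤ max Cm 1 := le_max_right _ _
    have h4N : 1 ≤ 4 ^ (k + 1) * N := by nlinarith
    nlinarith
  intro c hc hCc hCm D hD _ ℓ tr s hs Cm' j ξ
  have hCm1 := hc.one_le_Cm
  have hmax : max Cm 1 = c.Cm := by
    rw [← hCm]
    exact max_eq_left hCm1
  rw [hmax]
  have hκ1 : 0 < D.κ 1 := lt_of_lt_of_le one_pos (hD.one_le_κ 1)
  have hcov' : ∀ ξ : E k, ((Finset.univ.filter fun b : D.Lb 1 => ‖D.fr 1 b - ξ‖ ≤ (c.Cc + k + 1) * 1 * (D.κ 1)⁻¹).card : ℝ) ≤ N * c.Cm * 1 ^ k := by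
    intro ξ
    rw [hCc]
    exact hcov (D.Lb 1) (D.fr 1) (D.κ 1) c.Cm hκ1 (by linarith) (hD.mult 1) 1 le_rfl ξ
  have hsubt : ((Finset.univ.filter fun v : (D.grid ℓ tr Cm' s).Lb j => ‖(D.grid ℓ tr Cm' s).fr j v - ξ‖ ≤ ((D.grid ℓ tr Cm' s).κ j)⁻¹).card : ℝ)
      ≤ (((D.gS ℓ tr s.κ j).filter fun x => ‖D.gfr tr s.κ j x - ξ‖ ≤ (s.κ j)⁻¹).card : ℝ) := by
    have : (Finset.univ.filter fun v : (D.grid ℓ tr Cm' s).Lb j => ‖(D.grid ℓ tr Cm' s).fr j v - ξ‖ ≤ ((D.grid ℓ tr Cm' s).κ j)⁻¹).card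
        ≤ ((D.gS ℓ tr s.κ j).filter fun x => ‖D.gfr tr s.κ j x - ξ‖ ≤ (s.κ j)⁻¹).card := by
      refine Finset.card_le_card_of_injOn (fun v => v.1) ?_ (Subtype.val_injective.injOn)
      intro v hv
      have hv' := (Finset.mem_filter.1 (Finset.mem_coe.1 hv)).2
      exact Finset.mem_coe.2 (Finset.mem_filter.2 ⟨v.2, hv'⟩)
    exact_mod_cast this
  refine hsubt.trans ?_
  rcases le_total j ℓ with hj | hj
  · exact ti_grid_mult_core hc hD hs hN hcov' hj ξ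
  · have hS : D.gS ℓ tr s.κ j = D.gS ℓ tr s.κ ℓ := by
      ext x
      rw [ti_gS_iff, ti_gS_iff]
      simp only [ti_ganc_top D ℓ tr s.κ hj]
    have hκ := hs.κ_top j hj
    have hF : ((D.gS ℓ tr s.κ j).filter fun x => ‖D.gfr tr s.κ j x - ξ‖ ≤ (s.κ j)⁻¹) = ((D.gS ℓ tr s.κ ℓ).filter fun x => ‖D.gfr tr s.κ ℓ x - ξ‖ ≤ (s.κ ℓ)⁻¹) := by
      rw [hS]
      refine Finset.filter_congr fun x _ => ?_
      rw [ti_gfr_top D s.κ hs.tr_le hj hκ x, hκ]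
    rw [hF]
    exact ti_grid_mult_core hc hD hs hN hcov' le_rfl ξ

/-! ## C. the cells of the heights `0` and `tr`: transport of sums -/

theorem ti47_gW_mem0 (D : TDat c) (ℓ tr : ℕ) (κ : ℕ → ℝ) (Wn : ℕ → Finset (Lat k)) (T : {x : D.GLab // x ∈ D.gS ℓ tr κ 0} × Lat k) :
    T ∈ D.gW ℓ tr κ Wn 0 ↔ ∃ v, T.1.1 = Sum.inl v ∧ (v, T.2) ∈ D.W 0 := by
  unfold TDat.gW
  rw [Finset.mem_filter, Finset.mem_product]
  unfold TDat.gmem TDat.gN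
  rw [if_pos rfl, if_pos rfl]
  constructor
  · rintro ⟨_, h⟩
    exact h
  · rintro ⟨v, hv, hW⟩
    exact ⟨⟨Finset.mem_univ _, Finset.mem_image.2 ⟨(v, T.2), hW, rfl⟩⟩, v, hv, hW⟩

/-- **LEAF L-257-GR-C1: sums over the leaf cells.**   (`Finset.sum_bij'`/`sum_nbij'` with `(v, m) ↦ (⟨inl v, _⟩, m)`; unfold `TDat.grid`, `gW`, `gmem`, `gN`, `gS`.) -/
theorem ti_grid_sum0 {β : Type} [AddCommMonoid β] (D : TDat c) (ℓ tr : ℕ) (Cm : ℝ) (s : GSp k) (F : D.GLab → Lat k → β) :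
    ∑ T ∈ (D.grid ℓ tr Cm s).W 0, F T.1.1 T.2 = ∑ T ∈ D.W 0, F (Sum.inl T.1) T.2 := by
  symm
  have hm : ∀ T ∈ D.W 0, (Sum.inl T.1 : D.GLab) ∈ D.gS ℓ tr s.κ 0 := by
    intro T hT
    unfold TDat.gS
    exact Finset.mem_image.2 ⟨T, hT, rfl⟩
  refine Finset.sum_bij (fun T hT => ((⟨Sum.inl T.1, hm T hT⟩, T.2) : (D.grid ℓ tr Cm s).Lb 0 × Lat k)) ?_ ?_ ?_ ?_
  · intro T hT
    exact (ti47_gW_mem0 D ℓ tr s.κ s.Wn _).2 ⟨T.1, rfl, hT⟩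
  · intro T hT T' hT' h
    have h1 := congrArg (fun U : (D.grid ℓ tr Cm s).Lb 0 × Lat k => U.1.1) h
    have h2 := congrArg (fun U : (D.grid ℓ tr Cm s).Lb 0 × Lat k => U.2) h
    exact Prod.ext (Sum.inl_injective h1) h2
  · intro U hU
    obtain ⟨v, hv, hW⟩ := (ti47_gW_mem0 D ℓ tr s.κ s.Wn U).1 hU
    exact ⟨(v, U.2), hW, Prod.ext (Subtype.ext hv.symm) rfl⟩
  · intro T hT
    rfl

/-- **LEAF L-257-GR-C2: the leaf cells.** -/
theorem ti_grid_cell0 (D : TDat c) (ℓ tr : ℕ) (Cm : ℝ) (s : GSp k) (T : (D.grid ℓ tr Cm s).Lb 0 × Lat k) :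
    T ∈ (D.grid ℓ tr Cm s).W 0 ↔ ∃ v, T.1.1 = Sum.inl v ∧ (v, T.2) ∈ D.W 0 :=
  ti47_gW_mem0 D ℓ tr s.κ s.Wn T

/-- **LEAF L-257-GR-C3: every leaf label occurs.**   (`gS 0` is the image of `D.W 0`.) -/
theorem ti_grid_lab0 (D : TDat c) (ℓ tr : ℕ) (Cm : ℝ) (s : GSp k) (ω : (D.grid ℓ tr Cm s).Lb 0) : ∃ T ∈ D.W 0, ω.1 = Sum.inl T.1 := by
  have h : ω.1 ∈ D.gS ℓ tr s.κ 0 := ω.2
  unfold TDat.gS at h
  obtain ⟨T, hT, h2⟩ := Finset.mem_image.1 h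
  exact ⟨T, hT, h2.symm⟩

/-- **LEAF L-257-GR-C4: the labels of the height `tr`** = the bins which have a leaf.   (A3, A8.) -/
theorem ti_gS_tr (D : TDat c) {ℓ tr : ℕ} (κ : ℕ → ℝ) (h1 : 1 ≤ tr) (htr : tr ≤ ℓ) (x : D.GLab) :
    x ∈ D.gS ℓ tr κ tr ↔ ∃ T ∈ D.W 0, x = Sum.inr (some (D.par 0 T.1), 0) := by
  rw [ti_gS_iff]
  constructor
  · rintro ⟨T, hT, h⟩
    exact ⟨T, hT, h.trans (ti_ganc_tr D κ h1 htr T.1)⟩
  · rintro ⟨T, hT, h⟩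
    exact ⟨T, hT, h.trans (ti_ganc_tr D κ h1 htr T.1).symm⟩

theorem ti47_gW_memtr (D : TDat c) {ℓ tr : ℕ} (κ : ℕ → ℝ) (Wn : ℕ → Finset (Lat k)) (h1 : 1 ≤ tr) (htr : tr ≤ ℓ) (T : {x : D.GLab // x ∈ D.gS ℓ tr κ tr} × Lat k) :
    T ∈ D.gW ℓ tr κ Wn tr ↔ ∃ b, T.1.1 = Sum.inr (some b, 0) ∧ (b, T.2) ∈ D.W 1 := by
  have h0 : tr ≠ 0 := by omega
  unfold TDat.gW
  rw [Finset.mem_filter, Finset.mem_product]
  unfold TDat.gmem TDat.gN
  rw [if_neg h0, if_neg h0, if_pos rfl, if_pos rfl]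
  constructor
  · rintro ⟨_, b, n, hb, hW⟩
    obtain ⟨T', _, hT'⟩ := (ti_gS_tr D κ h1 htr T.1.1).1 T.1.2
    rw [hb] at hT'
    have h3 : n = 0 := by
      have := Sum.inr_injective hT'
      exact (Prod.ext_iff.1 this).2
    rw [h3] at hb
    exact ⟨b, hb, hW⟩
  · rintro ⟨b, hb, hW⟩
    exact ⟨⟨Finset.mem_univ _, Finset.mem_image.2 ⟨(b, T.2), hW, rfl⟩⟩, b, 0, hb, hW⟩

/-- **LEAF L-257-GR-C5: the cells of the height `tr`.**   (`tr ≠ 0`; C4.) -/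
theorem ti_grid_celltr (D : TDat c) {ℓ tr : ℕ} (Cm : ℝ) (s : GSp k) (h1 : 1 ≤ tr) (htr : tr ≤ ℓ) (T : (D.grid ℓ tr Cm s).Lb tr × Lat k) :
    T ∈ (D.grid ℓ tr Cm s).W tr ↔ ∃ b, T.1.1 = Sum.inr (some b, 0) ∧ (b, T.2) ∈ D.W 1 :=
  ti47_gW_memtr D s.κ s.Wn h1 htr T

/-- **LEAF L-257-GR-C6: sums over the cells of the height `tr`.**   (`Finset.sum_bij'` with `(b, m) ↦ (⟨inr (some b, 0), _⟩, m)`; C5.) -/
theorem ti_grid_sumtr {β : Type} [AddCommMonoid β] (D : TDat c) {ℓ tr : ℕ} (Cm : ℝ) (s : GSp k) (h1 : 1 ≤ tr) (htr : tr ≤ ℓ) (F : D.GLab → Lat k → β) :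
    ∑ T ∈ (D.grid ℓ tr Cm s).W tr, F T.1.1 T.2 = ∑ T ∈ (D.W 1).filter (fun T => (Sum.inr (some T.1, 0) : D.GLab) ∈ D.gS ℓ tr s.κ tr), F (Sum.inr (some T.1, 0)) T.2 := by
  symm
  refine Finset.sum_bij (fun T hT => ((⟨Sum.inr (some T.1, 0), (Finset.mem_filter.1 hT).2⟩, T.2) : (D.grid ℓ tr Cm s).Lb tr × Lat k)) ?_ ?_ ?_ ?_
  · intro T hT
    exact (ti_grid_celltr D Cm s h1 htr _).2 ⟨T.1, rfl, (Finset.mem_filter.1 hT).1⟩
  · intro T hT T' hT' h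
    have h1 := congrArg (fun U : (D.grid ℓ tr Cm s).Lb tr × Lat k => U.1.1) h
    have h2 := congrArg (fun U : (D.grid ℓ tr Cm s).Lb tr × Lat k => U.2) h
    have h3 := (Prod.ext_iff.1 (Sum.inr_injective h1)).1
    exact Prod.ext (Option.some_injective _ h3) h2
  · intro U hU
    obtain ⟨b, hb, hW⟩ := (ti_grid_celltr D Cm s h1 htr U).1 hU
    refine ⟨(b, U.2), Finset.mem_filter.2 ⟨hW, ?_⟩, Prod.ext (Subtype.ext hb.symm) rfl⟩
    show (Sum.inr (some b, 0) : D.GLab) ∈ D.gS ℓ tr s.κ tr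
    rw [← hb]
    exact U.1.2
  · intro T hT
    rfl

theorem ti_gfr_at_tr (D : TDat c) (tr : ℕ) (κ : ℕ → ℝ) (b : D.Lb 1) (n : Fin k → ℤ) :
    D.gfr tr κ tr (Sum.inr (some b, n)) = D.fr 1 b := by
  show (if tr ≤ tr then D.fr 1 b else _) = _
  rw [if_pos le_rfl]

/-- **LEAF L-257-GR-C7: native coordinates of the old cells.**   (`rfl` after `rw [hs.κ_zero]`, resp. `hs.κ_tr` and `if_pos le_rfl`; `h : T.1.1 = …` by `rw`.) -/
theorem ti_grid_X (hs : s.Ok D ℓ tr) (Cm : ℝ) :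
    (∀ (T : (D.grid ℓ tr Cm s).Lb 0 × Lat k) (v : D.Lb 0), T.1.1 = Sum.inl v → (∀ z, (D.grid ℓ tr Cm s).X 0 T z = D.X 0 (v, T.2) z) ∧ (D.grid ℓ tr Cm s).ctr 0 T = D.ctr 0 (v, T.2)) ∧
    ∀ (T : (D.grid ℓ tr Cm s).Lb tr × Lat k) (b : D.Lb 1) (n : Fin k → ℤ), T.1.1 = Sum.inr (some b, n) → (∀ z, (D.grid ℓ tr Cm s).X tr T z = D.X 1 (b, T.2) z) ∧ (D.grid ℓ tr Cm s).ctr tr T = D.ctr 1 (b, T.2) := by
  constructor
  · intro T v h
    constructor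
    · intro z
      show natX (s.κ 0) (D.gfr tr s.κ 0 T.1.1) z - lat T.2 = natX (D.κ 0) (D.fr 0 v) z - lat T.2
      rw [h, hs.κ_zero]
      rfl
    · show natI (s.κ 0) (D.gfr tr s.κ 0 T.1.1) (lat T.2) = natI (D.κ 0) (D.fr 0 v) (lat T.2)
      rw [h, hs.κ_zero]
      rfl
  · intro T b n h
    constructor
    · intro z
      show natX (s.κ tr) (D.gfr tr s.κ tr T.1.1) z - lat T.2 = natX (D.κ 1) (D.fr 1 b) z - lat T.2
      rw [h, hs.κ_tr, ti_gfr_at_tr]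
    · show natI (s.κ tr) (D.gfr tr s.κ tr T.1.1) (lat T.2) = natI (D.κ 1) (D.fr 1 b) (lat T.2)
      rw [h, hs.κ_tr, ti_gfr_at_tr]

theorem ti_grid_bin_iff (h2 : D.Two) (b : D.Lb 1) (v : D.Lb 0) : some b = some (D.par 0 v) ↔ D.bin 1 b = D.bin 0 v := by
  constructor
  · intro h
    rw [Option.some.inj h]
    exact h2.bin1 v
  · intro h
    rw [h2.inj1 (h.trans (h2.bin1 v).symm)]

/-- **LEAF L-257-GR-C8: the two-step kernel of a leaf is unchanged.**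
PLAN.  Unfold `TDat.ker` on the left (`0 < tr`), `h2.ker0` on the right.   C6 with `F x m = if D.gbin x = some (par 0 v) then … else 0`; C7 for `wA`, `ctr`.   `some S.1 = some (par 0 v) ↔ D.bin 1 S.1 = D.bin 0 v` (`h2.bin1`, `h2.inj1`).
The filter of C6 is harmless: if `S.1 = par 0 v` then `inr (some S.1, 0) ∈ gS tr` (C4, `hv`): `Finset.sum_filter` + `if_neg`. -/
theorem ti_grid_ker0 (h2 : D.Two) (hs : s.Ok D ℓ tr) (Cm A : ℝ) (T : (D.grid ℓ tr Cm s).Lb 0 × Lat k) (v : D.Lb 0) (hv : T.1.1 = Sum.inl v) (z : ST k) :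
    (D.grid ℓ tr Cm s).ker A 0 T z = D.ker A 0 (v, T.2) z := by
  have h1 := hs.tr_pos
  have htr := hs.tr_le
  obtain ⟨T0, hT0, hT0v⟩ := ti_grid_lab0 D ℓ tr Cm s T.1
  have hv0 : T0.1 = v := by
    rw [hv] at hT0v
    exact (Sum.inl.inj hT0v).symm
  rw [h2.ker0]
  obtain ⟨F, hF⟩ : ∃ F : D.GLab → Lat k → ℝ, F = fun x m =>
      @ite ℝ (D.gbin x = D.gbin T.1.1) (Classical.propDecidable _)
        ((1 + ‖natX (s.κ tr) (D.gfr tr s.κ tr x) z - lat m‖) ^ (-A) *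
          (D.grid ℓ tr Cm s).wA A 0 T (natI (s.κ tr) (D.gfr tr s.κ tr x) (lat m))) 0 := ⟨_, rfl⟩
  have e1 : (D.grid ℓ tr Cm s).ker A 0 T z = ∑ S ∈ (D.grid ℓ tr Cm s).W tr, F S.1.1 S.2 := by
    unfold TDat.ker
    rw [if_pos (show 0 < (c.gr ℓ tr Cm).tr from h1), hF]
    rfl
  refine (e1.trans (ti_grid_sumtr D Cm s h1 htr F)).trans ?_
  rw [Finset.sum_filter]
  refine Finset.sum_congr rfl fun S _ => ?_
  have hcond : D.gbin (Sum.inr (some S.1, 0)) = D.gbin T.1.1 ↔ D.bin 1 S.1 = D.bin 0 v := by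
    rw [hv]
    exact ti_grid_bin_iff h2 S.1 v
  rw [hF]
  by_cases hb : D.bin 1 S.1 = D.bin 0 v
  · have hS : S.1 = D.par 0 v := h2.inj1 (hb.trans (h2.bin1 v).symm)
    have hmem : (Sum.inr (some S.1, 0) : D.GLab) ∈ D.gS ℓ tr s.κ tr :=
      (ti_gS_tr D s.κ h1 htr _).2 ⟨T0, hT0, by rw [hS, hv0]⟩
    rw [if_pos hmem, if_pos hb]
    show @ite ℝ (D.gbin (Sum.inr (some S.1, 0)) = D.gbin T.1.1) (Classical.propDecidable _) _ 0 = _
    rw [if_pos (hcond.2 hb), ti_gfr_at_tr, hs.κ_tr]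
    have e2 : ∀ w, (D.grid ℓ tr Cm s).wA A 0 T w = D.wA A 0 (v, T.2) w := by
      intro w
      unfold TDat.wA
      rw [((ti_grid_X hs Cm).1 T v hv).1 w]
    rw [e2]
    rfl
  · rw [if_neg hb]
    show (if _ then @ite ℝ (D.gbin (Sum.inr (some S.1, 0)) = D.gbin T.1.1) (Classical.propDecidable _) _ 0 else 0) = 0
    rw [if_neg (fun h => hb (hcond.1 h)), ite_self]

/-- **LEAF L-257-GR-C9: the transition mask seen from a leaf label is unchanged.**   (Same proof as C8, `h2.msk0`; `loc j T z = c.χ (X j T z)`.) -/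
theorem ti_grid_msk0 (h2 : D.Two) (hs : s.Ok D ℓ tr) (Cm : ℝ) (ω : (D.grid ℓ tr Cm s).Lb 0) (v : D.Lb 0) (hv : ω.1 = Sum.inl v) (z : ST k) :
    (D.grid ℓ tr Cm s).msk 0 ω z = D.msk 0 v z := by
  have h1 := hs.tr_pos
  have htr := hs.tr_le
  obtain ⟨T0, hT0, hT0v⟩ := ti_grid_lab0 D ℓ tr Cm s ω
  have hv0 : T0.1 = v := by
    rw [hv] at hT0v
    exact (Sum.inl.inj hT0v).symm
  rw [h2.msk0]
  obtain ⟨F, hF⟩ : ∃ F : D.GLab → Lat k → ℂ, F = fun x m =>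
      @ite ℂ (D.gbin x = D.gbin ω.1) (Classical.propDecidable _)
        (c.χ (natX (s.κ tr) (D.gfr tr s.κ tr x) z - lat m)) 0 := ⟨_, rfl⟩
  have e1 : (D.grid ℓ tr Cm s).msk 0 ω z = ∑ S ∈ (D.grid ℓ tr Cm s).W tr, F S.1.1 S.2 := by
    unfold TDat.msk
    rw [if_pos (show 0 < (c.gr ℓ tr Cm).tr from h1), hF]
    rfl
  refine (e1.trans (ti_grid_sumtr D Cm s h1 htr F)).trans ?_
  rw [Finset.sum_filter]
  refine Finset.sum_congr rfl fun S _ => ?_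
  have hcond : D.gbin (Sum.inr (some S.1, 0)) = D.gbin ω.1 ↔ D.bin 1 S.1 = D.bin 0 v := by
    rw [hv]
    exact ti_grid_bin_iff h2 S.1 v
  rw [hF]
  by_cases hb : D.bin 1 S.1 = D.bin 0 v
  · have hS : S.1 = D.par 0 v := h2.inj1 (hb.trans (h2.bin1 v).symm)
    have hmem : (Sum.inr (some S.1, 0) : D.GLab) ∈ D.gS ℓ tr s.κ tr :=
      (ti_gS_tr D s.κ h1 htr _).2 ⟨T0, hT0, by rw [hS, hv0]⟩
    rw [if_pos hmem, if_pos hb]
    show @ite ℂ (D.gbin (Sum.inr (some S.1, 0)) = D.gbin ω.1) (Classical.propDecidable _) _ 0 = _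
    rw [if_pos (hcond.2 hb), ti_gfr_at_tr, hs.κ_tr]
    rfl
  · rw [if_neg hb]
    show (if _ then @ite ℂ (D.gbin (Sum.inr (some S.1, 0)) = D.gbin ω.1) (Classical.propDecidable _) _ 0 else 0) = 0
    rw [if_neg (fun h => hb (hcond.1 h)), ite_self]

/-- **LEAF L-257-GR-C10: the leaf square envelope of a bin is unchanged.**   (C1 with `F x m = if D.gbin x = some b then D.gs0 x m ^ 2 * … else 0`; C7; `some (par 0 v) = some b ↔ D.bin 0 v = D.bin 1 b`.) -/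
theorem ti_grid_eb (h2 : D.Two) (hs : s.Ok D ℓ tr) (Cm : ℝ) (b : D.Lb 1) (z : ST k) : (D.grid ℓ tr Cm s).eb (some b) z = D.eb (D.bin 1 b) z := by
  obtain ⟨F, hF⟩ : ∃ F : D.GLab → Lat k → ℝ, F = fun x m =>
      @ite ℝ (D.gbin x = some b) (Classical.propDecidable _)
        (D.gs0 x m ^ 2 * (1 + ‖natX (s.κ 0) (D.gfr tr s.κ 0 x) z - lat m‖) ^ (-c.P)) 0 := ⟨_, rfl⟩
  have e1 : (D.grid ℓ tr Cm s).eb (some b) z = ∑ T ∈ (D.grid ℓ tr Cm s).W 0, F T.1.1 T.2 := by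
    rw [hF]
    rfl
  refine (e1.trans (ti_grid_sum0 D ℓ tr Cm s F)).trans ?_
  unfold TDat.eb
  refine Finset.sum_congr rfl fun T _ => ?_
  have hcond : D.gbin (Sum.inl T.1) = some b ↔ D.bin 0 T.1 = D.bin 1 b := by
    show some (D.par 0 T.1) = some b ↔ _
    rw [eq_comm, ti_grid_bin_iff h2, eq_comm]
  rw [hF]
  show @ite ℝ (D.gbin (Sum.inl T.1) = some b) (Classical.propDecidable _) _ 0 = _
  by_cases hb : D.bin 0 T.1 = D.bin 1 b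
  · rw [if_pos (hcond.2 hb), if_pos hb, hs.κ_zero]
    rfl
  · rw [if_neg (fun h => hb (hcond.1 h)), if_neg hb]

/-- **LEAF L-257-GR-C11: the masked leaf field is unchanged.**   (`Finset.sum_coe_sort` on both sides, C1, C9; `D'.g0 T = D.gg0 T.1.1 T.2`.) -/
theorem ti_grid_Ev0 (h2 : D.Two) (hs : s.Ok D ℓ tr) (Cm : ℝ) (z : ST k) :
    (D.grid ℓ tr Cm s).Ev 0 (fun T => (D.grid ℓ tr Cm s).g0 T.1) z = D.Ev 0 (fun T => D.g0 T.1) z := by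
  have e1 : (D.grid ℓ tr Cm s).Ev 0 (fun T => (D.grid ℓ tr Cm s).g0 T.1) z =
      ∑ T ∈ (D.grid ℓ tr Cm s).W 0, (D.grid ℓ tr Cm s).msk 0 T.1 z * (D.grid ℓ tr Cm s).g0 T z := by
    unfold TDat.Ev
    exact Finset.sum_coe_sort ((D.grid ℓ tr Cm s).W 0)
      (fun T => (D.grid ℓ tr Cm s).msk 0 T.1 z * (D.grid ℓ tr Cm s).g0 T z)
  have e2 : D.Ev 0 (fun T => D.g0 T.1) z = ∑ T ∈ D.W 0, D.msk 0 T.1 z * D.g0 T z := by
    unfold TDat.Ev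
    exact Finset.sum_coe_sort (D.W 0) (fun T => D.msk 0 T.1 z * D.g0 T z)
  obtain ⟨F, hF⟩ : ∃ F : D.GLab → Lat k → ℂ, F = fun x m =>
      Sum.elim (fun v => D.msk 0 v z) (fun _ => 0) x * D.gg0 x m z := ⟨_, rfl⟩
  have e3 : ∑ T ∈ (D.grid ℓ tr Cm s).W 0, (D.grid ℓ tr Cm s).msk 0 T.1 z * (D.grid ℓ tr Cm s).g0 T z =
      ∑ T ∈ (D.grid ℓ tr Cm s).W 0, F T.1.1 T.2 := by
    refine Finset.sum_congr rfl fun T hT => ?_
    obtain ⟨v, hv, -⟩ := (ti_grid_cell0 D ℓ tr Cm s T).1 hT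
    rw [ti_grid_msk0 h2 hs Cm T.1 v hv z, hF]
    show D.msk 0 v z * D.gg0 T.1.1 T.2 z = Sum.elim (fun v => D.msk 0 v z) (fun _ => 0) T.1.1 * D.gg0 T.1.1 T.2 z
    rw [hv]
    rfl
  rw [e2]
  refine (e1.trans (e3.trans (ti_grid_sum0 D ℓ tr Cm s F))).trans ?_
  rw [hF]
  rfl

/-! ## D. the fields of `Good` -/

/-- **LEAF L-257-GR-D1** (field `bin_inj`).   (C4: the labels of the height `tr` are `inr (some b, 0)`.) -/
theorem ti_grid_bin_inj (D : TDat c) {ℓ tr : ℕ} (Cm : ℝ) (s : GSp k) (h1 : 1 ≤ tr) (htr : tr ≤ ℓ) : Function.Injective ((D.grid ℓ tr Cm s).bin tr) := by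
  intro x y hxy
  obtain ⟨T, _, hT⟩ := (ti_gS_tr D s.κ h1 htr x.1).1 x.2
  obtain ⟨T', _, hT'⟩ := (ti_gS_tr D s.κ h1 htr y.1).1 y.2
  apply Subtype.ext
  have h : D.gbin x.1 = D.gbin y.1 := hxy
  rw [hT, hT'] at h
  have h' : some (D.par 0 T.1) = some (D.par 0 T'.1) := h
  rw [hT, hT', h']

/-- **LEAF L-257-GR-D2** (field `bin_par`).   (Unfold `gpar`: `¬ ℓ ≤ i`; `i + 1 < tr` or `i + 1 = tr`; `gbin (inr p) = p.1`.) -/
theorem ti_grid_bin_par (D : TDat c) {ℓ tr : ℕ} (κ : ℕ → ℝ) (htr : tr ≤ ℓ) (i : ℕ) (hi : i + 1 ≤ tr) (x : D.GLab) : D.gbin (D.gpar ℓ tr κ i x) = D.gbin x := by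
  unfold TDat.gpar
  rw [if_neg (by omega)]
  by_cases h : i + 1 < tr
  · rw [if_pos h]
    rfl
  · rw [if_neg h, if_pos (by omega)]
    rfl

/-- **LEAF L-257-GR-D3** (field `leaf`).   (C2, `hD.leaf (v, T.2)`, `hs.κ_zero`.) -/
theorem ti_grid_leaf (hD : D.Good) (hs : s.Ok D ℓ tr) (Cm : ℝ) (T : (D.grid ℓ tr Cm s).Lb 0 × Lat k) (hT : T ∈ (D.grid ℓ tr Cm s).W 0) :
    IsPk (c.ρ 0) c.M (s.κ 0) ((D.grid ℓ tr Cm s).fr 0 T.1) (lat T.2) ((D.grid ℓ tr Cm s).s0 T) ((D.grid ℓ tr Cm s).g0 T) := by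
  obtain ⟨v, hv, hW⟩ := (ti_grid_cell0 D ℓ tr Cm s T).1 hT
  have h := hD.leaf (v, T.2) hW
  show IsPk (c.ρ 0) c.M (s.κ 0) (D.gfr tr s.κ 0 T.1.1) (lat T.2) (D.gs0 T.1.1 T.2) (D.gg0 T.1.1 T.2)
  rw [hv, hs.κ_zero]
  exact h

theorem ti47_gW_mid (D : TDat c) (ℓ tr : ℕ) (κ : ℕ → ℝ) (Wn : ℕ → Finset (Lat k)) (j : ℕ) (h0 : j ≠ 0) (h1 : j ≠ tr) :
    D.gW ℓ tr κ Wn j = Finset.univ ×ˢ Wn j := by
  unfold TDat.gW
  have h2 : D.gN tr Wn j = Wn j := by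
    unfold TDat.gN
    rw [if_neg h0, if_neg h1]
  rw [h2]
  refine Finset.filter_true_of_mem fun T _ => ?_
  unfold TDat.gmem
  rw [if_neg h0, if_neg h1]
  trivial

/-- **LEAF L-257-GR-D4** (field `win`).   For `j ≠ 0, tr` the cells are `univ ×ˢ s.Wn j`:  `ms j v z = ∑ m ∈ s.Wn j, χ (natX κ_j (fr v) z - lat m)` (`Finset.sum_product`, `Finset.sum_ite_eq`). -/
theorem ti_grid_ms (D : TDat c) (ℓ tr : ℕ) (Cm : ℝ) (s : GSp k) (j : ℕ) (h0 : j ≠ 0) (h1 : j ≠ tr) (v : (D.grid ℓ tr Cm s).Lb j) (z : ST k) :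
    (D.grid ℓ tr Cm s).ms j v z = ∑ m ∈ s.Wn j, c.χ (natX (s.κ j) (D.gfr tr s.κ j v.1) z - lat m) := by
  suffices key : ∀ v' : {x : D.GLab // x ∈ D.gS ℓ tr s.κ j},
      (∑ T ∈ D.gW ℓ tr s.κ s.Wn j, if T.1 = v' then c.χ (natX (s.κ j) (D.gfr tr s.κ j T.1.1) z - lat T.2) else 0)
        = ∑ m ∈ s.Wn j, c.χ (natX (s.κ j) (D.gfr tr s.κ j v'.1) z - lat m) by
    unfold TDat.ms
    refine Eq.trans (Finset.sum_congr rfl fun T _ => ?_) (key v)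
    by_cases h : T.1 = v
    · rw [if_pos h]
      exact (if_pos h).symm
    · rw [if_neg h]
      exact (if_neg h).symm
  intro v'
  rw [ti47_gW_mid D ℓ tr s.κ s.Wn j h0 h1, Finset.sum_product, Finset.sum_eq_single v']
  · exact Finset.sum_congr rfl fun m _ => if_pos rfl
  · intro b _ hb
    exact Finset.sum_eq_zero fun m _ => if_neg hb
  · intro h
    exact absurd (Finset.mem_univ _) h

/-- **LEAF L-257-GR-D5** (field `sq0`).   (C1 with `F x m = D.gs0 x m ^ 2 * (…)`: rewrite termwise with `Finset.sum_congr` + C2 + C8 first, or use `Finset.sum_bij`.) -/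
theorem ti_grid_sq0 (h2 : D.Two) (hs : s.Ok D ℓ tr) (Cm A : ℝ) (z : ST k) :
    ∑ T ∈ (D.grid ℓ tr Cm s).W 0, (D.grid ℓ tr Cm s).s0 T ^ 2 * (D.grid ℓ tr Cm s).ker A 0 T z = ∑ T ∈ D.W 0, D.s0 T ^ 2 * D.ker A 0 T z := by
  have h1 := ti_grid_sum0 D ℓ tr Cm s (fun x m => match x with
    | Sum.inl v => D.s0 (v, m) ^ 2 * D.ker A 0 (v, m) z
    | Sum.inr _ => 0)
  refine Eq.trans (Finset.sum_congr rfl fun T hT => ?_) h1
  obtain ⟨v, hv, hW⟩ := (ti_grid_cell0 D ℓ tr Cm s T).1 hT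
  rw [ti_grid_ker0 h2 hs Cm A T v hv z]
  show D.gs0 T.1.1 T.2 ^ 2 * _ = _
  rw [hv]
  rfl

theorem ti47_eb_nonneg (D : TDat c) (β : D.Bin) (z : ST k) : 0 ≤ D.eb β z := by
  unfold TDat.eb
  refine Finset.sum_nonneg fun T _ => ?_
  split_ifs
  · exact mul_nonneg (sq_nonneg _) (D.wA_pos _ _ _ _).le
  · exact le_rfl

/-- **LEAF L-257-GR-D6** (field `clip`).   The map `v ↦ b` (`v.1 = inr (some b, 0)`, C4) is injective; the terms are `≥ 0` (`eb ≥ 0`: sum of products of squares and `wA_pos`; `hD.Mc_pos`); C10; `Finset.sum_le_sum_of_subset_of_nonneg` after `Finset.sum_image`/`sum_bij`. -/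
theorem ti_grid_clip (hD : D.Good) (h2 : D.Two) (hs : s.Ok D ℓ tr) (Cm : ℝ) (z : ST k) :
    ∑ v : (D.grid ℓ tr Cm s).Lb tr, min ((D.grid ℓ tr Cm s).eb ((D.grid ℓ tr Cm s).bin tr v) z) D.Mc ≤ ∑ b : D.Lb 1, min (D.eb (D.bin 1 b) z) D.Mc := by
  have hex : ∀ v : (D.grid ℓ tr Cm s).Lb tr, ∃ b : D.Lb 1, v.1 = Sum.inr (some b, 0) := by
    intro v
    obtain ⟨T, _, hT⟩ := (ti_gS_tr D s.κ hs.tr_pos hs.tr_le v.1).1 v.2
    exact ⟨_, hT⟩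
  choose f hf using hex
  have hinj : Function.Injective f := by
    intro v v' h
    apply Subtype.ext
    rw [hf v, hf v', h]
  have h3 : ∀ v : (D.grid ℓ tr Cm s).Lb tr, min ((D.grid ℓ tr Cm s).eb ((D.grid ℓ tr Cm s).bin tr v) z) D.Mc = min (D.eb (D.bin 1 (f v)) z) D.Mc := by
    intro v
    have h4 : (D.grid ℓ tr Cm s).bin tr v = some (f v) := by
      show D.gbin v.1 = some (f v)
      rw [hf v]
      rfl
    rw [h4, ti_grid_eb h2 hs]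
  rw [Finset.sum_congr rfl fun v _ => h3 v, ← Finset.sum_image (f := fun b => min (D.eb (D.bin 1 b) z) D.Mc) (fun v _ v' _ h => hinj h)]
  refine Finset.sum_le_sum_of_subset_of_nonneg (Finset.subset_univ _) fun b _ _ => ?_
  exact le_min (ti47_eb_nonneg D _ z) hD.Mc_pos.le

/-- **LEAF L-257-GR-D7: the windows exist.**
PLAN.  For a fixed `i` the set of native points `X = natX (κ i) (gfr i x) (pt y)`, `x ∈ gS i`, `y : D.Y`, is finite.   `hc.χ_pou X` + `HasSum` (`Metric.tendsto_atTop`/`hasSum_iff…`: `∃ t₀, ∀ t ⊇ t₀, ‖∑_{m ∈ t} … - 1‖ < η`); take the union of the `t₀`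
(`Finset.biUnion`, `Classical.choose`). -/
theorem ti_exists_win (hc : c.Ok) (D : TDat c) (ℓ tr : ℕ) (κ : ℕ → ℝ) {η : ℝ} (hη : 0 < η) : ∃ Wn : ℕ → Finset (Lat k), ∀ i, ∀ x ∈ D.gS ℓ tr κ i, ∀ y,
    ‖1 - ∑ m ∈ Wn i, c.χ (natX (κ i) (D.gfr tr κ i x) (D.pt y) - lat m)‖ ≤ η := by
  have h1 : ∀ X : ST k, ∃ t₀ : Finset (Lat k), ∀ t, t₀ ⊆ t → ‖1 - ∑ m ∈ t, c.χ (X - lat m)‖ ≤ η := by
    intro X
    have h2 := hc.χ_pou X
    have h3 := (h2.eventually (Metric.ball_mem_nhds _ hη))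
    obtain ⟨t₀, ht₀⟩ := Filter.eventually_atTop.1 h3
    refine ⟨t₀, fun t ht => ?_⟩
    have h4 := ht₀ t ht
    rw [dist_eq_norm, norm_sub_rev] at h4
    exact h4.le
  choose t₀ ht₀ using h1
  refine ⟨fun i => (D.gS ℓ tr κ i).biUnion fun x => Finset.univ.biUnion fun y => t₀ (natX (κ i) (D.gfr tr κ i x) (D.pt y)), ?_⟩
  intro i x hx y
  refine ht₀ _ _ ?_
  intro m hm
  exact Finset.mem_biUnion.2 ⟨x, hx, Finset.mem_biUnion.2 ⟨y, Finset.mem_univ _, hm⟩⟩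

/-- **the free parameters exist**: any scales `κ`, enlargements `G` and defect `η > 0` with the numerical conditions can be completed by windows -/
theorem ti_exists_gsp (hc : c.Ok) (D : TDat c) {ℓ tr : ℕ} (κ G : ℕ → ℝ) {η : ℝ} (hη : 0 < η) (h1 : 1 ≤ tr) (h2 : tr ≤ ℓ) (h3 : κ 0 = D.κ 0) (h4 : κ tr = D.κ 1) (h5 : ∀ i, 1 ≤ κ i)
    (h6 : ∀ i, κ (i + 1) ≤ κ i) (h7 : ∀ i, ℓ ≤ i → κ i = κ ℓ) (h8 : ∀ i, i + 1 ≤ ℓ → i ≠ 0 → i ≠ tr → i + 1 ≠ tr → 2 * κ (i + 1) ≤ κ i)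
    (h9 : ∀ i, i ≤ ℓ → 1 ≤ G i) (h10 : ∀ i, i < ℓ → 2 * (1 + 2 * (c.Cc + k)) * G (i + 1) ≤ G i) :
    ∃ s : GSp k, s.κ = κ ∧ s.G = G ∧ s.ηw = η ∧ s.Ok D ℓ tr := by
  obtain ⟨Wn, hW⟩ := ti_exists_win hc D ℓ tr κ hη
  exact ⟨⟨κ, G, η, Wn⟩, rfl, rfl, rfl, ⟨h1, h2, h3, h4, h5, h6, h7, h8, h9, h10, hη.le, fun i _ _ x hx y => hW (i + 1) x hx y⟩⟩

/-! ## E. glue: `Good` -/

/-- **the refined tree is good**; the constant `Cm₀` depends only on `k` and on the constants `Cc`, `Cm` of the two-height class -/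
theorem ti_grid_good (k : ℕ) (Cc Cm : ℝ) : ∃ Cm₀ : ℝ, 1 ≤ Cm₀ ∧ ∀ c : TCls k, c.Ok → c.ℓ = 1 → c.tr = 1 → c.Cc = Cc → c.Cm = Cm → ∀ D : TDat c, D.Good →
    ∀ (ℓ tr : ℕ) (s : GSp k), s.Ok D ℓ tr → ∀ Cm' : ℝ, Cm₀ ≤ Cm' → (D.grid ℓ tr Cm' s).Good := by
  obtain ⟨C0, hC0, hmult⟩ := ti_grid_mult k Cc Cm
  obtain ⟨N1, hN1, hcov1⟩ := ti_cover k (3 * Cc + k)
  obtain ⟨N2, hN2, hcov2⟩ := ti_cover k (Cc + k)
  refine ⟨max C0 (max (N1 * C0) (N2 * C0)), le_max_of_le_left hC0, ?_⟩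
  intro c hc h1 h2 hCc hCm D hD ℓ tr s hs Cm' hCm'
  have hT := ti_two h1 h2 D hD
  have hm := hmult c hc hCc hCm D hD hT ℓ tr s hs Cm'
  have hC0' : C0 ≤ Cm' := (le_max_left _ _).trans hCm'
  have hN1' : N1 * C0 ≤ Cm' := ((le_max_left _ _).trans (le_max_right _ _)).trans hCm'
  have hN2' : N2 * C0 ≤ Cm' := ((le_max_right _ _).trans (le_max_right _ _)).trans hCm'
  have hκ0 : ∀ i, 0 < s.κ i := fun i => lt_of_lt_of_le one_pos (hs.one_le_κ i)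
  have hbd := ti_gfr_bdd hc hD hT hs
  exact
    { one_le_κ := hs.one_le_κ
      κ_anti := hs.κ_anti
      par_near := fun i v => ti_gpar_near hc hD hs i v.1 v.2
      top_bdd := fun v => hbd.1 v.1 v.2
      mult := fun i ξ => (hm i ξ).trans hC0'
      nlab := fun i => by
        have h3 := hcov1 ((D.grid ℓ tr Cm' s).Lb i) ((D.grid ℓ tr Cm' s).fr i) (s.κ i) C0 (hκ0 i) (by linarith) (hm i) (s.κ i) (hs.one_le_κ i) 0
        have h4 : (Finset.univ.filter fun v : (D.grid ℓ tr Cm' s).Lb i => ‖(D.grid ℓ tr Cm' s).fr i v - 0‖ ≤ (3 * Cc + k) * s.κ i * (s.κ i)⁻¹) = Finset.univ := by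
          refine Finset.filter_true_of_mem fun v _ => ?_
          rw [sub_zero, mul_assoc, mul_inv_cancel₀ (hκ0 i).ne', mul_one, ← hCc]
          exact hbd.2 i v.1 v.2
        rw [h4, Finset.card_univ] at h3
        exact h3.trans (mul_le_mul_of_nonneg_right hN1' (pow_nonneg (hκ0 i).le _))
      nch := fun i v => by
        have ht : 1 ≤ s.κ i / s.κ (i + 1) := by
          rw [le_div_iff₀ (hκ0 _), one_mul]
          exact hs.κ_anti i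
        have h3 := hcov2 ((D.grid ℓ tr Cm' s).Lb i) ((D.grid ℓ tr Cm' s).fr i) (s.κ i) C0 (hκ0 i) (by linarith) (hm i) (s.κ i / s.κ (i + 1)) ht ((D.grid ℓ tr Cm' s).fr (i + 1) v)
        have h4 : (Finset.univ.filter fun v' => (D.grid ℓ tr Cm' s).par i v' = v) ⊆
            Finset.univ.filter fun v' : (D.grid ℓ tr Cm' s).Lb i => ‖(D.grid ℓ tr Cm' s).fr i v' - (D.grid ℓ tr Cm' s).fr (i + 1) v‖ ≤ (Cc + k) * (s.κ i / s.κ (i + 1)) * (s.κ i)⁻¹ := by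
          intro v' hv'
          rw [Finset.mem_filter] at hv' ⊢
          refine ⟨Finset.mem_univ _, ?_⟩
          have h5 := ti_gpar_near hc hD hs i v'.1 v'.2
          have h6 : (Cc + k) * (s.κ i / s.κ (i + 1)) * (s.κ i)⁻¹ = (c.Cc + k) / s.κ (i + 1) := by
            rw [hCc]
            have := (hκ0 i).ne'
            have := (hκ0 (i + 1)).ne'
            field_simp
          rw [h6, ← hv'.2]
          exact h5
        have h5 : ((Finset.univ.filter fun v' => (D.grid ℓ tr Cm' s).par i v' = v).card : ℝ) ≤ N2 * C0 * (s.κ i / s.κ (i + 1)) ^ k :=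
          le_trans (by exact_mod_cast Finset.card_le_card h4) h3
        exact h5.trans (mul_le_mul_of_nonneg_right hN2' (pow_nonneg (by linarith) _))
      bin_par := fun i hi v => ti_grid_bin_par D s.κ hs.tr_le i hi v.1
      bin_inj := ti_grid_bin_inj D Cm' s hs.tr_pos hs.tr_le
      leaf := fun T hT' => ti_grid_leaf hD hs Cm' T hT'
      sep := hD.sep
      ηw_nonneg := hs.ηw_nonneg
      win := fun i hi hne y v => by
        rw [ti_grid_ms D ℓ tr Cm' s (i + 1) (Nat.succ_ne_zero i) hne v]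
        exact hs.win i hi hne v.1 v.2 y
      one_le_G := hs.one_le_G
      G_step := hs.G_step
      one_le_ϖ := hD.one_le_ϖ
      Mc_pos := hD.Mc_pos
      sq0 := fun y => by
        have h3 := ti_grid_sq0 hT hs Cm' c.P (D.pt y)
        exact h3.le.trans (hD.sq0 y)
      ret := fun S hS => by
        obtain ⟨b, hb, hbW⟩ := (ti_grid_celltr D Cm' s hs.tr_pos hs.tr_le S).1 hS
        have h3 : (D.grid ℓ tr Cm' s).bin tr S.1 = some b := by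
          show D.gbin S.1.1 = some b
          rw [hb]
          rfl
        have h4 := ((ti_grid_X hs Cm').2 S b 0 hb).2
        show (D.grid ℓ tr Cm' s).eb ((D.grid ℓ tr Cm' s).bin tr S.1) ((D.grid ℓ tr Cm' s).ctr tr S) ≤ D.Mc
        rw [h3, h4, ti_grid_eb hT hs]
        exact hT.ret1 (b, S.2) hbW
      clip := fun y => (ti_grid_clip hD hT hs Cm' (D.pt y)).trans (hT.clip1 y) }

/-! ## F. glue: configurations -/

/-- the ancestors of the refined tree -/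
theorem ti_grid_anc (D : TDat c) (ℓ tr : ℕ) (Cm : ℝ) (s : GSp k) (j : ℕ) (ω : (D.grid ℓ tr Cm s).Lb 0) : ((D.grid ℓ tr Cm s).anc j ω).1 = D.ganc ℓ tr s.κ j ω.1 := by
  induction j with
  | zero => rfl
  | succ j ih =>
    show D.gpar ℓ tr s.κ j ((D.grid ℓ tr Cm s).anc j ω).1 = D.gpar ℓ tr s.κ j (D.ganc ℓ tr s.κ j ω.1)
    rw [ih]

theorem ti_grid_anc_surj (D : TDat c) (ℓ tr : ℕ) (Cm : ℝ) (s : GSp k) (j : ℕ) : Function.Surjective ((D.grid ℓ tr Cm s).anc j) := by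
  intro x
  obtain ⟨T, hT, hx⟩ := (ti_gS_iff D ℓ tr s.κ j x.1).1 x.2
  have hm : (Sum.inl T.1 : D.GLab) ∈ D.gS ℓ tr s.κ 0 := (ti_gS_iff D ℓ tr s.κ 0 _).2 ⟨T, hT, rfl⟩
  refine ⟨⟨Sum.inl T.1, hm⟩, Subtype.ext ?_⟩
  rw [hx]
  exact ti_grid_anc D ℓ tr Cm s j ⟨Sum.inl T.1, hm⟩

theorem ti_grid_anc_near (hc : c.Ok) (hD : D.Good) (hs : s.Ok D ℓ tr) (Cm : ℝ) (j : ℕ) (ω : (D.grid ℓ tr Cm s).Lb 0) :
    ‖(D.grid ℓ tr Cm s).fr 0 ω - (D.grid ℓ tr Cm s).fr j ((D.grid ℓ tr Cm s).anc j ω)‖ ≤ (c.Cc + k) / s.κ j := by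
  obtain ⟨T, _, hω⟩ := ti_grid_lab0 D ℓ tr Cm s ω
  show ‖D.gfr tr s.κ 0 ω.1 - D.gfr tr s.κ j ((D.grid ℓ tr Cm s).anc j ω).1‖ ≤ _
  rw [ti_grid_anc, hω]
  exact ti_ganc_near hc hD hs j T.1

/-- **perturbation of transversality** -/
theorem ti_transv_pert {Q δ : ℝ} {ξ ξ' : Fin (k + 1) → E k} (h : Transv Q ξ) (hQ : 0 ≤ Q) (hδ : ∀ i, ‖ξ' i - ξ i‖ ≤ δ) (hQδ : 2 * (Q * δ) ≤ 1) : Transv (2 * Q) ξ' := by
  intro t
  have h1 := h t
  have h2 : ‖∑ i, t i • ξ i‖ ≤ ‖∑ i, t i • ξ' i‖ + δ * ∑ i, |t i| := by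
    have h3 : ∑ i, t i • ξ i = ∑ i, t i • ξ' i - ∑ i, t i • (ξ' i - ξ i) := by
      rw [← Finset.sum_sub_distrib]
      refine Finset.sum_congr rfl fun i _ => ?_
      rw [smul_sub]
      abel
    rw [h3]
    refine (norm_sub_le _ _).trans (add_le_add (le_refl _) ?_)
    refine (norm_sum_le _ _).trans ?_
    rw [Finset.mul_sum]
    refine Finset.sum_le_sum fun i _ => ?_
    rw [norm_smul, Real.norm_eq_abs, mul_comm]
    exact mul_le_mul_of_nonneg_right (hδ i) (abs_nonneg _)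
  have h4 : 0 ≤ ∑ i, |t i| := Finset.sum_nonneg fun i _ => abs_nonneg _
  have h5 : Q * (‖∑ i, t i • ξ i‖ + |∑ i, t i|) ≤ Q * (‖∑ i, t i • ξ' i‖ + |∑ i, t i|) + Q * δ * ∑ i, |t i| := by
    have := mul_le_mul_of_nonneg_left h2 hQ
    nlinarith
  have h6 : Q * δ * ∑ i, |t i| ≤ 1 / 2 * ∑ i, |t i| := mul_le_mul_of_nonneg_right (by linarith) h4
  nlinarith

end

end Claimed.Agent.R257.Tree

namespace Claimed.Agent.R257.FR1.NCfg

open Claimed.Agent.R257 Claimed.Agent.R257.FR2 Claimed.Agent.R257.Tree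
open scoped BigOperators Classical BoundedContinuousFunction

variable {k : ℕ} {c : TCls k}

/-- **transversality of the labels of the height `j`** on a general grid, if `2 K Cc ≤ κ_j` -/
theorem ti_gok_trans {𝔫 : NCfg k c} (h : 𝔫.GOk) (j : ℕ) (hj : ∀ i, 2 * (𝔫.K * c.Cc) ≤ (𝔫.D i).κ j) (lb : ∀ i, (𝔫.D i).Lb j) :
    Transv (2 * 𝔫.K) (fun i => (𝔫.D i).fr j (lb i)) := by
  have hK : 0 ≤ 𝔫.K := by linarith [h.one_le_K]
  choose ω hω using fun i => h.anc_surj i j (lb i)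
  rcases le_or_gt c.Cc 0 with hCc | hCc
  · refine ti_transv_pert (δ := 0) (h.trans ω) hK (fun i => ?_) (by simp)
    have h1 := h.anc_near i j (ω i)
    rw [hω i] at h1
    rw [norm_sub_rev]
    exact h1.trans (div_nonpos_of_nonpos_of_nonneg hCc (by linarith [(h.good i).one_le_κ j]))
  · refine ti_transv_pert (δ := 1 / (2 * 𝔫.K)) (h.trans ω) hK (fun i => ?_) ?_
    · have h1 := h.anc_near i j (ω i)
      rw [hω i] at h1
      rw [norm_sub_rev]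
      refine h1.trans ?_
      have hK' : 0 < 𝔫.K := by linarith [h.one_le_K]
      have hκ : 0 < (𝔫.D i).κ j := by linarith [(h.good i).one_le_κ j]
      rw [div_le_div_iff₀ hκ (by positivity)]
      linarith [hj i]
    · have hK' : 0 < 𝔫.K := by linarith [h.one_le_K]
      have : 𝔫.K * (1 / (2 * 𝔫.K)) = 1 / 2 := by field_simp
      rw [this]
      norm_num

variable (𝔫 : NCfg k c) {ℓ tr : ℕ} {Cm' : ℝ} {s : Fin (k + 1) → GSp k}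

theorem ti_grid_gH (hs : ∀ i, (s i).Ok (𝔫.D i) ℓ tr) (i : Fin (k + 1)) : (𝔫.grid ℓ tr Cm' s).gH i = 𝔫.H i := (hs i).κ_tr

theorem ti_grid_En (hs : ∀ i, (s i).Ok (𝔫.D i) ℓ tr) (i : Fin (k + 1)) : (𝔫.grid ℓ tr Cm' s).En i = 𝔫.En i := by
  have h1 := ti_grid_sum0 (𝔫.D i) ℓ tr Cm' (s i) (fun x m => (𝔫.D i).gs0 x m ^ 2)
  show (s i).κ 0 ^ (k + 2) * ∑ T ∈ ((𝔫.D i).grid ℓ tr Cm' (s i)).W 0, (𝔫.D i).gs0 T.1.1 T.2 ^ 2 = (𝔫.D i).κ 0 ^ (k + 2) * ∑ T ∈ (𝔫.D i).W 0, (𝔫.D i).s0 T ^ 2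
  rw [h1, (hs i).κ_zero]
  rfl

theorem ti_grid_card_tr (D : TDat c) (s : GSp k) (h1 : 1 ≤ tr) (htr : tr ≤ ℓ) : ((D.grid ℓ tr Cm' s).W tr).card ≤ (D.W 1).card := by
  have h2 := ti_grid_sumtr D Cm' s h1 htr (fun _ _ => (1 : ℕ))
  rw [← Finset.card_eq_sum_ones, ← Finset.card_eq_sum_ones] at h2
  rw [h2]
  exact Finset.card_filter_le _ _

/-- the common properties pass to the refined configuration -/
theorem ti_grid_gok (hc : c.Ok) (h1 : c.ℓ = 1) (h2 : c.tr = 1) (h : 𝔫.Ok) (hs : ∀ i, (s i).Ok (𝔫.D i) ℓ tr) (hg : ∀ i, ((𝔫.D i).grid ℓ tr Cm' (s i)).Good) :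
    (𝔫.grid ℓ tr Cm' s).GOk where
  good := hg
  nonempty := h.nonempty
  one_le_K := h.one_le_K
  same := h.same
  high := fun i y => by
    rw [ti_grid_gH 𝔫 hs]
    have h3 : (𝔫.grid ℓ tr Cm' s).root i ((𝔫.grid ℓ tr Cm' s).pt i y) = 𝔫.root i (𝔫.pt i y) :=
      ti_grid_Ev0 (ti_two h1 h2 _ (h.good i)) (hs i) Cm' _
    rw [h3]
    exact h.high i y
  bal_le := fun i => by
    rw [ti_grid_gH 𝔫 hs, ti_grid_En 𝔫 hs]
    exact h.bal_le i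
  le_bal := fun i => by
    rw [ti_grid_gH 𝔫 hs, ti_grid_En 𝔫 hs]
    exact h.le_bal i
  H_cmp := fun i j => by
    rw [ti_grid_gH 𝔫 hs, ti_grid_gH 𝔫 hs]
    exact h.H_cmp i j
  masks := by
    rw [ti_grid_gH 𝔫 hs]
    refine le_trans (mul_le_mul_of_nonneg_right ?_ (sq_nonneg _)) h.masks
    exact_mod_cast ti_grid_card_tr (𝔫.D 𝔫.i₀) (s 𝔫.i₀) (hs 𝔫.i₀).tr_pos (hs 𝔫.i₀).tr_le
  trans := fun lb => by
    choose T hT hlb using fun i => ti_grid_lab0 (𝔫.D i) ℓ tr Cm' (s i) (lb i)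
    have h3 := h.trans (fun i => (T i).1)
    have h4 : (fun i => ((𝔫.grid ℓ tr Cm' s).D i).fr 0 (lb i)) = fun i => (𝔫.D i).fr 0 (T i).1 := by
      funext i
      show (𝔫.D i).gfr tr (s i).κ 0 (lb i).1 = _
      rw [hlb i]
      rfl
    rw [h4]
    exact h3
  ϖ_le := h.ϖ_le
  κ_le := fun i => by
    show (s i).κ 0 ≤ 𝔫.h
    rw [(hs i).κ_zero]
    exact h.κ_le i
  anc_surj := fun i j => ti_grid_anc_surj (𝔫.D i) ℓ tr Cm' (s i) j
  anc_near := fun i j ω => ti_grid_anc_near hc (h.good i) (hs i) Cm' j ω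

/-- **EXIT OF GRID**: with one constant `Cm₀(k, Cc, Cm)`, for every grid `ℓ`, `tr` and all admissible free parameters, the refined configuration has all the properties of the configuration of FR1 -/
theorem ti_grid_main (k : ℕ) (Cc Cm : ℝ) : ∃ Cm₀ : ℝ, 1 ≤ Cm₀ ∧ ∀ c : TCls k, c.Ok → c.ℓ = 1 → c.tr = 1 → c.Cc = Cc → c.Cm = Cm → ∀ (𝔫 : NCfg k c) (ℓ tr : ℕ) (s : Fin (k + 1) → GSp k),
    (∀ i, (s i).Ok (𝔫.D i) ℓ tr) → ∀ Cm' : ℝ, Cm₀ ≤ Cm' →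
      (𝔫.Ok → (𝔫.grid ℓ tr Cm' s).GOk) ∧ (∀ σ c' C₁ β Λ₀ : ℝ, 𝔫.Pow σ c' C₁ β Λ₀ → (𝔫.grid ℓ tr Cm' s).GPow σ c' C₁ β Λ₀) ∧
      ∀ C₁ β E Λ₀ : ℝ, 𝔫.Sub C₁ β E Λ₀ → (𝔫.grid ℓ tr Cm' s).GSub C₁ β E Λ₀ := by
  obtain ⟨Cm₀, hCm₀, hgood⟩ := ti_grid_good k Cc Cm
  refine ⟨Cm₀, hCm₀, ?_⟩
  intro c hc h1 h2 hCc hCm 𝔫 ℓ tr s hs Cm' hCm'
  have hok : 𝔫.Ok → (𝔫.grid ℓ tr Cm' s).GOk := fun h =>
    ti_grid_gok 𝔫 hc h1 h2 h hs fun i => hgood c hc h1 h2 hCc hCm (𝔫.D i) (h.good i) ℓ tr (s i) (hs i) Cm' hCm'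
  refine ⟨hok, ?_, ?_⟩
  · intro σ c' C₁ β Λ₀ h
    exact
      { toGOk := hok h.toOk
        big := h.big
        loss := h.loss
        S_ge := h.S_ge
        S_le := h.S_le
        leaf := fun i => by
          show (s i).κ 0 = 𝔫.h
          rw [(hs i).κ_zero]
          exact h.leaf i
        H_ge := fun i => by
          rw [ti_grid_gH 𝔫 hs]
          exact h.H_ge i }
  · intro C₁ β E Λ₀ h
    exact
      { toGOk := hok h.toOk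
        big := h.big
        loss := h.loss
        H_ge := fun i => by
          rw [ti_grid_gH 𝔫 hs]
          exact h.H_ge i
        leaf := fun i => by
          rw [ti_grid_gH 𝔫 hs]
          show (s i).κ 0 ≤ _
          rw [(hs i).κ_zero]
          exact h.leaf i
        Mc_le := fun i => by
          rw [ti_grid_gH 𝔫 hs]
          exact h.Mc_le i
        le_Mc := fun i => by
          rw [ti_grid_gH 𝔫 hs]
          exact h.le_Mc i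
        occ_le := fun i T hT => by
          obtain ⟨b, hb, hbW⟩ := (ti_grid_celltr (𝔫.D i) Cm' (s i) (hs i).tr_pos (hs i).tr_le T).1 hT
          have h3 := ((ti_grid_X (hs i) Cm').2 T b 0 hb).1
          have h4 : (𝔫.grid ℓ tr Cm' s).gocc i 𝔫.S T = 𝔫.occ i 𝔫.S (b, T.2) := by
            unfold NCfg.gocc NCfg.occ
            congr 1
            refine Finset.filter_congr fun y _ => ?_
            have h5 : ((𝔫.grid ℓ tr Cm' s).D i).X (c.gr ℓ tr Cm').tr T ((𝔫.grid ℓ tr Cm' s).pt i y) = (𝔫.D i).X 1 (b, T.2) (𝔫.pt i y) := h3 _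
            rw [h5]
          show ((𝔫.grid ℓ tr Cm' s).gocc i 𝔫.S T : ℝ) ≤ 𝔫.S ^ C₁
          rw [h4]
          exact h.occ_le i (b, T.2) hbW }

end Claimed.Agent.R257.FR1.NCfg
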