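import Claimed.Agent.R257.Tree.FullDefs
import Claimed.Agent.R257.Tree.Grid

/-!
# ROW 257, unit INST / GRID: NESTED WINDOWS EXIST      (helper162)

NOTHING is sorried in this file.   Definition: `Tree/FullDefs.lean` (`TDat.Full`).
* `ti_full_restr`        restriction of the witnesses keeps `Full`.
* `ti_full_two`          a two-height tree (`c.ℓ = 1`) is `Full` (vacuous).
* `ti_full_rec`          (paper-free) windows chosen from the top height downwards.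
* `ti_full_win`   the windows of GRID: `ti_exists_win` + nestedness.
* **`ti_exists_gsp_full`**   `= ti_exists_gsp` + `∀ Cm, (D.grid ℓ tr Cm s).Full`.
-/

set_option autoImplicit false

namespace Claimed.Agent.R257.Tree

open Claimed.Agent.R257 Claimed.Agent.R257.FR2 Claimed.Agent.R257.FR1
open scoped BigOperators Classical BoundedContinuousFunction

noncomputable section

variable {k : ℕ} {c : TCls k}

theorem ti_full_restr (D : TDat c) (hD : D.Full) (Y₀ : Finset D.Y) : (D.restr Y₀).Full := hD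

theorem ti_full_two (h1 : c.ℓ = 1) (D : TDat c) : D.Full := by
  intro i hi h hh h0
  omega

/-- windows chosen from the top height downwards -/
theorem ti_full_rec {L : Type} (ℓ : ℕ) (base : ℕ → Finset L) (need : ℕ → ℕ → Finset L → Finset L) :
    ∃ Wn : ℕ → Finset L, (∀ h, base h ⊆ Wn h) ∧ ∀ i, i ≤ ℓ → ∀ h, h < i → need h i (Wn i) ⊆ Wn h := by
  have key : ∀ n : ℕ, ∃ Wn : ℕ → Finset L, (∀ h, base h ⊆ Wn h) ∧ ∀ i, i ≤ ℓ → ∀ h, h < i → ℓ ≤ h + n → need h i (Wn i) ⊆ Wn h := by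
    intro n
    induction n with
    | zero => exact ⟨base, fun h => Finset.Subset.refl _, fun i hi h hh hl => by omega⟩
    | succ n ih =>
      obtain ⟨Wn, h1, h2⟩ := ih
      refine ⟨fun h => if h + (n + 1) = ℓ then Wn h ∪ (Finset.range (ℓ + 1)).biUnion (fun i => need h i (Wn i)) else Wn h, ?_, ?_⟩
      · intro h
        by_cases hh : h + (n + 1) = ℓ
        · simp only [if_pos hh]
          exact (h1 h).trans Finset.subset_union_left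
        · simp only [if_neg hh]
          exact h1 h
      · intro i hi h hh hl
        have hi' : ¬ (i + (n + 1) = ℓ) := by omega
        simp only [if_neg hi']
        by_cases he : h + (n + 1) = ℓ
        · simp only [if_pos he]
          refine Finset.Subset.trans ?_ Finset.subset_union_right
          intro m hm
          exact Finset.mem_biUnion.2 ⟨i, Finset.mem_range.2 (by omega), hm⟩
        · simp only [if_neg he]
          exact h2 i hi h hh (by omega)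
  obtain ⟨Wn, h1, h2⟩ := key ℓ
  exact ⟨Wn, h1, fun i hi h hh => h2 i hi h hh (by omega)⟩

/-- **the windows exist, nested** -/
theorem ti_full_win (hc : c.Ok) (D : TDat c) (ℓ tr : ℕ) (κ : ℕ → ℝ) {η : ℝ} (hη : 0 < η) : ∃ Wn : ℕ → Finset (Lat k),
    (∀ i, ∀ x ∈ D.gS ℓ tr κ i, ∀ y, ‖1 - ∑ m ∈ Wn i, c.χ (natX (κ i) (D.gfr tr κ i x) (D.pt y) - lat m)‖ ≤ η) ∧
    ∀ i, i ≤ ℓ → ∀ h, h < i → ∀ x ∈ D.gS ℓ tr κ i, ∀ m ∈ D.gN tr Wn i, ∀ x' ∈ D.gS ℓ tr κ h,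
      ∃ m' ∈ Wn h, ‖natX (κ h) (D.gfr tr κ h x') (natI (κ i) (D.gfr tr κ i x) (lat m)) - lat m'‖ ≤ (k : ℝ) + 1 := by
  have h1 : ∀ X : ST k, ∃ t₀ : Finset (Lat k), ∀ t, t₀ ⊆ t → ‖1 - ∑ m ∈ t, c.χ (X - lat m)‖ ≤ η := by
    intro X
    have h2 := hc.χ_pou X
    have h3 := (h2.eventually (Metric.ball_mem_nhds _ hη))
    obtain ⟨t₀, ht₀⟩ := Filter.eventually_atTop.1 h3
    refine ⟨t₀, fun t ht => ?_⟩
    have h4 := ht₀ t ht
    rw [dist_eq_norm, norm_sub_rev] at h4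
    exact h4.le
  choose t₀ ht₀ using h1
  choose nl hnl using (ti_lat_near (k := k))
  obtain ⟨Wn, hb, hn⟩ := ti_full_rec ℓ
    (fun i => (D.gS ℓ tr κ i).biUnion fun x => Finset.univ.biUnion fun y => t₀ (natX (κ i) (D.gfr tr κ i x) (D.pt y)))
    (fun h i w => ((D.gS ℓ tr κ i) ×ˢ (D.gN tr (fun _ => w) i) ×ˢ (D.gS ℓ tr κ h)).image
      fun p => nl (natX (κ h) (D.gfr tr κ h p.2.2) (natI (κ i) (D.gfr tr κ i p.1) (lat p.2.1))))
  refine ⟨Wn, ?_, ?_⟩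
  · intro i x hx y
    refine ht₀ _ _ ?_
    intro m hm
    exact hb i (Finset.mem_biUnion.2 ⟨x, hx, Finset.mem_biUnion.2 ⟨y, Finset.mem_univ _, hm⟩⟩)
  · intro i hi h hh x hx m hm x' hx'
    refine ⟨nl (natX (κ h) (D.gfr tr κ h x') (natI (κ i) (D.gfr tr κ i x) (lat m))), ?_, hnl _⟩
    apply hn i hi h hh
    refine Finset.mem_image.2 ⟨(x, m, x'), ?_, rfl⟩
    rw [Finset.mem_product, Finset.mem_product]
    exact ⟨hx, hm, hx'⟩

/-- the refined tree with nested windows is `Full` -/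
theorem ti_grid_full (D : TDat c) (ℓ tr : ℕ) (Cm : ℝ) (s : GSp k)
    (H : ∀ i, i ≤ ℓ → ∀ h, h < i → ∀ x ∈ D.gS ℓ tr s.κ i, ∀ m ∈ D.gN tr s.Wn i, ∀ x' ∈ D.gS ℓ tr s.κ h,
      ∃ m' ∈ s.Wn h, ‖natX (s.κ h) (D.gfr tr s.κ h x') (natI (s.κ i) (D.gfr tr s.κ i x) (lat m)) - lat m'‖ ≤ (k : ℝ) + 1) :
    (D.grid ℓ tr Cm s).Full := by
  intro i hi h hh h0 htr T hT v
  have htr' : h ≠ tr := htr
  have aux : ∀ T : {x : D.GLab // x ∈ D.gS ℓ tr s.κ i} × Lat k, T ∈ D.gW ℓ tr s.κ s.Wn i → T.2 ∈ D.gN tr s.Wn i := by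
    intro T hT
    unfold TDat.gW at hT
    exact (Finset.mem_product.1 (Finset.mem_filter.1 hT).1).2
  have aux2 : ∀ (v : {x : D.GLab // x ∈ D.gS ℓ tr s.κ h}) (m' : Lat k), m' ∈ s.Wn h → (v, m') ∈ D.gW ℓ tr s.κ s.Wn h := by
    intro v m' hm'
    unfold TDat.gW
    rw [Finset.mem_filter, Finset.mem_product]
    refine ⟨⟨Finset.mem_univ _, ?_⟩, ?_⟩
    · show m' ∈ D.gN tr s.Wn h
      unfold TDat.gN
      rw [if_neg h0, if_neg htr']
      exact hm'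
    · show D.gmem tr h v.1 m'
      unfold TDat.gmem
      rw [if_neg h0, if_neg htr']
      trivial
  obtain ⟨m', hm', hle⟩ := H i hi h hh T.1.1 T.1.2 T.2 (aux T hT) v.1 v.2
  exact ⟨m', aux2 v m' hm', hle⟩

/-- **the free parameters exist, with nested windows**  (`= ti_exists_gsp` + `Full`) -/
theorem ti_exists_gsp_full (hc : c.Ok) (D : TDat c) {ℓ tr : ℕ} (κ G : ℕ → ℝ) {η : ℝ} (hη : 0 < η) (h1 : 1 ≤ tr) (h2 : tr ≤ ℓ) (h3 : κ 0 = D.κ 0) (h4 : κ tr = D.κ 1) (h5 : ∀ i, 1 ≤ κ i)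
    (h6 : ∀ i, κ (i + 1) ≤ κ i) (h7 : ∀ i, ℓ ≤ i → κ i = κ ℓ) (h8 : ∀ i, i + 1 ≤ ℓ → i ≠ 0 → i ≠ tr → i + 1 ≠ tr → 2 * κ (i + 1) ≤ κ i)
    (h9 : ∀ i, i ≤ ℓ → 1 ≤ G i) (h10 : ∀ i, i < ℓ → 2 * (1 + 2 * (c.Cc + k)) * G (i + 1) ≤ G i) :
    ∃ s : GSp k, s.κ = κ ∧ s.G = G ∧ s.ηw = η ∧ s.Ok D ℓ tr ∧ ∀ Cm : ℝ, (D.grid ℓ tr Cm s).Full := by
  obtain ⟨Wn, hW, hN⟩ := ti_full_win hc D ℓ tr κ hη
  exact ⟨⟨κ, G, η, Wn⟩, rfl, rfl, rfl, ⟨h1, h2, h3, h4, h5, h6, h7, h8, h9, h10, hη.le, fun i _ _ x hx y => hW (i + 1) x hx y⟩,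
    fun Cm => ti_grid_full D ℓ tr Cm ⟨κ, G, η, Wn⟩ hN⟩

end

end Claimed.Agent.R257.Tree
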