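import Claimed.Agent.R257.Tree.Defs
import Claimed.Agent.Lib.BD.Fs

/-!
# ROW 257, unit INST, file 2: ALGEBRA OF THE CONCRETE SYSTEM (cone properties of the class, linearity, the weighted supremum)      (helper155)
-/

set_option autoImplicit false

namespace Claimed.Agent.R257.Tree

open Claimed.Agent.R257 Claimed.Agent.R257.FR2
open scoped BigOperators Classical BoundedContinuousFunction

noncomputable section

variable {k : ℕ}

/-! ## the class is a symmetric convex cone -/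

theorem ti_pk_nonneg {ρ M N : ℝ} {v : E k} {u : ST k} {a : ℝ} {f : ST k → ℂ} (h : IsPk ρ M N v u a f) : 0 ≤ a := by
  obtain ⟨F, -, hd, -⟩ := h
  have := hd u
  simp only [sub_self, norm_zero, add_zero, Real.one_rpow, mul_one] at this
  exact (norm_nonneg _).trans this

theorem ti_env_pos (A : ℝ) (X : ST k) : 0 < (1 + ‖X‖) ^ A := Real.rpow_pos_of_pos (by positivity) _

theorem ti_pk_zero (ρ M N : ℝ) (v : E k) (u : ST k) : IsPk ρ M N v u 0 (fun _ => (0 : ℂ)) :=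
  ⟨fun _ => 0, BD.bdu_FS_zero _, fun X => by simp, fun z => by simp⟩

theorem ti_pk_mono {ρ M N : ℝ} {v : E k} {u : ST k} {a a' : ℝ} {f : ST k → ℂ} (h : IsPk ρ M N v u a f) (ha : a ≤ a') : IsPk ρ M N v u a' f := by
  obtain ⟨F, h1, h2, h3⟩ := h
  exact ⟨F, h1, fun X => (h2 X).trans (mul_le_mul_of_nonneg_right ha (ti_env_pos _ _).le), h3⟩

theorem ti_pk_add {ρ M N : ℝ} {v : E k} {u : ST k} {a a' : ℝ} {f f' : ST k → ℂ} (h : IsPk ρ M N v u a f) (h' : IsPk ρ M N v u a' f') :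
    IsPk ρ M N v u (a + a') (fun z => f z + f' z) := by
  obtain ⟨F, h1, h2, h3⟩ := h
  obtain ⟨F', h1', h2', h3'⟩ := h'
  refine ⟨fun X => F X + F' X, BD.bdu_FS_add h1 h1', fun X => ?_, fun z => ?_⟩
  · rw [add_mul]
    exact (norm_add_le _ _).trans (add_le_add (h2 X) (h2' X))
  · show f z + f' z = car v z * (F (natX N v z) + F' (natX N v z))
    rw [h3, h3', mul_add]

theorem ti_pk_neg {ρ M N : ℝ} {v : E k} {u : ST k} {a : ℝ} {f : ST k → ℂ} (h : IsPk ρ M N v u a f) : IsPk ρ M N v u a (fun z => -f z) := by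
  obtain ⟨F, h1, h2, h3⟩ := h
  refine ⟨fun X => (-1 : ℂ) * F X, BD.bdu_FS_const_mul h1 _, fun X => ?_, fun z => ?_⟩
  · simpa using h2 X
  · show -f z = car v z * ((-1 : ℂ) * F (natX N v z))
    rw [h3]; ring

/-- monotonicity in the Fourier radius -/
theorem ti_pk_mono_rho {ρ ρ' M N : ℝ} {v : E k} {u : ST k} {a : ℝ} {f : ST k → ℂ} (h : IsPk ρ M N v u a f) (hρ : ρ ≤ ρ') : IsPk ρ' M N v u a f := by
  obtain ⟨F, h1, h2, h3⟩ := h
  exact ⟨F, BD.bdu_FS_mono h1 (Metric.closedBall_subset_closedBall hρ), h2, h3⟩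

/-- pointwise bound of a packet -/
theorem ti_pk_le {ρ M N : ℝ} {v : E k} {u : ST k} {a : ℝ} {f : ST k → ℂ} (h : IsPk ρ M N v u a f) (z : ST k) : ‖f z‖ ≤ a * pw M N v u z := by
  obtain ⟨F, -, h2, h3⟩ := h
  rw [h3, norm_mul, norm_car, one_mul]
  exact h2 _

namespace TDat

variable {c : TCls k} (D : TDat c)

theorem wA_pos (A : ℝ) (i : ℕ) (T : D.Lb i × Lat k) (z : ST k) : 0 < D.wA A i T z := ti_env_pos _ _

theorem wA_le_one {A : ℝ} (hA : 0 ≤ A) (i : ℕ) (T : D.Lb i × Lat k) (z : ST k) : D.wA A i T z ≤ 1 := by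
  unfold wA
  exact Real.rpow_le_one_of_one_le_of_nonpos (by linarith [norm_nonneg (D.X i T z)]) (by linarith)

theorem wA_anti {A B : ℝ} (h : A ≤ B) (i : ℕ) (T : D.Lb i × Lat k) (z : ST k) : D.wA B i T z ≤ D.wA A i T z := by
  unfold wA
  exact Real.rpow_le_rpow_of_exponent_le (by linarith [norm_nonneg (D.X i T z)]) (by linarith)

theorem wA_eq_pw (A : ℝ) (i : ℕ) (T : D.Lb i × Lat k) (z : ST k) : D.wA A i T z = pw A (D.κ i) (D.fr i T.1) (lat T.2) z := rfl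

theorem edge_nonneg (A : ℝ) (i : ℕ) (T' : D.Lb i × Lat k) (T : D.Lb (i + 1) × Lat k) : 0 ≤ D.edge A i T' T := by
  unfold edge
  split_ifs
  exacts [(D.wA_pos _ _ _ _).le, le_rfl]

theorem edge_anti {A B : ℝ} (h : A ≤ B) (i : ℕ) (T' : D.Lb i × Lat k) (T : D.Lb (i + 1) × Lat k) : D.edge B i T' T ≤ D.edge A i T' T := by
  unfold edge
  split_ifs
  exacts [D.wA_anti h _ _ _, le_rfl]

theorem ker_nonneg (A : ℝ) (i : ℕ) (T : D.Lb i × Lat k) (z : ST k) : 0 ≤ D.ker A i T z := by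
  unfold ker
  split_ifs
  · refine Finset.sum_nonneg fun S _ => ?_
    split_ifs
    exacts [mul_nonneg (D.wA_pos _ _ _ _).le (D.wA_pos _ _ _ _).le, le_rfl]
  · exact (D.wA_pos _ _ _ _).le

theorem ker_anti {A B : ℝ} (h : A ≤ B) (i : ℕ) (T : D.Lb i × Lat k) (z : ST k) : D.ker B i T z ≤ D.ker A i T z := by
  unfold ker
  split_ifs
  · refine Finset.sum_le_sum fun S _ => ?_
    split_ifs
    exacts [mul_le_mul (D.wA_anti h _ _ _) (D.wA_anti h _ _ _) (D.wA_pos _ _ _ _).le (D.wA_pos _ _ _ _).le, le_rfl]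
  · exact D.wA_anti h _ _ _

theorem bb_nonneg (hs : ∀ T ∈ D.W 0, 0 ≤ D.s0 T) : ∀ i (T : D.Cl i), 0 ≤ D.bb i T
  | 0, T => hs T.1 T.2
  | _ + 1, _ => Real.sqrt_nonneg _

theorem bb_succ_sq (i : ℕ) (T : D.Cl (i + 1)) : D.bb (i + 1) T ^ 2 = ∑ T' : D.Cl i, D.bb i T' ^ 2 * D.edge c.P i T'.1 T.1 := by
  rw [bb, Real.sq_sqrt]
  exact Finset.sum_nonneg fun T' _ => mul_nonneg (sq_nonneg _) (D.edge_nonneg _ _ _ _)

/-! ## linearity -/

theorem pre_add (i : ℕ) (g g' : D.Cl i → (ST k →ᵇ ℂ)) (v : D.Lb (i + 1)) : D.pre i (g + g') v = D.pre i g v + D.pre i g' v := by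
  unfold pre
  rw [← Finset.sum_add_distrib]
  refine Finset.sum_congr rfl fun T _ => ?_
  split_ifs
  · rfl
  · simp

theorem pre_neg (i : ℕ) (g : D.Cl i → (ST k →ᵇ ℂ)) (v : D.Lb (i + 1)) : D.pre i (-g) v = -D.pre i g v := by
  unfold pre
  rw [← Finset.sum_neg_distrib]
  refine Finset.sum_congr rfl fun T _ => ?_
  split_ifs
  · rfl
  · simp

theorem pre_apply (i : ℕ) (g : D.Cl i → (ST k →ᵇ ℂ)) (v : D.Lb (i + 1)) (z : ST k) :
    D.pre i g v z = ∑ T : D.Cl i, if D.par i T.1.1 = v then g T z else 0 := by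
  unfold pre
  rw [BoundedContinuousFunction.sum_apply]
  refine Finset.sum_congr rfl fun T _ => ?_
  split_ifs
  · rfl
  · rfl

theorem asm_add (i : ℕ) (g g' : D.Cl i → (ST k →ᵇ ℂ)) : D.asm i (g + g') = D.asm i g + D.asm i g' := by
  funext T
  show D.loc (i + 1) T.1 * D.pre i (g + g') T.1.1 = D.loc (i + 1) T.1 * D.pre i g T.1.1 + D.loc (i + 1) T.1 * D.pre i g' T.1.1
  rw [pre_add, mul_add]

theorem loc_apply (i : ℕ) (T : D.Lb i × Lat k) (z : ST k) : D.loc i T z = c.χ (D.X i T z) := rfl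

theorem asm_apply (i : ℕ) (g : D.Cl i → (ST k →ᵇ ℂ)) (T : D.Cl (i + 1)) (z : ST k) :
    D.asm i g T z = c.χ (D.X (i + 1) T.1 z) * D.pre i g T.1.1 z := rfl

/-! ## the weighted supremum -/

theorem amp_bdd (hC0 : 0 ≤ c.C0) (i : ℕ) (g : D.Cl i → (ST k →ᵇ ℂ)) (T : D.Cl (i + 1)) :
    BddAbove (Set.range fun z => ‖D.pre i g T.1.1 z‖ * D.wA c.C0 (i + 1) T.1 z) := by
  refine ⟨‖D.pre i g T.1.1‖, ?_⟩
  rintro _ ⟨z, rfl⟩
  calc ‖D.pre i g T.1.1 z‖ * D.wA c.C0 (i + 1) T.1 z ≤ ‖D.pre i g T.1.1‖ * 1 :=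
        mul_le_mul ((D.pre i g T.1.1).norm_coe_le_norm z) (D.wA_le_one hC0 _ _ _) (D.wA_pos _ _ _ _).le (norm_nonneg _)
    _ = _ := mul_one _

theorem amp_nonneg (hχ : 0 ≤ c.Cχ) (i : ℕ) (g : D.Cl i → (ST k →ᵇ ℂ)) (T : D.Cl (i + 1)) : 0 ≤ D.amp i g T :=
  mul_nonneg hχ (Real.iSup_nonneg fun _ => mul_nonneg (norm_nonneg _) (D.wA_pos _ _ _ _).le)

/-- the pointwise bound behind the definition of the amplitude -/
theorem le_amp (hC0 : 0 ≤ c.C0) (hχ : 0 ≤ c.Cχ) (i : ℕ) (g : D.Cl i → (ST k →ᵇ ℂ)) (T : D.Cl (i + 1)) (z : ST k) :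
    c.Cχ * (‖D.pre i g T.1.1 z‖ * D.wA c.C0 (i + 1) T.1 z) ≤ D.amp i g T :=
  mul_le_mul_of_nonneg_left (le_ciSup (D.amp_bdd hC0 i g T) z) hχ

theorem amp_le (hχ : 0 ≤ c.Cχ) (i : ℕ) (g : D.Cl i → (ST k →ᵇ ℂ)) (T : D.Cl (i + 1)) {B : ℝ}
    (h : ∀ z, ‖D.pre i g T.1.1 z‖ * D.wA c.C0 (i + 1) T.1 z ≤ B) : D.amp i g T ≤ c.Cχ * B :=
  mul_le_mul_of_nonneg_left (ciSup_le h) hχ

theorem amp_add (hC0 : 0 ≤ c.C0) (hχ : 0 ≤ c.Cχ) (i : ℕ) (g g' : D.Cl i → (ST k →ᵇ ℂ)) (T : D.Cl (i + 1)) :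
    D.amp i (g + g') T ≤ D.amp i g T + D.amp i g' T := by
  unfold amp
  rw [← mul_add]
  refine mul_le_mul_of_nonneg_left (ciSup_le fun z => ?_) hχ
  rw [pre_add]
  calc ‖(D.pre i g T.1.1 + D.pre i g' T.1.1) z‖ * D.wA c.C0 (i + 1) T.1 z
      ≤ (‖D.pre i g T.1.1 z‖ + ‖D.pre i g' T.1.1 z‖) * D.wA c.C0 (i + 1) T.1 z :=
        mul_le_mul_of_nonneg_right (norm_add_le _ _) (D.wA_pos _ _ _ _).le
    _ = ‖D.pre i g T.1.1 z‖ * D.wA c.C0 (i + 1) T.1 z + ‖D.pre i g' T.1.1 z‖ * D.wA c.C0 (i + 1) T.1 z := add_mul _ _ _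
    _ ≤ _ := add_le_add (le_ciSup (D.amp_bdd hC0 i g T) z) (le_ciSup (D.amp_bdd hC0 i g' T) z)

theorem amp_neg (i : ℕ) (g : D.Cl i → (ST k →ᵇ ℂ)) (T : D.Cl (i + 1)) : D.amp i (-g) T = D.amp i g T := by
  unfold amp
  rw [pre_neg]
  simp

/-- a near-maximiser of the weighted supremum -/
theorem amp_near (hχ : 0 ≤ c.Cχ) (i : ℕ) (g : D.Cl i → (ST k →ᵇ ℂ)) (T : D.Cl (i + 1)) :
    ∃ z, D.amp i g T ≤ 2 * c.Cχ * (‖D.pre i g T.1.1 z‖ * D.wA c.C0 (i + 1) T.1 z) := by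
  set s := ⨆ z, ‖D.pre i g T.1.1 z‖ * D.wA c.C0 (i + 1) T.1 z with hs
  have hs0 : 0 ≤ s := Real.iSup_nonneg fun z => mul_nonneg (norm_nonneg _) (D.wA_pos _ _ _ _).le
  rcases hs0.eq_or_lt with h0 | h0
  · refine ⟨0, ?_⟩
    have : D.amp i g T = 0 := by unfold amp; rw [← hs, ← h0, mul_zero]
    rw [this]
    exact mul_nonneg (mul_nonneg zero_le_two hχ) (mul_nonneg (norm_nonneg _) (D.wA_pos _ _ _ _).le)
  · obtain ⟨z, hz⟩ := exists_lt_of_lt_ciSup (show s / 2 < s by linarith)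
    refine ⟨z, ?_⟩
    have : D.amp i g T = c.Cχ * s := rfl
    rw [this]
    nlinarith

end TDat

end

end Claimed.Agent.R257.Tree
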