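import Claimed.Agent.R257.Tree.AngG

/-!
# ROW 257, unit ANG-INST, file 3: ONE STEP OF THE HIERARCHY FOR A GENERAL ORDER AND FOR PLATE-SUPPORTED FAMILIES ((HQ), (HP))      (helper37)

PROVED, no sorry.   Generalisation of `Tree/Hier.lean` (helper155, helper291, helper122): the order `c.Q` of the kernel is replaced by ANY order `A` with `0 ≤ A`, `A + k + 2 ≤ C0`; the families are supported on the labels in `U`.
* `CapEst D i p A Cw U`   the weighted estimate in one parent cap at separated native points (conclusion of `ti_wt_cap`), constant `Cw`, for the families supported in `U` and the weights vanishing off `U`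
* `tia_hier_term`         one term (copy of `ti_hier_term`, order `A`)
* `tia_hier_of_cap`       `CapEst` ⟹ one step of the hierarchy, weights dominated through `edge A`
* `tia_cap_full`          `CapEst` from `WtAt k p A M` (`U = ⊤`)
* `tia_cap_pl`            `CapEst` from `WtPl k p A M` (`U` = the labels in an enlarged strip)
-/

set_option autoImplicit false

namespace Claimed.Agent.R257.Tree

open Claimed.Agent.R257 Claimed.Agent.R257.FR2
open scoped BigOperators Classical BoundedContinuousFunction InnerProductSpace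

noncomputable section

variable {k : ℕ} {c : TCls k}

/-- the weighted estimate in one parent cap at separated native points -/
def CapEst (D : TDat c) (i : ℕ) (p A Cw : ℝ) (U : D.Lb i → Prop) : Prop :=
  ∀ (g : D.Cl i → (ST k →ᵇ ℂ)) (a : D.Cl i → ℝ), D.Adm i g a → (∀ T', a T' ≠ 0 → U T'.1.1) → ∀ b' : D.Cl i → ℝ, (∀ T', 0 ≤ b' T') → (∀ T', a T' ≠ 0 → 0 < b' T') →
    (∀ T', ¬ U T'.1.1 → b' T' = 0) → ∀ (v : D.Lb (i + 1)) (Yn : Finset (ST k)), USep Yn →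
      ∑ X ∈ Yn, (∑ T' : D.Cl i, if D.par i T'.1.1 = v then b' T' ^ 2 * D.wA A i T'.1 (natI (D.κ (i + 1)) (D.fr (i + 1) v) X) else 0) ^ ((2 - p) / 2)
          * ‖D.pre i g v (natI (D.κ (i + 1)) (D.fr (i + 1) v) X)‖ ^ p
        ≤ Cw * (D.κ i / D.κ (i + 1)) ^ (k + 2) * ∑ T' : D.Cl i, if D.par i T'.1.1 = v then a T' ^ p * b' T' ^ (2 - p) else 0

/-- one term, order `A` (copy of `ti_hier_term`) -/
theorem tia_hier_term (hc : c.Ok) {p A : ℝ} (hp : 2 < p) (hQ : 0 ≤ A) : ∃ C : ℝ, 1 ≤ C ∧ ∀ D : TDat c, D.Good → ∀ i,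
    ∀ (g : D.Cl i → (ST k →ᵇ ℂ)) (a : D.Cl i → ℝ), D.Adm i g a → ∀ b' : D.Cl i → ℝ, (∀ T', 0 ≤ b' T') → (∀ T', a T' ≠ 0 → 0 < b' T') →
    ∀ (T : D.Cl (i + 1)) (β : ℝ), 0 ≤ β → ∑ T' : D.Cl i, b' T' ^ 2 * D.edge A i T'.1 T.1 ≤ β ^ 2 →
    ∃ z : ST k, D.amp i g T ^ p * β ^ (2 - p) ≤
      C * ((∑ T' : D.Cl i, if D.par i T'.1.1 = T.1.1 then b' T' ^ 2 * D.wA A i T'.1 z else 0) ^ ((2 - p) / 2) * ‖D.pre i g T.1.1 z‖ ^ p)
        * (1 + ‖D.X (i + 1) T.1 z‖) ^ (-(c.C0 * p - A * (p - 2) / 2)) := by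
  have hk0 : (0 : ℝ) ≤ k := Nat.cast_nonneg k
  have hχ : 0 ≤ c.Cχ := by linarith [hc.one_le_Cχ]
  have hCc : 0 ≤ c.Cc := by linarith [hc.one_le_Cc]
  have hC1 : 1 ≤ (2 * c.Cχ) ^ p := Real.one_le_rpow (by linarith [hc.one_le_Cχ]) (by linarith)
  have hC2 : 1 ≤ (1 + 2 * c.Cc) ^ (A * (p - 2) / 2) := Real.one_le_rpow (by linarith) (by
    have : 0 ≤ A * (p - 2) := mul_nonneg hQ (by linarith)
    linarith)
  refine ⟨(2 * c.Cχ) ^ p * (1 + 2 * c.Cc) ^ (A * (p - 2) / 2), one_le_mul_of_one_le_of_one_le hC1 hC2, ?_⟩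
  intro D hD i g a h b' hb' hab T β hβ hdom
  obtain ⟨z, hz⟩ := D.amp_near hχ i g T
  refine ⟨z, ?_⟩
  set B2 : ℝ := ∑ T' : D.Cl i, if D.par i T'.1.1 = T.1.1 then b' T' ^ 2 * D.wA A i T'.1 z else 0 with hB2
  have hB20 : 0 ≤ B2 := Finset.sum_nonneg fun T' _ => by
    split_ifs
    exacts [mul_nonneg (sq_nonneg _) (D.wA_pos _ _ _ _).le, le_rfl]
  have hrhs : 0 ≤ (2 * c.Cχ) ^ p * (1 + 2 * c.Cc) ^ (A * (p - 2) / 2) * (B2 ^ ((2 - p) / 2) * ‖D.pre i g T.1.1 z‖ ^ p)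
      * (1 + ‖D.X (i + 1) T.1 z‖) ^ (-(c.C0 * p - A * (p - 2) / 2)) := by positivity
  rcases hβ.eq_or_lt with hβ0 | hβ0
  · rw [← hβ0, Real.zero_rpow (by linarith), mul_zero]
    exact hrhs
  rcases hB20.eq_or_lt with hB0 | hB0
  · have hzero : ∀ T' : D.Cl i, D.par i T'.1.1 = T.1.1 → a T' = 0 := by
      intro T' hp'
      by_contra hne
      have h1 := hab T' hne
      have h2 : 0 < (if D.par i T'.1.1 = T.1.1 then b' T' ^ 2 * D.wA A i T'.1 z else 0) := by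
        rw [if_pos hp']
        exact mul_pos (by positivity) (D.wA_pos _ _ _ _)
      have h3 : (if D.par i T'.1.1 = T.1.1 then b' T' ^ 2 * D.wA A i T'.1 z else 0) ≤ B2 :=
        Finset.single_le_sum (f := fun T' : D.Cl i => if D.par i T'.1.1 = T.1.1 then b' T' ^ 2 * D.wA A i T'.1 z else 0) (fun T'' _ => by
          split_ifs
          exacts [mul_nonneg (sq_nonneg _) (D.wA_pos _ _ _ _).le, le_rfl]) (Finset.mem_univ T')
      linarith
    have hpre : D.pre i g T.1.1 z = 0 := by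
      rw [TDat.pre_apply]
      refine Finset.sum_eq_zero fun T' _ => ?_
      split_ifs with hp'
      · have := ti_pk_le (h T') z
        rw [hzero T' hp', zero_mul] at this
        exact norm_le_zero_iff.1 this
      · rfl
    have hamp : D.amp i g T = 0 := by
      rw [hpre, norm_zero, zero_mul, mul_zero] at hz
      exact le_antisymm hz (D.amp_nonneg hχ i g T)
    rw [hamp, Real.zero_rpow (by linarith), zero_mul]
    exact hrhs
  · have h2 : B2 ≤ (1 + 2 * c.Cc) ^ A * (1 + ‖D.X (i + 1) T.1 z‖) ^ A * β ^ 2 := by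
      refine le_trans ?_ (mul_le_mul_of_nonneg_left hdom (by positivity))
      rw [hB2, Finset.mul_sum]
      refine Finset.sum_le_sum fun T' _ => ?_
      split_ifs with hp'
      · calc b' T' ^ 2 * D.wA A i T'.1 z ≤ b' T' ^ 2 * ((1 + 2 * c.Cc) ^ A * (1 + ‖D.X (i + 1) T.1 z‖) ^ A * D.edge A i T'.1 T.1) :=
              mul_le_mul_of_nonneg_left (ti_edge_ge hc D hD hQ i T'.1 T.1 hp' z) (sq_nonneg _)
          _ = _ := by ring
      · exact mul_nonneg (by positivity) (mul_nonneg (sq_nonneg _) (D.edge_nonneg _ _ _ _))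
    exact ti_term_real hp (D.amp_nonneg hχ i g T) (norm_nonneg _) hβ0 hB0 (norm_nonneg _) (by linarith) (by linarith) hz h2

/-- **`CapEst` ⟹ one step of the hierarchy** (order `A`, support `U`) -/
theorem tia_hier_of_cap (hc : c.Ok) {p A : ℝ} (hp : 2 < p) (hA : 0 ≤ A) (hAC : A + k + 2 ≤ c.C0) : ∃ C : ℝ, 1 ≤ C ∧ ∀ D : TDat c, D.Good → ∀ (i : ℕ) (U : D.Lb i → Prop) (Cw : ℝ),
    0 ≤ Cw → CapEst D i p A Cw U →
    ∀ (g : D.Cl i → (ST k →ᵇ ℂ)) (a : D.Cl i → ℝ), D.Adm i g a → (∀ T', a T' ≠ 0 → U T'.1.1) → ∀ (b' : D.Cl i → ℝ) (b : D.Cl (i + 1) → ℝ), (∀ T', 0 ≤ b' T') →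
    (∀ T', a T' ≠ 0 → 0 < b' T') → (∀ T, 0 ≤ b T) → (∀ T, ∑ T' : D.Cl i, b' T' ^ 2 * D.edge A i T'.1 T.1 ≤ b T ^ 2) →
      ∑ T : D.Cl (i + 1), D.κ (i + 1) ^ (k + 2) * D.amp i g T ^ p * b T ^ (2 - p)
        ≤ C * Cw * ∑ T' : D.Cl i, D.κ i ^ (k + 2) * a T' ^ p * b' T' ^ (2 - p) := by
  have hk0 : (0 : ℝ) ≤ k := Nat.cast_nonneg k
  have hE : (k : ℝ) + 1 < c.C0 * p - A * (p - 2) / 2 := by
    have h2 : (A + k + 2) * p ≤ c.C0 * p := mul_le_mul_of_nonneg_right hAC (by linarith)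
    have h3 : 0 ≤ A * p := mul_nonneg hA (by linarith)
    have h4 : ((k : ℝ) + 2) * 2 ≤ ((k : ℝ) + 2) * p := mul_le_mul_of_nonneg_left hp.le (by linarith)
    nlinarith
  obtain ⟨C₁, hC₁, hterm⟩ := tia_hier_term hc hp hA
  obtain ⟨Cs, hCs1, hCs⟩ := ti_sup_pts (k := k) hE
  refine ⟨C₁ * Cs, one_le_mul_of_one_le_of_one_le hC₁ hCs1, ?_⟩
  intro D hD i U Cw hCw hcap g a h hU b₀ b hb₀ hab₀ hb hdom₀
  have hK : 0 < D.κ (i + 1) := by linarith [hD.one_le_κ (i + 1)]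
  -- the weights restricted to `U`
  obtain ⟨b', hb'def⟩ : ∃ b' : D.Cl i → ℝ, ∀ T', b' T' = if U T'.1.1 then b₀ T' else 0 := ⟨_, fun _ => rfl⟩
  have hb' : ∀ T', 0 ≤ b' T' := fun T' => by
    rw [hb'def]
    split_ifs
    exacts [hb₀ T', le_rfl]
  have hab : ∀ T', a T' ≠ 0 → 0 < b' T' := fun T' hne => by
    rw [hb'def, if_pos (hU T' hne)]
    exact hab₀ T' hne
  have hoff : ∀ T', ¬ U T'.1.1 → b' T' = 0 := fun T' hn => by rw [hb'def, if_neg hn]
  have hdom : ∀ T, ∑ T' : D.Cl i, b' T' ^ 2 * D.edge A i T'.1 T.1 ≤ b T ^ 2 := fun T => by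
    refine le_trans (Finset.sum_le_sum fun T' _ => ?_) (hdom₀ T)
    refine mul_le_mul_of_nonneg_right ?_ (D.edge_nonneg _ _ _ _)
    rw [hb'def]
    split_ifs
    · exact le_rfl
    · simpa using sq_nonneg (b₀ T')
  have hterms : ∀ T', a T' ^ p * b' T' ^ (2 - p) = a T' ^ p * b₀ T' ^ (2 - p) := fun T' => by
    by_cases hn : U T'.1.1
    · rw [hb'def, if_pos hn]
    · have : a T' = 0 := by
        by_contra hne
        exact hn (hU T' hne)
      rw [this, Real.zero_rpow (by linarith), zero_mul, zero_mul]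
  have hcapv : ∀ v : D.Lb (i + 1), ∑ T : D.Cl (i + 1), (if T.1.1 = v then D.amp i g T ^ p * b T ^ (2 - p) else 0)
      ≤ C₁ * Cs * Cw * (D.κ i / D.κ (i + 1)) ^ (k + 2) * ∑ T' : D.Cl i, if D.par i T'.1.1 = v then a T' ^ p * b₀ T' ^ (2 - p) else 0 := by
    intro v
    set Φ : ST k → ℝ := fun X => (∑ T' : D.Cl i, if D.par i T'.1.1 = v then b' T' ^ 2 * D.wA A i T'.1 (natI (D.κ (i + 1)) (D.fr (i + 1) v) X) else 0) ^ ((2 - p) / 2)
            * ‖D.pre i g v (natI (D.κ (i + 1)) (D.fr (i + 1) v) X)‖ ^ p with hΦdef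
    have hΦ : ∀ X, 0 ≤ Φ X := by
      intro X
      refine mul_nonneg (Real.rpow_nonneg (Finset.sum_nonneg fun T' _ => ?_) _) (Real.rpow_nonneg (norm_nonneg _) _)
      split_ifs
      exacts [mul_nonneg (sq_nonneg _) (D.wA_pos _ _ _ _).le, le_rfl]
    obtain ⟨Y, hY, hsum⟩ := ti_cap_pts D hCs (i + 1) v (fun T => D.amp i g T ^ p * b T ^ (2 - p)) Φ hΦ (by linarith : (0 : ℝ) ≤ C₁) (by
      intro T hT
      obtain ⟨z, hz⟩ := hterm D hD i g a h b' hb' hab T (b T) (hb T) (hdom T)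
      refine ⟨natX (D.κ (i + 1)) (D.fr (i + 1) v) z, ?_⟩
      rw [hΦdef]
      beta_reduce
      rw [natI_natX hK.ne']
      rw [hT] at hz
      have e : D.X (i + 1) T.1 z = natX (D.κ (i + 1)) (D.fr (i + 1) v) z - lat T.1.2 := by
        unfold TDat.X
        rw [hT]
      rw [e] at hz
      exact hz)
    refine hsum.trans ?_
    have h2 := hcap g a h hU b' hb' hab hoff v Y hY
    simp only [hterms] at h2
    calc C₁ * Cs * ∑ X ∈ Y, Φ X
        ≤ C₁ * Cs * (Cw * (D.κ i / D.κ (i + 1)) ^ (k + 2) * ∑ T' : D.Cl i, if D.par i T'.1.1 = v then a T' ^ p * b₀ T' ^ (2 - p) else 0) :=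
          mul_le_mul_of_nonneg_left h2 (by positivity)
      _ = _ := by ring
  have := ti_sum_caps D hD i (fun T => D.amp i g T ^ p * b T ^ (2 - p)) (fun T' => a T' ^ p * b₀ T' ^ (2 - p)) (A := C₁ * Cs * Cw) hcapv
  simpa only [mul_assoc] using this

/-- `CapEst` from `WtAt` (order `A`, no support condition; copy of `ti_wt_cap`) -/
theorem tia_cap_full (hc : c.Ok) {p A : ℝ} (hW : WtAt k p A c.M) {ε : ℝ} (hε : 0 < ε) : ∃ C : ℝ, 1 ≤ C ∧ ∀ D : TDat c, D.Good → ∀ i, i < c.ℓ →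
    CapEst D i p A (C * (D.κ i / D.κ (i + 1)) ^ ε) (fun _ => True) := by
  obtain ⟨C, hC, h⟩ := hW (c.ρ c.ℓ) c.Cc c.Cm ε hε
  refine ⟨C, hC, ?_⟩
  intro D hD i hi g a hAdm _ b' hb hab _ v Yn hY
  have hK : 0 < D.κ (i + 1) := lt_of_lt_of_le one_pos (hD.one_le_κ _)
  have hN : 1 ≤ D.κ i / D.κ (i + 1) := by
    rw [le_div_iff₀ hK, one_mul]
    exact hD.κ_anti i
  have key := h (D.κ i / D.κ (i + 1)) hN (D.Lb i) (fun v' => D.κ (i + 1) • (D.fr i v' - D.fr (i + 1) v)) (ti_h1_mult D hD i v)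
    ((D.W i).filter fun T => D.par i T.1 = v) (fun T => if h : T ∈ D.W i then a ⟨T, h⟩ else 0) (fun T => if h : T ∈ D.W i then b' ⟨T, h⟩ else 0)
    (fun T X => if h : T ∈ D.W i then (car (D.fr (i + 1) v) (natI (D.κ (i + 1)) (D.fr (i + 1) v) X))⁻¹ * g ⟨T, h⟩ (natI (D.κ (i + 1)) (D.fr (i + 1) v) X) else 0)
    (fun T hT => by
      have := ti_h1_bdd D hD i T.1
      rw [(Finset.mem_filter.1 hT).2] at this
      exact this)
    (fun T hT => ti_h1_pk hc D hD i hi g a hAdm v T (Finset.mem_filter.1 hT).1)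
    (fun T hT => by
      simp only [dif_pos (Finset.mem_filter.1 hT).1]
      exact hb _)
    (fun T hT => by
      simp only [dif_pos (Finset.mem_filter.1 hT).1]
      exact hab _)
    Yn hY
  refine le_trans (le_of_eq ?_) (key.trans (le_of_eq ?_))
  · refine Finset.sum_congr rfl fun X _ => ?_
    rw [ti_h1_fld, ti_h1_sum]
    congr 2
    refine Finset.sum_congr rfl fun T' _ => ?_
    rw [dif_pos T'.2, ti_h1_pw D hD]
  · rw [ti_h1_sum]
    congr 1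
    refine Finset.sum_congr rfl fun T' _ => ?_
    rw [dif_pos T'.2, dif_pos T'.2]

/-- `CapEst` from `WtPl` (order `A`, the families supported on the labels of an enlarged strip) -/
theorem tia_cap_pl (hc : c.Ok) {p A : ℝ} (hp : 2 < p) (hW : WtPl k p A c.M) (Cs : ℝ) {ε : ℝ} (hε : 0 < ε) : ∃ C : ℝ, 1 ≤ C ∧ ∀ D : TDat c, D.Good → ∀ i, i < c.ℓ →
    ∀ {bot lam : ℕ} (σ : TStr k bot lam), CapEst D i p A (C * (D.κ i / D.κ (i + 1)) ^ ε) (fun v => D.sinS Cs i σ v) := by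
  obtain ⟨C, hC, h⟩ := hW (c.ρ c.ℓ) c.Cc c.Cm (Cs + c.ℓ * c.Cc) ε hε
  refine ⟨C, hC, ?_⟩
  intro D hD i hi bot lam σ g a hAdm hU b' hb hab hoff v Yn hY
  have hK : 0 < D.κ (i + 1) := lt_of_lt_of_le one_pos (hD.one_le_κ _)
  have hK' : 0 < D.κ i := lt_of_lt_of_le one_pos (hD.one_le_κ _)
  have hCc : 0 ≤ c.Cc := by linarith [hc.one_le_Cc]
  have hN : 1 ≤ D.κ i / D.κ (i + 1) := by
    rw [le_div_iff₀ hK, one_mul]
    exact hD.κ_anti i
  have key := h (D.κ i / D.κ (i + 1)) hN (D.Lb i) (fun v' => D.κ (i + 1) • (D.fr i v' - D.fr (i + 1) v)) (ti_h1_mult D hD i v)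
    (((D.W i).filter fun T => D.par i T.1 = v).filter fun T => D.sinS Cs i σ T.1) (fun T => if h : T ∈ D.W i then a ⟨T, h⟩ else 0) (fun T => if h : T ∈ D.W i then b' ⟨T, h⟩ else 0)
    (fun T X => if h : T ∈ D.W i then (car (D.fr (i + 1) v) (natI (D.κ (i + 1)) (D.fr (i + 1) v) X))⁻¹ * g ⟨T, h⟩ (natI (D.κ (i + 1)) (D.fr (i + 1) v) X) else 0)
    (fun T hT => by
      have := ti_h1_bdd D hD i T.1
      rw [(Finset.mem_filter.1 (Finset.mem_filter.1 hT).1).2] at this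
      exact this)
    (fun T hT => ti_h1_pk hc D hD i hi g a hAdm v T (Finset.mem_filter.1 (Finset.mem_filter.1 hT).1).1)
    (fun T hT => by
      simp only [dif_pos (Finset.mem_filter.1 (Finset.mem_filter.1 hT).1).1]
      exact hb _)
    (fun T hT => by
      simp only [dif_pos (Finset.mem_filter.1 (Finset.mem_filter.1 hT).1).1]
      exact hab _)
    σ.n (D.κ (i + 1) * (σ.t - ⟪D.fr (i + 1) v, σ.n⟫_ℝ)) σ.nrm
    (fun T hT => by
      have h1 : |⟪D.fr i T.1, σ.n⟫_ℝ - σ.t| ≤ (Cs + i * c.Cc) / D.κ i := (Finset.mem_filter.1 hT).2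
      have e : ⟪D.κ (i + 1) • (D.fr i T.1 - D.fr (i + 1) v), σ.n⟫_ℝ - D.κ (i + 1) * (σ.t - ⟪D.fr (i + 1) v, σ.n⟫_ℝ) = D.κ (i + 1) * (⟪D.fr i T.1, σ.n⟫_ℝ - σ.t) := by
        rw [real_inner_smul_left, inner_sub_left]
        ring
      rw [e, abs_mul, abs_of_pos hK]
      have h2 : (i : ℝ) * c.Cc ≤ c.ℓ * c.Cc := mul_le_mul_of_nonneg_right (by exact_mod_cast hi.le) hCc
      calc D.κ (i + 1) * |⟪D.fr i T.1, σ.n⟫_ℝ - σ.t| ≤ D.κ (i + 1) * ((Cs + c.ℓ * c.Cc) / D.κ i) := by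
            refine mul_le_mul_of_nonneg_left (h1.trans ?_) hK.le
            exact div_le_div_of_nonneg_right (by linarith) hK'.le
        _ = (Cs + c.ℓ * c.Cc) / (D.κ i / D.κ (i + 1)) := by
            field_simp)
    Yn hY
  -- the terms off the strip vanish
  have ha0 : ∀ T : D.Lb i × Lat k, ∀ hT : T ∈ D.W i, ¬ D.sinS Cs i σ T.1 → a ⟨T, hT⟩ = 0 := fun T hT hn => by
    by_contra hne
    exact hn (hU ⟨T, hT⟩ hne)
  have e1 : ∀ X : ST k, ∑ T ∈ ((D.W i).filter fun T => D.par i T.1 = v).filter (fun T => D.sinS Cs i σ T.1), (if h : T ∈ D.W i then b' ⟨T, h⟩ else 0) ^ 2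
        * pw A (D.κ i / D.κ (i + 1)) (D.κ (i + 1) • (D.fr i T.1 - D.fr (i + 1) v)) (lat T.2) X
      = ∑ T ∈ (D.W i).filter (fun T => D.par i T.1 = v), (if h : T ∈ D.W i then b' ⟨T, h⟩ else 0) ^ 2
        * pw A (D.κ i / D.κ (i + 1)) (D.κ (i + 1) • (D.fr i T.1 - D.fr (i + 1) v)) (lat T.2) X := fun X => by
    refine Finset.sum_filter_of_ne fun T hT hne => ?_
    by_contra hn
    refine hne ?_
    rw [dif_pos (Finset.mem_filter.1 hT).1, hoff ⟨T, (Finset.mem_filter.1 hT).1⟩ hn]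
    simp
  have e2 : ∀ X : ST k, ∑ T ∈ ((D.W i).filter fun T => D.par i T.1 = v).filter (fun T => D.sinS Cs i σ T.1),
        (if h : T ∈ D.W i then (car (D.fr (i + 1) v) (natI (D.κ (i + 1)) (D.fr (i + 1) v) X))⁻¹ * g ⟨T, h⟩ (natI (D.κ (i + 1)) (D.fr (i + 1) v) X) else 0)
      = ∑ T ∈ (D.W i).filter (fun T => D.par i T.1 = v),
        (if h : T ∈ D.W i then (car (D.fr (i + 1) v) (natI (D.κ (i + 1)) (D.fr (i + 1) v) X))⁻¹ * g ⟨T, h⟩ (natI (D.κ (i + 1)) (D.fr (i + 1) v) X) else 0) := fun X => by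
    refine Finset.sum_filter_of_ne fun T hT hne => ?_
    by_contra hn
    refine hne ?_
    rw [dif_pos (Finset.mem_filter.1 hT).1]
    have := ti_pk_le (hAdm ⟨T, (Finset.mem_filter.1 hT).1⟩) (natI (D.κ (i + 1)) (D.fr (i + 1) v) X)
    rw [ha0 T (Finset.mem_filter.1 hT).1 hn, zero_mul] at this
    rw [norm_le_zero_iff.1 this, mul_zero]
  have e3 : ∑ T ∈ ((D.W i).filter fun T => D.par i T.1 = v).filter (fun T => D.sinS Cs i σ T.1), (if h : T ∈ D.W i then a ⟨T, h⟩ else 0) ^ p * (if h : T ∈ D.W i then b' ⟨T, h⟩ else 0) ^ (2 - p)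
      = ∑ T ∈ (D.W i).filter (fun T => D.par i T.1 = v), (if h : T ∈ D.W i then a ⟨T, h⟩ else 0) ^ p * (if h : T ∈ D.W i then b' ⟨T, h⟩ else 0) ^ (2 - p) := by
    refine Finset.sum_filter_of_ne fun T hT hne => ?_
    by_contra hn
    refine hne ?_
    rw [dif_pos (Finset.mem_filter.1 hT).1, ha0 T (Finset.mem_filter.1 hT).1 hn, Real.zero_rpow (by linarith), zero_mul]
  simp only [e1, e2, e3] at key
  refine le_trans (le_of_eq ?_) (key.trans (le_of_eq ?_))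
  · refine Finset.sum_congr rfl fun X _ => ?_
    rw [ti_h1_fld, ti_h1_sum]
    congr 2
    refine Finset.sum_congr rfl fun T' _ => ?_
    rw [dif_pos T'.2, ti_h1_pw D hD]
  · rw [ti_h1_sum]
    congr 1
    refine Finset.sum_congr rfl fun T' _ => ?_
    rw [dif_pos T'.2, dif_pos T'.2]

end

end Claimed.Agent.R257.Tree
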