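import Claimed.Agent.R257.Tree.AngOk
import Claimed.Agent.R257.FR2.AngExit

/-!
# ROW 257, unit ANG-INST, file 5 (explicit constant `kv`; `Tree/AngV.lean` = the version of helper94 with a free parameter `δ`): `TAng.Var` FOR THE CONCRETE SYSTEM      (helper37)

PROVED, no sorry.   Paper: H `frame.tex` l.1036-1043 ("the endpoint descendant weights vary within bounded factors on these boxes: … the endpoint is separated by `Cu`").
`TDat.kv I C = C G_0^{2Q} (1 + (G_lam + Sd) κ_lam / κ_e)^Q`,   `e = tr` if `tr ≤ lam` (the kernel to the root goes through the masks of the height `tr`, which are descendants of the `lam`-cap), `e = 0` otherwise.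
The consumer knows `(G_lam + Sd) κ_lam ≤ κ_e` (`l` is away from the endpoint and from the transition seam), so that `kv ≤ 2^Q C G_0^{2Q}`.
* `tia_contr`     child native coordinates CONTRACT the parent native coordinates by `κ/κ'`
* `tia_pw_var`    variation of one polynomial weight
* `tia_box_dist`  two witnesses attached to cells of one macro box: native distance `≤ 2 G + 2 (k+1) Sd`
* `tia_var`       `(D.ang I).Var (D.kv I C')`
-/

set_option autoImplicit false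

namespace Claimed.Agent.R257.Tree

open Claimed.Agent.R257 Claimed.Agent.R257.FR2
open scoped BigOperators Classical BoundedContinuousFunction InnerProductSpace

noncomputable section

variable {k : ℕ} {c : TCls k}

/-- child native coordinates contract the parent native coordinates (up to the bounded shear) -/
theorem tia_contr {κ κ' B : ℝ} {v v' : E k} (hκ0 : 0 < κ) (hκκ : κ ≤ κ') (hv : ‖v' - v‖ ≤ B / κ) (y : ST k) :
    ‖natX κ' v' y‖ ≤ κ / κ' * (1 + 2 * B) * ‖natX κ v y‖ := by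
  have hκ'0 : 0 < κ' := by linarith
  have hr0 : 0 < κ / κ' := div_pos hκ0 hκ'0
  have hr1 : κ / κ' ≤ 1 := (div_le_one hκ'0).2 hκκ
  have hwn : ‖(2 * κ) • (v - v')‖ ≤ 2 * B := by
    rw [norm_smul, Real.norm_of_nonneg (by positivity), norm_sub_rev]
    calc 2 * κ * ‖v' - v‖ ≤ 2 * κ * (B / κ) := mul_le_mul_of_nonneg_left hv (by positivity)
      _ = 2 * B := by field_simp
  have h1 : natX κ' v' y = tgB (κ / κ') ((2 * κ) • (v - v')) (natX κ v y) := by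
    rw [← tg_transfer hκ'0.ne' v v', natI_natX hκ0.ne']
  rw [h1]
  refine (tg_B_norm hr0.le hr1 _ _).trans (mul_le_mul_of_nonneg_right ?_ (norm_nonneg _))
  exact mul_le_mul_of_nonneg_left (by linarith) hr0.le

/-- variation of one polynomial weight -/
theorem tia_pw_var {A : ℝ} (hA : 0 ≤ A) (N : ℝ) (v : E k) (u z z' : ST k) {δ : ℝ} (h : ‖natX N v z - natX N v z'‖ ≤ δ) :
    pw A N v u z ≤ (1 + δ) ^ A * pw A N v u z' := by
  have hδ : 0 ≤ δ := (norm_nonneg _).trans h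
  have h1 : ‖natX N v z' - u‖ ≤ ‖natX N v z - u‖ + δ := by
    have e : natX N v z' - u = (natX N v z - u) - (natX N v z - natX N v z') := by abel
    rw [e]
    exact (norm_sub_le _ _).trans (by linarith)
  have h2 : (1 + ‖natX N v z' - u‖) / (1 + δ) ≤ 1 + ‖natX N v z - u‖ := by
    rw [div_le_iff₀ (by positivity)]
    nlinarith [norm_nonneg (natX N v z - u)]
  have h3 : (1 + ‖natX N v z - u‖) ^ (-A) ≤ ((1 + ‖natX N v z' - u‖) / (1 + δ)) ^ (-A) :=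
    Real.rpow_le_rpow_of_nonpos (by positivity) h2 (by linarith)
  refine h3.trans (le_of_eq ?_)
  unfold pw
  rw [Real.div_rpow (by positivity) (by positivity), Real.rpow_neg (by positivity : (0:ℝ) ≤ 1 + δ), div_inv_eq_mul, mul_comm]

/-- two witnesses attached to cells of one macro box -/
theorem tia_box_dist (D : TDat c) {lam : ℕ} {Sd G : ℝ} (hSd : 0 < Sd) (T T' : D.Cl lam) (hB : D.bx0 lam Sd T = D.bx0 lam Sd T') (z z' : ST k)
    (hz : ‖D.X lam T.1 z‖ ≤ G) (hz' : ‖D.X lam T'.1 z'‖ ≤ G) :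
    ‖natX (D.κ lam) (D.fr lam T.1.1) z - natX (D.κ lam) (D.fr lam T.1.1) z'‖ ≤ 2 * G + 2 * ((k : ℝ) + 1) * Sd := by
  have h1 : T.1.1 = T'.1.1 := by
    have : (D.bx0 lam Sd T).1 = (D.bx0 lam Sd T').1 := by rw [hB]
    exact this
  have h2 : flo (Sd⁻¹ • lat T.1.2) = flo (Sd⁻¹ • lat T'.1.2) := by
    have : (D.bx0 lam Sd T).2 = (D.bx0 lam Sd T').2 := by rw [hB]
    exact this
  have a1 := ti_flo_near (Sd⁻¹ • lat T.1.2)
  have a2 := ti_flo_near (Sd⁻¹ • lat T'.1.2)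
  rw [h2] at a1
  have h3 : ‖Sd⁻¹ • (lat T.1.2 - lat T'.1.2)‖ ≤ 2 * ((k : ℝ) + 1) := by
    have := norm_sub_le (Sd⁻¹ • lat T.1.2 - lat (flo (Sd⁻¹ • lat T'.1.2))) (Sd⁻¹ • lat T'.1.2 - lat (flo (Sd⁻¹ • lat T'.1.2)))
    rw [sub_sub_sub_cancel_right, ← smul_sub] at this
    linarith
  have h4 : ‖lat T.1.2 - lat T'.1.2‖ ≤ 2 * ((k : ℝ) + 1) * Sd := by
    rw [norm_smul, Real.norm_of_nonneg (inv_pos.2 hSd).le, inv_mul_le_iff₀ hSd] at h3
    linarith
  have e : natX (D.κ lam) (D.fr lam T.1.1) z - natX (D.κ lam) (D.fr lam T.1.1) z' = D.X lam T.1 z - D.X lam T'.1 z' + (lat T.1.2 - lat T'.1.2) := by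
    unfold TDat.X
    rw [← h1]
    abel
  rw [e]
  refine (norm_add_le _ _).trans ?_
  have := norm_sub_le (D.X lam T.1 z) (D.X lam T'.1 z')
  linarith

namespace TDat

/-- the variation constant of the leaf kernels over a macro box -/
def kv (D : TDat c) (I : TAIn D) (C : ℝ) : ℝ :=
  C * D.G 0 ^ (2 * c.Q) * (1 + (D.G I.lam + I.Sd) * (D.κ I.lam / D.κ (if c.tr ≤ I.lam then c.tr else 0))) ^ c.Q

end TDat

/-- the labels of two ancestors of one leaf label -/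
theorem tia_anc_anc (hc : c.Ok) (D : TDat c) (hD : D.Good) {e lam : ℕ} (he : e ≤ lam) (hl : lam ≤ c.ℓ) (ω : D.Lb 0) :
    ‖D.fr e (D.anc e ω) - D.fr lam (D.anc lam ω)‖ ≤ 2 * (c.ℓ * c.Cc) / D.κ lam := by
  have hCc : 0 ≤ c.Cc := by linarith [hc.one_le_Cc]
  have h1 := ti_anc_near hc D hD e (he.trans hl) ω
  have h2 := ti_anc_near hc D hD lam hl ω
  have h3 : (c.ℓ : ℝ) * c.Cc / D.κ e ≤ c.ℓ * c.Cc / D.κ lam :=
    div_le_div_of_nonneg_left (by positivity) (D.κ_pos hD lam) (D.κ_le hD he)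
  have e1 : D.fr e (D.anc e ω) - D.fr lam (D.anc lam ω) = (D.fr 0 ω - D.fr lam (D.anc lam ω)) - (D.fr 0 ω - D.fr e (D.anc e ω)) := by abel
  rw [e1]
  refine (norm_sub_le _ _).trans ?_
  have : 2 * (c.ℓ * c.Cc) / D.κ lam = c.ℓ * c.Cc / D.κ lam + c.ℓ * c.Cc / D.κ lam := by ring
  linarith

/-- variation of the weight of a cell of an ancestor cap of height `e ≤ lam` of a leaf label under the `lam`-cap -/
theorem tia_wA_var (hc : c.Ok) (D : TDat c) (hD : D.Good) {A : ℝ} (hA : 0 ≤ A) {e lam : ℕ} (he : e ≤ lam) (hl : lam ≤ c.ℓ) (ω : D.Lb 0) (m : Lat k) (z z' : ST k) {Δ : ℝ}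
    (h : ‖natX (D.κ lam) (D.fr lam (D.anc lam ω)) z - natX (D.κ lam) (D.fr lam (D.anc lam ω)) z'‖ ≤ Δ) :
    D.wA A e (D.anc e ω, m) z ≤ (1 + D.κ lam / D.κ e * (1 + 2 * (2 * (c.ℓ * c.Cc))) * Δ) ^ A * D.wA A e (D.anc e ω, m) z' := by
  have hCc : 0 ≤ c.Cc := by linarith [hc.one_le_Cc]
  refine tia_pw_var hA _ _ _ _ _ ?_
  rw [← natX_sub]
  refine (tia_contr (D.κ_pos hD lam) (D.κ_le hD he) (tia_anc_anc hc D hD he hl ω) (z - z')).trans ?_
  rw [natX_sub]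
  refine mul_le_mul_of_nonneg_left h ?_
  have := div_pos (D.κ_pos hD lam) (D.κ_pos hD e)
  positivity

/-- **`TAng.Var` for the concrete system** -/
theorem tia_var (hc : c.Ok) : ∃ C : ℝ, 1 ≤ C ∧ ∀ C' : ℝ, C ≤ C' → ∀ D : TDat c, D.Good → ∀ I : TAIn D, I.lam ≤ c.ℓ → 0 < I.Sd → (D.ang I).Var (D.kv I C') := by
  have hk : (0 : ℝ) ≤ k := Nat.cast_nonneg k
  have hQ0 : 0 ≤ c.Q := by linarith [hc.P_gt, hc.P_lt]
  have hCc : 0 ≤ c.Cc := by linarith [hc.one_le_Cc]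
  have hB : 0 ≤ (c.ℓ : ℝ) * c.Cc := by positivity
  obtain ⟨Ck, hCk, H⟩ := ti_ker_two hc
  obtain ⟨K1, hK1def⟩ : ∃ K1 : ℝ, K1 = (1 + 2 * (2 * (c.ℓ * c.Cc))) * (2 * ((k : ℝ) + 1)) := ⟨_, rfl⟩
  have hK1 : 1 ≤ K1 := by rw [hK1def]; nlinarith
  have hK1Q : 1 ≤ K1 ^ c.Q := Real.one_le_rpow hK1 hQ0
  have h4Q : (1 : ℝ) ≤ 2 ^ (2 * c.Q) := Real.one_le_rpow (by norm_num) (by linarith)
  have hCC : 1 ≤ Ck * Ck := by nlinarith
  have hC0 : 1 ≤ Ck * Ck * 2 ^ (2 * c.Q) * K1 ^ c.Q := by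
    have : 1 ≤ Ck * Ck * 2 ^ (2 * c.Q) := by nlinarith
    nlinarith
  refine ⟨Ck * Ck * 2 ^ (2 * c.Q) * K1 ^ c.Q, hC0, fun C' hC' D hD I hl hSd => ?_⟩
  have hG0 : 1 ≤ D.G 0 := hD.one_le_G 0 (Nat.zero_le _)
  have hGl : 1 ≤ D.G I.lam := hD.one_le_G _ hl
  have hGQ : 1 ≤ D.G 0 ^ (2 * c.Q) := Real.one_le_rpow hG0 (by linarith)
  obtain ⟨e, hedef⟩ : ∃ e : ℕ, e = if c.tr ≤ I.lam then c.tr else 0 := ⟨_, rfl⟩
  have he : e ≤ I.lam := by
    rw [hedef]
    split_ifs with h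
    exacts [h, Nat.zero_le _]
  have hr : 0 < D.κ I.lam / D.κ e := div_pos (D.κ_pos hD _) (D.κ_pos hD _)
  obtain ⟨V, hVdef⟩ : ∃ V : ℝ, V = 1 + (D.G I.lam + I.Sd) * (D.κ I.lam / D.κ e) := ⟨_, rfl⟩
  have hV1 : 1 ≤ V := by
    rw [hVdef]
    have : 0 ≤ (D.G I.lam + I.Sd) * (D.κ I.lam / D.κ e) := by positivity
    linarith
  have hVQ : 1 ≤ V ^ c.Q := Real.one_le_rpow hV1 hQ0
  have hkv : D.kv I C' = C' * D.G 0 ^ (2 * c.Q) * V ^ c.Q := by
    unfold TDat.kv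
    rw [hVdef, hedef]
  -- the variation factor
  have hfac : (1 + D.κ I.lam / D.κ e * (1 + 2 * (2 * (c.ℓ * c.Cc))) * (2 * D.G I.lam + 2 * ((k : ℝ) + 1) * I.Sd)) ^ c.Q ≤ K1 ^ c.Q * V ^ c.Q := by
    rw [← Real.mul_rpow (by linarith) (by linarith)]
    refine Real.rpow_le_rpow (by positivity) ?_ hQ0
    rw [hK1def, hVdef]
    have h1 : 0 ≤ D.κ I.lam / D.κ e * (1 + 2 * (2 * (c.ℓ * c.Cc))) := by positivity
    have h2 : 2 * D.G I.lam + 2 * ((k : ℝ) + 1) * I.Sd ≤ 2 * ((k : ℝ) + 1) * (D.G I.lam + I.Sd) := by nlinarith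
    have h3 := mul_le_mul_of_nonneg_left h2 h1
    have h4 : 1 ≤ (1 + 2 * (2 * (c.ℓ * c.Cc))) * (2 * ((k : ℝ) + 1)) := by nlinarith
    nlinarith
  refine ⟨?_, ?_⟩
  · rw [hkv]
    have : 1 ≤ C' * D.G 0 ^ (2 * c.Q) := by nlinarith
    nlinarith
  · intro (T : D.Cl I.lam) (T' : D.Cl I.lam) (z : D.Y) (z' : D.Y) hBx (hz : D.near I.lam (D.pt z) T.1) (hz' : D.near I.lam (D.pt z') T'.1) (γ : D.Cl 0) (hγ : D.anc I.lam γ.1.1 = T.1.1)
    show D.ker c.Q 0 γ.1 (D.pt z) ≤ D.kv I C' * D.ker c.Q 0 γ.1 (D.pt z')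
    have hBx' : D.bx0 I.lam I.Sd T = D.bx0 I.lam I.Sd T' := congrArg (fun B : D.BBt I.lam I.Sd => B.1) hBx
    have hdist := tia_box_dist D hSd T T' hBx' (D.pt z) (D.pt z') hz.1 hz'.1
    rw [← hγ] at hdist
    have hker' := D.ker_nonneg c.Q 0 γ.1 (D.pt z')
    have hvar : ∀ m : Lat k, D.wA c.Q e (D.anc e γ.1.1, m) (D.pt z) ≤ K1 ^ c.Q * V ^ c.Q * D.wA c.Q e (D.anc e γ.1.1, m) (D.pt z') := fun m =>
      (tia_wA_var hc D hD hQ0 he hl γ.1.1 m (D.pt z) (D.pt z') hdist).trans (mul_le_mul_of_nonneg_right hfac (D.wA_pos _ _ _ _).le)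
    have hKV : 0 ≤ K1 ^ c.Q * V ^ c.Q := by positivity
    have hfin : K1 ^ c.Q * V ^ c.Q ≤ D.kv I C' := by
      rw [hkv]
      have a1 : K1 ^ c.Q ≤ Ck * Ck * 2 ^ (2 * c.Q) * K1 ^ c.Q := by
        have : 1 ≤ Ck * Ck * 2 ^ (2 * c.Q) := by nlinarith
        nlinarith
      have a2 : K1 ^ c.Q ≤ C' * D.G 0 ^ (2 * c.Q) := by nlinarith
      exact mul_le_mul_of_nonneg_right a2 (by linarith)
    by_cases htl : c.tr ≤ I.lam
    · have hetr : e = c.tr := by rw [hedef, if_pos htl]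
      by_cases htr : 0 < c.tr
      · -- the masks of the transition height are descendants of the `lam`-cap
        refine le_trans ?_ (mul_le_mul_of_nonneg_right hfin hker')
        rw [tg_ker_lt D c.Q htr, tg_ker_lt D c.Q htr, tgK2, tgK2, Finset.mul_sum]
        refine Finset.sum_le_sum fun S _ => ?_
        split_ifs with hb
        · have hS : S.1 = D.anc c.tr γ.1.1 := hD.bin_inj (hb.trans (ti_anc_bin D hD c.tr le_rfl γ.1.1).symm)
          have hS' : S = (D.anc c.tr γ.1.1, S.2) := Prod.ext hS rfl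
          have h1 := hvar
          rw [hetr] at h1
          have h2 := h1 S.2
          rw [← hS'] at h2
          calc D.wA c.Q c.tr S (D.pt z) * D.wA c.Q 0 γ.1 (D.ctr c.tr S)
              ≤ (K1 ^ c.Q * V ^ c.Q * D.wA c.Q c.tr S (D.pt z')) * D.wA c.Q 0 γ.1 (D.ctr c.tr S) := mul_le_mul_of_nonneg_right h2 (D.wA_pos _ _ _ _).le
            _ = _ := by ring
        · rw [mul_zero]
      · have he0 : e = 0 := by omega
        refine le_trans ?_ (mul_le_mul_of_nonneg_right hfin hker')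
        rw [tg_ker_ge D c.Q htr, tg_ker_ge D c.Q htr]
        have h1 := hvar
        rw [he0] at h1
        exact h1 γ.1.2
    · have he0 : e = 0 := by rw [hedef, if_neg htl]
      have hlt : I.lam < c.tr := by omega
      have htr : 0 < c.tr := by omega
      obtain ⟨S, hS, hSb, hSn⟩ := hz'.2 hlt
      have hb : D.bin c.tr S.1 = D.bin 0 γ.1.1 := by
        have e1 : T'.1.1 = D.anc I.lam γ.1.1 := by
          rw [hγ]
          have : (D.bx0 I.lam I.Sd T).1 = (D.bx0 I.lam I.Sd T').1 := by rw [hBx']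
          exact this.symm
        rw [hSb, e1, ti_anc_bin D hD I.lam hlt.le]
      have h1 := (H D hD htr γ.1 (D.pt z)).1
      have h2 := (H D hD htr γ.1 (D.pt z')).2 S hS hb
      have h3 := hvar
      rw [he0] at h3
      have h4 : D.wA c.Q 0 γ.1 (D.pt z) ≤ K1 ^ c.Q * V ^ c.Q * D.wA c.Q 0 γ.1 (D.pt z') := h3 γ.1.2
      have hGtr := hD.one_le_G c.tr hc.tr_le
      have hGle := ti_G_le hc D hD (Nat.zero_le c.tr) hc.tr_le
      have h5 : (1 + ‖D.X c.tr S (D.pt z')‖) ^ (2 * c.Q) ≤ 2 ^ (2 * c.Q) * D.G 0 ^ (2 * c.Q) := by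
        rw [← Real.mul_rpow (by norm_num) (by linarith)]
        exact Real.rpow_le_rpow (by positivity) (by linarith) (by linarith)
      calc D.ker c.Q 0 γ.1 (D.pt z) ≤ Ck * D.wA c.Q 0 γ.1 (D.pt z) := h1
        _ ≤ Ck * (K1 ^ c.Q * V ^ c.Q * D.wA c.Q 0 γ.1 (D.pt z')) := mul_le_mul_of_nonneg_left h4 (by linarith)
        _ ≤ Ck * (K1 ^ c.Q * V ^ c.Q * (Ck * (1 + ‖D.X c.tr S (D.pt z')‖) ^ (2 * c.Q) * D.ker c.Q 0 γ.1 (D.pt z'))) :=
            mul_le_mul_of_nonneg_left (mul_le_mul_of_nonneg_left h2 hKV) (by linarith)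
        _ ≤ Ck * (K1 ^ c.Q * V ^ c.Q * (Ck * (2 ^ (2 * c.Q) * D.G 0 ^ (2 * c.Q)) * D.ker c.Q 0 γ.1 (D.pt z'))) := by
            refine mul_le_mul_of_nonneg_left (mul_le_mul_of_nonneg_left (mul_le_mul_of_nonneg_right (mul_le_mul_of_nonneg_left h5 ?_) hker') hKV) ?_ <;> linarith
        _ = (Ck * Ck * 2 ^ (2 * c.Q) * K1 ^ c.Q) * D.G 0 ^ (2 * c.Q) * V ^ c.Q * D.ker c.Q 0 γ.1 (D.pt z') := by ring
        _ ≤ D.kv I C' * D.ker c.Q 0 γ.1 (D.pt z') := by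
            rw [hkv]
            refine mul_le_mul_of_nonneg_right (mul_le_mul_of_nonneg_right (mul_le_mul_of_nonneg_right hC' ?_) ?_) hker' <;> linarith

end

end Claimed.Agent.R257.Tree
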