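import Claimed.Agent.R257.Tree.AngH
import Claimed.Agent.R257.Tree.Ok

/-!
# ROW 257, unit ANG-INST, file 4: `TAng.Ok` FOR THE CONCRETE SYSTEM      (helper37)

GLUE ONLY, no sorry.   `tia_ok`: for fixed orders `Ew > k + 1`, `Q2` (`0 ≤ Q2`, `Q2 + k + 2 ≤ C0`), enlargement `Cs`, exponent `q' > q_k` and `ε > 0` there is `C` (depending only on the class and on these numbers) such that for every `C' ≥ C`,
every good datum `D` and all parameters `I : TAIn D` with `I.Ok`:     `(D.ang I).Ok p (D.ap C' ε q')`     (`p.q = q_k`).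
INPUTS: `WtAt k (qk k) Q2 c.M` (provider `pkw_wtAt`), `WtPl k q' Q2 c.M` (provider `pkw_wtPl`, `PK1/WRot.lean`, range `q' (k - 1) ≤ 2 (k + 1)`).
-/

set_option autoImplicit false

namespace Claimed.Agent.R257.Tree

open Claimed.Agent.R257 Claimed.Agent.R257.FR2
open scoped BigOperators Classical BoundedContinuousFunction InnerProductSpace

noncomputable section

variable {k : ℕ} {c : TCls k}

/-- an edge of nonzero weight joins a cell to a cell of the parent cap -/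
theorem tia_edge_par (D : TDat c) {A : ℝ} {i : ℕ} {T' : D.Lb i × Lat k} {T : D.Lb (i + 1) × Lat k} (h : D.edge A i T' T ≠ 0) : D.par i T'.1 = T.1 := by
  unfold TDat.edge at h
  by_contra hne
  exact h (if_neg hne)

/-- one step of the hierarchy with the loss of the whole tree -/
theorem tia_hier_loss (D : TDat c) (hD : D.Good) {i : ℕ} (hi : i < c.ℓ) {ε C C' pp : ℝ} (hε : 0 < ε) (hC : 0 ≤ C) (hCC : C ≤ C')
    {g : D.Cl i → (ST k →ᵇ ℂ)} {a : D.Cl i → ℝ} (h : D.Adm i g a) {b' : D.Cl i → ℝ} {b : D.Cl (i + 1) → ℝ} (hb' : ∀ T', 0 ≤ b' T')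
    (h0 : ∑ T : D.Cl (i + 1), D.κ (i + 1) ^ (k + 2) * D.amp i g T ^ pp * b T ^ (2 - pp)
        ≤ C * (D.κ i / D.κ (i + 1)) ^ ε * ∑ T' : D.Cl i, D.κ i ^ (k + 2) * a T' ^ pp * b' T' ^ (2 - pp)) :
    ∑ T : D.Cl (i + 1), D.κ (i + 1) ^ (k + 2) * D.amp i g T ^ pp * b T ^ (2 - pp)
        ≤ C' * (D.κ 0 / D.κ c.ℓ) ^ ε * ∑ T' : D.Cl i, D.κ i ^ (k + 2) * a T' ^ pp * b' T' ^ (2 - pp) := by
  have hκ := D.κ_pos hD
  have hnn : 0 ≤ ∑ T' : D.Cl i, D.κ i ^ (k + 2) * a T' ^ pp * b' T' ^ (2 - pp) :=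
    Finset.sum_nonneg fun T' _ => mul_nonneg (mul_nonneg (pow_pos (hκ i) _).le (Real.rpow_nonneg (ti_pk_nonneg (h T')) _)) (Real.rpow_nonneg (hb' T') _)
  refine h0.trans (mul_le_mul_of_nonneg_right ?_ hnn)
  have h3 : (D.κ i / D.κ (i + 1)) ^ ε ≤ (D.κ 0 / D.κ c.ℓ) ^ ε :=
    Real.rpow_le_rpow (div_pos (hκ _) (hκ _)).le (D.ratio_le hD hi) hε.le
  exact mul_le_mul hCC h3 (Real.rpow_nonneg (div_pos (hκ _) (hκ _)).le _) (hC.trans hCC)

/-- **`TAng.Ok` for the concrete system** -/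
theorem tia_ok (hc : c.Ok) {Ew Q2 Cs q' ε : ℝ} (hE : (k : ℝ) + 1 < Ew) (hQ0 : 0 ≤ Q2) (hQC : Q2 + k + 2 ≤ c.C0) (hq' : qk k < q')
    (hWq : WtAt k (qk k) Q2 c.M) (hWp : WtPl k q' Q2 c.M) (hε : 0 < ε) :
    ∃ C : ℝ, 1 ≤ C ∧ ∀ C' : ℝ, C ≤ C' → ∀ D : TDat c, D.Good → ∀ I : TAIn D, I.Ew = Ew → I.Q2 = Q2 → I.Cs = Cs → I.Ok →
      ∀ p : TPar, p.q = qk k → (D.ang I).Ok p (D.ap C' ε q') := by
  have hq2 : 2 < qk k := ti_qk_gt hc.k_pos
  obtain ⟨Ca, hCa, Ha⟩ := tia_hier_of_cap hc hq2 hQ0 hQC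
  obtain ⟨Cb, hCb, Hb⟩ := tia_hier_of_cap hc (hq2.trans hq') hQ0 hQC
  obtain ⟨Cf, hCf, Hf⟩ := tia_cap_full hc hWq hε
  obtain ⟨Cp, hCp, Hp⟩ := tia_cap_pl hc (hq2.trans hq') hWp Cs hε
  obtain ⟨Cs', hCs', Hs⟩ := tia_psi_sum (k := k) hE
  have hab : 1 ≤ Ca * Cf := one_le_mul_of_one_le_of_one_le hCa hCf
  have hbp : 1 ≤ Cb * Cp := one_le_mul_of_one_le_of_one_le hCb hCp
  refine ⟨Ca * Cf + Cb * Cp + Cs', by linarith, fun C' hC' D hD I hIE hIQ hIC hI p hp => ?_⟩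
  subst hIE hIQ hIC
  have hκ := D.κ_pos hD
  have hQQ : c.Q ≤ I.Q2 := by
    have h1 := hI.Q2_ge
    have h2 : 0 ≤ I.Ew * k / 2 := by
      have : (0 : ℝ) ≤ k := Nat.cast_nonneg k
      have : 0 ≤ I.Ew := by linarith
      positivity
    linarith
  have f_L : 1 ≤ C' * (D.κ 0 / D.κ c.ℓ) ^ ε := by
    have := Real.one_le_rpow (D.one_le_ratio hD (Nat.zero_le c.ℓ)) hε.le
    nlinarith
  have f_hq : ∀ i, i < I.lam → ∀ (g : D.Cl i → (ST k →ᵇ ℂ)) (a : D.Cl i → ℝ), D.Adm i g a → ∀ (b' : D.Cl i → ℝ) (b : D.Cl (i + 1) → ℝ), (∀ T', 0 ≤ b' T') →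
      (∀ T', a T' ≠ 0 → 0 < b' T') → (∀ T, 0 ≤ b T) → (∀ T, ∑ T' : D.Cl i, b' T' ^ 2 * D.edge I.Q2 i T'.1 T.1 ≤ b T ^ 2) →
      ∑ T : D.Cl (i + 1), D.κ (i + 1) ^ (k + 2) * D.amp i g T ^ qk k * b T ^ (2 - qk k)
        ≤ C' * (D.κ 0 / D.κ c.ℓ) ^ ε * ∑ T' : D.Cl i, D.κ i ^ (k + 2) * a T' ^ qk k * b' T' ^ (2 - qk k) := by
    intro i hi g a h b' b hb' hpos hb hdom
    have hil : i < c.ℓ := lt_of_lt_of_le hi hI.lam_le
    have h0 := Ha D hD i (fun _ => True) (Cf * (D.κ i / D.κ (i + 1)) ^ ε) (mul_nonneg (by linarith) (Real.rpow_nonneg (div_pos (hκ _) (hκ _)).le _))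
      (Hf D hD i hil) g a h (fun _ _ => trivial) b' b hb' hpos hb hdom
    rw [← mul_assoc] at h0
    exact tia_hier_loss D hD hil hε (by linarith) (by linarith) h hb' h0
  have f_hp : ∀ (σ : TStr k I.bot I.lam) i, i < I.lam → ∀ (g : D.Cl i → (ST k →ᵇ ℂ)) (a : D.Cl i → ℝ), D.Adm i g a → (∀ T', a T' ≠ 0 → D.sinS I.Cs i σ T'.1.1) →
      ∀ (b' : D.Cl i → ℝ) (b : D.Cl (i + 1) → ℝ), (∀ T', 0 ≤ b' T') →
      (∀ T', a T' ≠ 0 → 0 < b' T') → (∀ T, 0 ≤ b T) → (∀ T, ∑ T' : D.Cl i, b' T' ^ 2 * D.edge I.Q2 i T'.1 T.1 ≤ b T ^ 2) →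
      ∑ T : D.Cl (i + 1), D.κ (i + 1) ^ (k + 2) * D.amp i g T ^ q' * b T ^ (2 - q')
        ≤ C' * (D.κ 0 / D.κ c.ℓ) ^ ε * ∑ T' : D.Cl i, D.κ i ^ (k + 2) * a T' ^ q' * b' T' ^ (2 - q') := by
    intro σ i hi g a h hU b' b hb' hpos hb hdom
    have hil : i < c.ℓ := lt_of_lt_of_le hi hI.lam_le
    have h0 := Hb D hD i (fun v => D.sinS I.Cs i σ v) (Cp * (D.κ i / D.κ (i + 1)) ^ ε) (mul_nonneg (by linarith) (Real.rpow_nonneg (div_pos (hκ _) (hκ _)).le _))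
      (Hp D hD i hil σ) g a h hU b' b hb' hpos hb hdom
    rw [← mul_assoc] at h0
    exact tia_hier_loss D hD hil hε (by linarith) (by linarith) h hb' h0
  exact
    { lam_le := hI.lam_le
      bot_le := hI.bot_le
      q_lt := by rw [hp]; exact hq'
      one_le_L' := f_L
      one_le_Lq := f_L
      ehh_nonneg := fun i T' T => D.edge_nonneg _ _ _ _
      ehh_le := fun i T' T => D.edge_anti hQQ _ _ _
      bot_le_lev := fun σ => TStr.bot_le σ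
      lev_le := fun σ => TStr.le_lam σ
      hp := fun σ i _ hi g a h hU b' b hb' hpos hb hdom => f_hp σ i hi g a h hU b' b hb' hpos hb hdom
      hq := fun i _ hi g a h _ b' b hb' hpos hb hdom => by
        rw [hp]
        exact f_hq i hi g a h b' b hb' hpos hb hdom
      under_up := fun σ i _ _ T' T hu he => by
        have h1 : D.par i T'.1.1 = T.1.1 := tia_edge_par D he
        have h2 := tia_sin_up hc D hD (by linarith [hI.one_le_Cs]) σ i T'.1.1 hu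
        rw [h1] at h2
        exact h2
      Psi_pos := fun B i T => tia_psi_pos D I B.1 i T.1
      Psi_ge := fun T => tia_psi_ge D hD I (by
        have : (0 : ℝ) ≤ k := Nat.cast_nonneg k
        linarith) T
      Psi_sum := fun i _ _ T' => (Hs c D I rfl i T'.1).trans (by
        show Cs' ≤ C'
        linarith)
      Psi_edge := fun pp hpp B i h1 h2 T' T => by
        refine tia_psi_edge hc D hD I hI ?_ B.1 i h1 h2 T'.1 T.1
        rcases hpp with rfl | rfl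
        · exact hp.ge
        · exact hq'.le
      up_lam := fun τ => D.upL_self _ _ τ
      Bx_cap := fun T T₁ h => congrArg (fun B : D.BBt I.lam I.Sd => B.1.1) h
      up_edge := fun i _ hi T' T he => by
        have h1 : D.par i T'.1.1 = T.1.1 := tia_edge_par D he
        have h2 := D.upL_par I.lam I.v₀ hi T'.1.1
        rw [h1] at h2
        exact h2.symm }

end

end Claimed.Agent.R257.Tree
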