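import Claimed.Agent.R257.Tree.Geo

/-!
# ROW 257, unit INST, file 4: CLOSURE OF THE CLASS, CAUCHY BOUNDS, THE JUNK TERM      (architect helper155)          CONTRACT

Fields `closure`, `cauchy`, `cauchy_root`, `junk` of `TSys.Ok` for `TDat.sys`.   Paper: H `packets.tex` l.842-860 (localisers, parent amplitude), l.925-934 (Fourier enlargement), `frame.tex` l.720-724.
Every `sorry` is a leaf `L-257-TI-C*` (name in the docstring).   Tools: `Tree/Alg.lean` (proved), `Tree/Geo.lean`, `Pk/Defs.lean` (`car_resc`, `natX_resc`, `natX_natI`, `norm_car`), `Lib/BD/{Fs,FSApi}.lean` (proved: `FS.lin`, `FS.modulate`, `FS.shift`, `FS.mul`, `FS.sum`, `FS.mono`).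
-/

set_option autoImplicit false

namespace Claimed.Agent.R257.Tree

open Claimed.Agent.R257 Claimed.Agent.R257.FR2
open scoped BigOperators Classical BoundedContinuousFunction

noncomputable section

variable {k : ℕ}

/-- **the packet in the coordinates of a parent cap** (exact self-similarity; same native profile).
**LEAF L-257-TI-C1.**  PLAN: the SAME `F`; `car_resc hK.ne' v' v z`, `natX_resc hK.ne'`, `natX_natI hK.ne'`, `car v z ≠ 0` (`norm_car`). -/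
theorem ti_pk_resc {ρ M K K' : ℝ} (hK : 0 < K) (v : E k) {v' : E k} {u : ST k} {a : ℝ} {f : ST k → ℂ} (h : IsPk ρ M K' v' u a f) :
    IsPk ρ M (K' / K) (K • (v' - v)) u a (fun X => (car v (natI K v X))⁻¹ * f (natI K v X)) := by
  obtain ⟨F, h1, h2, h3⟩ := h
  refine ⟨F, h1, h2, fun X => ?_⟩
  have hc : car v (natI K v X) ≠ 0 := by
    intro h0
    have := norm_car v (natI K v X)
    rw [h0, norm_zero] at this
    exact zero_ne_one this
  have e1 := natX_resc (N := K') hK.ne' v' v (natI K v X)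
  have e2 := car_resc hK.ne' v' v (natI K v X)
  rw [natX_natI hK.ne'] at e1 e2
  beta_reduce
  rw [h3, e2, e1, ← mul_assoc, ← mul_assoc, inv_mul_cancel₀ hc, one_mul]

/-- **LEAF L-257-TI-C2: the Fourier support of a child in the coordinates of the parent.**
PLAN: `natX N u X = BD.Lam (-u) N⁻¹ (N⁻¹ ^ 2) X` (unfold), `car u X = BD.ch (BD.pr X (u, -‖u‖^2))` (unfold `car`, `BD.ch`, `BD.pr`; `mul_comm` with `Complex.I`);  `FS.lin` then `FS.modulate`, then `FS.mono`: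
`‖(u, -‖u‖²) + LamT (-u) N⁻¹ N⁻² w‖ ≤ (Cc + Cc²) + (1 + 2 Cc) ρ` for `‖w‖ ≤ ρ`  (`LamT v a b w = (a • w.1, 2 a ⟪v, w.1⟫ + b w.2)`, `abs_real_inner_le_norm`, `N⁻¹ ≤ 1`). -/
theorem ti_child_fs {ρ N Cc : ℝ} (hρ : 0 ≤ ρ) (hN : 1 ≤ N) {u : E k} (hu : ‖u‖ ≤ Cc) {F : ST k → ℂ} (hF : BD.FS (Metric.closedBall (0 : ST k) ρ) F) :
    BD.FS (Metric.closedBall (0 : ST k) ((1 + 2 * Cc) * ρ + Cc + Cc ^ 2)) (fun X => car u X * F (natX N u X)) := by
  have hN0 : 0 < N := by linarith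
  have ha : 0 < N⁻¹ := inv_pos.2 hN0
  have ha1 : N⁻¹ ≤ 1 := inv_le_one_of_one_le₀ hN
  have hb1 : N⁻¹ ^ 2 ≤ 1 := pow_le_one₀ ha.le ha1
  have hCc : 0 ≤ Cc := (norm_nonneg _).trans hu
  have h1 := (hF.lin (-u) ha (pow_pos ha 2)).modulate (u, -‖u‖ ^ 2)
  have e : (fun X => car u X * F (natX N u X))
      = fun z => BD.ch (BD.pr z (u, -‖u‖ ^ 2)) * F (BD.Lam (-u) N⁻¹ (N⁻¹ ^ 2) z) := by
    funext X
    congr 1
    · unfold car BD.ch BD.pr
      rw [mul_comm]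
      congr 3
      ring
    · congr 1
      unfold natX BD.Lam
      ext1
      · simp only [smul_neg, sub_eq_add_neg]
      · simp only [inv_pow]
        rw [div_eq_inv_mul]
  rw [e]
  refine h1.mono ?_
  rintro _ ⟨_, ⟨w, hw, rfl⟩, rfl⟩
  rw [mem_closedBall_zero_iff] at hw ⊢
  have hw1 : ‖w.1‖ ≤ ρ := (norm_fst_le w).trans hw
  have hw2 : |w.2| ≤ ρ := (norm_snd_le w).trans hw
  have hA : ‖((u, -‖u‖ ^ 2) : ST k)‖ ≤ Cc + Cc ^ 2 := by
    rw [Prod.norm_def]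
    refine max_le ?_ ?_
    · show ‖u‖ ≤ _
      nlinarith [sq_nonneg Cc]
    · show ‖-‖u‖ ^ 2‖ ≤ _
      rw [norm_neg, Real.norm_of_nonneg (by positivity)]
      have : ‖u‖ ^ 2 ≤ Cc ^ 2 := pow_le_pow_left₀ (norm_nonneg _) hu 2
      linarith
  have hB : ‖BD.LamT (-u) N⁻¹ (N⁻¹ ^ 2) w‖ ≤ (1 + 2 * Cc) * ρ := by
    unfold BD.LamT
    rw [Prod.norm_def]
    refine max_le ?_ ?_
    · show ‖N⁻¹ • w.1‖ ≤ _
      rw [norm_smul, Real.norm_of_nonneg ha.le]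
      calc N⁻¹ * ‖w.1‖ ≤ 1 * ρ := mul_le_mul ha1 hw1 (norm_nonneg _) zero_le_one
        _ ≤ (1 + 2 * Cc) * ρ := mul_le_mul_of_nonneg_right (by linarith) hρ
    · show ‖2 * N⁻¹ * inner ℝ (-u) w.1 + N⁻¹ ^ 2 * w.2‖ ≤ _
      have h3 : |inner ℝ (-u) w.1| ≤ Cc * ρ := by
        refine (abs_real_inner_le_norm _ _).trans ?_
        rw [norm_neg]
        exact mul_le_mul hu hw1 (norm_nonneg _) hCc
      rw [Real.norm_eq_abs]
      calc |2 * N⁻¹ * inner ℝ (-u) w.1 + N⁻¹ ^ 2 * w.2| ≤ |2 * N⁻¹ * inner ℝ (-u) w.1| + |N⁻¹ ^ 2 * w.2| := abs_add_le _ _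
        _ = 2 * N⁻¹ * |inner ℝ (-u) w.1| + N⁻¹ ^ 2 * |w.2| := by
            rw [abs_mul (2 * N⁻¹), abs_mul (N⁻¹ ^ 2), abs_of_nonneg (by positivity : 0 ≤ 2 * N⁻¹), abs_of_nonneg (by positivity : 0 ≤ N⁻¹ ^ 2)]
        _ ≤ 2 * 1 * (Cc * ρ) + 1 * ρ := by
            refine add_le_add (mul_le_mul (by linarith) h3 (abs_nonneg _) (by norm_num)) (mul_le_mul hb1 hw2 (abs_nonneg _) zero_le_one)
        _ = (1 + 2 * Cc) * ρ := by ring
  calc ‖((u, -‖u‖ ^ 2) : ST k) + BD.LamT (-u) N⁻¹ (N⁻¹ ^ 2) w‖ ≤ ‖((u, -‖u‖ ^ 2) : ST k)‖ + ‖BD.LamT (-u) N⁻¹ (N⁻¹ ^ 2) w‖ := norm_add_le _ _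
    _ ≤ (Cc + Cc ^ 2) + (1 + 2 * Cc) * ρ := add_le_add hA hB
    _ = _ := by ring

namespace TDat

variable {c : TCls k}

/-- `X_T (z_T) = 0` -/
theorem X_ctr (D : TDat c) (hD : D.Good) (i : ℕ) (T : D.Lb i × Lat k) : D.X i T (D.ctr i T) = 0 := by
  unfold X ctr
  rw [natX_natI (by linarith [hD.one_le_κ i] : D.κ i ≠ 0), sub_self]

end TDat

theorem ti_resc_label {c : TCls k} (D : TDat c) (hD : D.Good) (i : ℕ) (v' : D.Lb i) :
    ‖D.κ (i + 1) • (D.fr i v' - D.fr (i + 1) (D.par i v'))‖ ≤ c.Cc := by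
  have hK : 0 < D.κ (i + 1) := by linarith [hD.one_le_κ (i + 1)]
  rw [norm_smul, Real.norm_of_nonneg hK.le]
  have := hD.par_near i v'
  rw [le_div_iff₀ hK] at this
  linarith

theorem ti_one_le_ratio {c : TCls k} (D : TDat c) (hD : D.Good) (i : ℕ) : 1 ≤ D.κ i / D.κ (i + 1) := by
  have hK : 0 < D.κ (i + 1) := by linarith [hD.one_le_κ (i + 1)]
  rw [le_div_iff₀ hK, one_mul]
  exact hD.κ_anti i

theorem ti_pre_fs {c : TCls k} (hc : c.Ok) (D : TDat c) (hD : D.Good) (i : ℕ) (g : D.Cl i → (ST k →ᵇ ℂ)) (a : D.Cl i → ℝ) (h : D.Adm i g a) (v : D.Lb (i + 1)) :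
    BD.FS (Metric.closedBall (0 : ST k) ((1 + 2 * c.Cc) * c.ρ i + c.Cc + c.Cc ^ 2))
      (fun X => (car (D.fr (i + 1) v) (natI (D.κ (i + 1)) (D.fr (i + 1) v) X))⁻¹ * D.pre i g v (natI (D.κ (i + 1)) (D.fr (i + 1) v) X)) := by
  have hK : 0 < D.κ (i + 1) := by linarith [hD.one_le_κ (i + 1)]
  have e : (fun X => (car (D.fr (i + 1) v) (natI (D.κ (i + 1)) (D.fr (i + 1) v) X))⁻¹ * D.pre i g v (natI (D.κ (i + 1)) (D.fr (i + 1) v) X))
      = fun X => ∑ T' ∈ (Finset.univ : Finset (D.Cl i)), (if D.par i T'.1.1 = v then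
          (car (D.fr (i + 1) v) (natI (D.κ (i + 1)) (D.fr (i + 1) v) X))⁻¹ * g T' (natI (D.κ (i + 1)) (D.fr (i + 1) v) X) else 0) := by
    funext X
    rw [TDat.pre_apply, Finset.mul_sum]
    refine Finset.sum_congr rfl fun T' _ => ?_
    split_ifs
    · rfl
    · rw [mul_zero]
  rw [e]
  refine BD.FS.sum _ fun T' _ => ?_
  by_cases hp : D.par i T'.1.1 = v
  · simp only [if_pos hp]
    obtain ⟨F, h1, -, h3⟩ := ti_pk_resc hK (D.fr (i + 1) v) (h T')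
    have hl : ‖D.κ (i + 1) • (D.fr i T'.1.1 - D.fr (i + 1) v)‖ ≤ c.Cc := by
      rw [← hp]; exact ti_resc_label D hD i T'.1.1
    have h4 := ti_child_fs (hc.ρ_nonneg i) (ti_one_le_ratio D hD i) hl h1
    rwa [← (funext h3 : _ = fun X => _)] at h4
  · simp only [if_neg hp]
    exact BD.bdu_FS_zero _

/-- **LEAF L-257-TI-C3: closure of the class under assembly** (field `closure`).
PLAN.  `T = (v, λ)`, `K = κ (i+1)`.   Native profile `F X = χ (X - lat λ) * ∑_{T'} if par T' = v then car u_{T'} X * F_{T'} (natX (κ i / K) u_{T'} X) else 0`, `u_{T'} = K • (fr i T' - fr (i+1) v)`, `F_{T'}` from `h T'`.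
(1) `asm i g T z = car (fr v) z * F (natX K (fr v) z)`: `TDat.asm_apply`, `TDat.pre_apply`, `car_resc`, `natX_resc`, `Finset.mul_sum`.
(2) Fourier support: `ti_child_fs` (`‖u‖ ≤ Cc` from `hD.par_near`), `FS.sum` (zero summands: `bdu_FS_zero`), `FS.shift` for `χ (· - lat λ)`, `FS.mul`, `closedBall 0 r + closedBall 0 r' ⊆ closedBall 0 (r + r')`, `hc.ρ_step`.
(3) decay: every `X` is `natX K (fr v) z` (`natX_natI`); `‖F X‖ = ‖χ (X_T z)‖ ‖pre z‖ ≤ Cχ (1 + d)^(-(M + C0)) ‖pre z‖ = (Cχ ‖pre z‖ (1 + d)^(-C0)) (1 + d)^(-M) ≤ amp (1 + d)^(-M)` (`hc.χ_dec`, `Real.rpow_add`, `TDat.le_amp`). -/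
theorem ti_closure {c : TCls k} (hc : c.Ok) (D : TDat c) (hD : D.Good) (i : ℕ) (g : D.Cl i → (ST k →ᵇ ℂ)) (a : D.Cl i → ℝ) (h : D.Adm i g a) :
    D.Adm (i + 1) (D.asm i g) (D.amp i g) := by
  intro T
  have hK : 0 < D.κ (i + 1) := by linarith [hD.one_le_κ (i + 1)]
  have hC0 : 0 ≤ c.C0 := by
    have h1 := hc.C0_ge
    have h2 := hc.P_gt
    have h3 := hc.P_lt
    have : (0 : ℝ) ≤ k := Nat.cast_nonneg k
    linarith
  have hχ : 0 ≤ c.Cχ := by linarith [hc.one_le_Cχ]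
  set v := T.1.1 with hv
  set K := D.κ (i + 1) with hKdef
  set U : ST k → ℂ := fun X => (car (D.fr (i + 1) v) (natI K (D.fr (i + 1) v) X))⁻¹ * D.pre i g v (natI K (D.fr (i + 1) v) X) with hU
  have hUfs := ti_pre_fs hc D hD i g a h v
  refine ⟨fun X => c.χ (X + -lat T.1.2) * U X, ?_, fun X => ?_, fun z => ?_⟩
  · refine ((hc.χ_fs.shift (-lat T.1.2)).mul hUfs).mono ?_
    rintro _ ⟨x, hx, y, hy, rfl⟩
    rw [mem_closedBall_zero_iff] at hx hy ⊢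
    have := hc.ρ_step i
    calc ‖x + y‖ ≤ ‖x‖ + ‖y‖ := norm_add_le _ _
      _ ≤ c.ρχ + ((1 + 2 * c.Cc) * c.ρ i + c.Cc + c.Cc ^ 2) := add_le_add hx hy
      _ ≤ c.ρ (i + 1) := by linarith
  · have hX : D.X (i + 1) T.1 (natI K (D.fr (i + 1) v) X) = X - lat T.1.2 := by
      unfold TDat.X
      rw [natX_natI hK.ne']
    have h1 := D.le_amp hC0 hχ i g T (natI K (D.fr (i + 1) v) X)
    unfold TDat.wA at h1
    rw [hX] at h1
    have h2 := hc.χ_dec (X - lat T.1.2)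
    have hpos : 0 < 1 + ‖X - lat T.1.2‖ := by positivity
    have hn : ‖U X‖ = ‖D.pre i g v (natI K (D.fr (i + 1) v) X)‖ := by
      rw [hU]
      beta_reduce
      rw [norm_mul, norm_inv, norm_car, inv_one, one_mul]
    beta_reduce
    rw [← sub_eq_add_neg, norm_mul, hn]
    calc ‖c.χ (X - lat T.1.2)‖ * ‖D.pre i g v (natI K (D.fr (i + 1) v) X)‖
        ≤ c.Cχ * (1 + ‖X - lat T.1.2‖) ^ (-(c.M + c.C0)) * ‖D.pre i g v (natI K (D.fr (i + 1) v) X)‖ :=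
          mul_le_mul_of_nonneg_right h2 (norm_nonneg _)
      _ = c.Cχ * (‖D.pre i g v (natI K (D.fr (i + 1) v) X)‖ * (1 + ‖X - lat T.1.2‖) ^ (-c.C0)) * (1 + ‖X - lat T.1.2‖) ^ (-c.M) := by
          rw [neg_add, Real.rpow_add hpos]
          ring
      _ ≤ D.amp i g T * (1 + ‖X - lat T.1.2‖) ^ (-c.M) := mul_le_mul_of_nonneg_right h1 (Real.rpow_nonneg hpos.le _)
  · have hc0 : car (D.fr (i + 1) v) z ≠ 0 := by
      intro h0
      have := norm_car (D.fr (i + 1) v) z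
      rw [h0, norm_zero] at this
      exact zero_ne_one this
    rw [TDat.asm_apply, hU]
    beta_reduce
    rw [natI_natX hK.ne', ← sub_eq_add_neg]
    unfold TDat.X
    rw [mul_left_comm, ← mul_assoc (car (D.fr (i + 1) v) z), mul_inv_cancel₀ hc0, one_mul]

/-- **LEAF L-257-TI-C4: the sampled weight dominates the weight at any point, up to the parent distance.**   PLAN: `ti_pw_peetre` (`z' := z`, `z := ctr`… mind the direction), `TDat.X_ctr`, `hD.par_near`, `hD.κ_anti`. -/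
theorem ti_edge_ge {c : TCls k} (hc : c.Ok) (D : TDat c) (hD : D.Good) {A : ℝ} (hA : 0 ≤ A) (i : ℕ) (T' : D.Lb i × Lat k) (T : D.Lb (i + 1) × Lat k) (hp : D.par i T'.1 = T.1) (z : ST k) :
    D.wA A i T' z ≤ (1 + 2 * c.Cc) ^ A * (1 + ‖D.X (i + 1) T z‖) ^ A * D.edge A i T' T := by
  have hK : 0 < D.κ (i + 1) := by linarith [hD.one_le_κ (i + 1)]
  have hv : ‖D.fr i T'.1 - D.fr (i + 1) T.1‖ ≤ c.Cc / D.κ (i + 1) := by
    rw [← hp]; exact hD.par_near i T'.1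
  have h := ti_pw_peetre hK (hD.κ_anti i) (by linarith [hc.one_le_Cc]) hA hv (lat T'.2) (D.ctr (i + 1) T) z
  have e : natX (D.κ (i + 1)) (D.fr (i + 1) T.1) (D.ctr (i + 1) T) = lat T.2 := natX_natI hK.ne' _ _
  rw [e, norm_sub_rev] at h
  unfold TDat.edge
  rw [if_pos hp]
  exact h

theorem ti_wA_mul {c : TCls k} (D : TDat c) (A B : ℝ) (i : ℕ) (T : D.Lb i × Lat k) (z : ST k) : D.wA A i T z * D.wA B i T z = D.wA (A + B) i T z := by
  unfold TDat.wA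
  rw [← Real.rpow_add (by positivity), neg_add]

theorem ti_cell_sum {c : TCls k} (D : TDat c) {B Cl : ℝ} (hCl : ∀ (t : Finset (Lat k)) (X : ST k), ∑ m ∈ t, (1 + ‖X - lat m‖) ^ (-B) ≤ Cl)
    (i : ℕ) (p : D.Lb i → Prop) (z : ST k) :
    ∑ T' : D.Cl i, (if p T'.1.1 then D.wA B i T'.1 z else 0) ≤ ((Finset.univ.filter p).card : ℝ) * Cl := by
  have e1 : ∑ T' : D.Cl i, (if p T'.1.1 then D.wA B i T'.1 z else 0) = ∑ T' ∈ D.W i, (if p T'.1 then D.wA B i T' z else 0) :=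
    Finset.sum_coe_sort (D.W i) (fun T' => if p T'.1 then D.wA B i T' z else 0)
  rw [e1]
  calc ∑ T' ∈ D.W i, (if p T'.1 then D.wA B i T' z else 0)
      ≤ ∑ T' ∈ (Finset.univ : Finset (D.Lb i)) ×ˢ (D.W i).image Prod.snd, (if p T'.1 then D.wA B i T' z else 0) := by
        refine Finset.sum_le_sum_of_subset_of_nonneg ?_ fun T' _ _ => ?_
        · intro T' hT'
          exact Finset.mem_product.2 ⟨Finset.mem_univ _, Finset.mem_image_of_mem _ hT'⟩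
        · split_ifs
          exacts [(D.wA_pos _ _ _ _).le, le_rfl]
    _ = ∑ v' ∈ Finset.univ.filter p, ∑ m ∈ (D.W i).image Prod.snd, D.wA B i (v', m) z := by
        rw [Finset.sum_product, Finset.sum_filter]
        refine Finset.sum_congr rfl fun v' _ => ?_
        split_ifs with h
        · rfl
        · exact Finset.sum_const_zero
    _ ≤ ∑ v' ∈ Finset.univ.filter p, Cl :=
        Finset.sum_le_sum fun v' _ => hCl ((D.W i).image Prod.snd) (natX (D.κ i) (D.fr i v') z)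
    _ = _ := by rw [Finset.sum_const, nsmul_eq_mul]

theorem ti_cs_cells {c : TCls k} (D : TDat c) {Q M Cl : ℝ} (hCl : ∀ (t : Finset (Lat k)) (X : ST k), ∑ m ∈ t, (1 + ‖X - lat m‖) ^ (-(2 * M - Q)) ≤ Cl)
    (i : ℕ) (p : D.Lb i → Prop) (a : D.Cl i → ℝ) (z : ST k) :
    (∑ T' : D.Cl i, (if p T'.1.1 then a T' * D.wA M i T'.1 z else 0)) ^ 2
      ≤ ((Finset.univ.filter p).card : ℝ) * Cl * ∑ T' : D.Cl i, (if p T'.1.1 then a T' ^ 2 * D.wA Q i T'.1 z else 0) := by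
  have h := Finset.sum_mul_sq_le_sq_mul_sq (Finset.univ : Finset (D.Cl i)) (fun T' => if p T'.1.1 then a T' * D.wA (Q / 2) i T'.1 z else 0)
    (fun T' => if p T'.1.1 then D.wA (M - Q / 2) i T'.1 z else 0)
  have e1 : ∀ T' : D.Cl i, (if p T'.1.1 then a T' * D.wA (Q / 2) i T'.1 z else 0) * (if p T'.1.1 then D.wA (M - Q / 2) i T'.1 z else 0)
      = if p T'.1.1 then a T' * D.wA M i T'.1 z else 0 := by
    intro T'
    split_ifs
    · rw [mul_assoc, ti_wA_mul]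
      congr 2
      ring
    · rw [mul_zero]
  have e2 : ∀ T' : D.Cl i, (if p T'.1.1 then a T' * D.wA (Q / 2) i T'.1 z else 0) ^ 2 = if p T'.1.1 then a T' ^ 2 * D.wA Q i T'.1 z else 0 := by
    intro T'
    split_ifs
    · rw [mul_pow, sq (D.wA (Q / 2) i T'.1 z), ti_wA_mul]
      congr 2
      ring
    · ring
  have e3 : ∀ T' : D.Cl i, (if p T'.1.1 then D.wA (M - Q / 2) i T'.1 z else 0) ^ 2 = if p T'.1.1 then D.wA (2 * M - Q) i T'.1 z else 0 := by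
    intro T'
    split_ifs
    · rw [sq, ti_wA_mul]
      congr 1
      ring
    · ring
  simp only [e1, e2, e3] at h
  refine h.trans ?_
  rw [mul_comm]
  refine mul_le_mul_of_nonneg_right (ti_cell_sum D hCl i p z) (Finset.sum_nonneg fun T' _ => ?_)
  split_ifs
  exacts [mul_nonneg (sq_nonneg _) (D.wA_pos _ _ _ _).le, le_rfl]

/-- **LEAF L-257-TI-C5: weighted Cauchy between two layers** (field `cauchy`).
PLAN.  `‖pre z‖ ≤ ∑_{T' in the cap} a_{T'} (1 + d_{T'} z)^(-M)` (`ti_pk_le`);  Cauchy-Schwarz (`Finset.sum_mul_sq_le_sq_mul_sq` / `inner_mul_le_norm_mul_norm`) with `(1+d)^(-M) = (1+d)^(-Q/2) (1+d)^(-(M - Q/2))`: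
`‖pre z‖² ≤ (∑ a² wA Q i T' z) (∑_{T' in the cap} (1 + d_{T'} z)^(-(2M - Q)))`;  second factor `≤ (number of child labels) · C_lat ≤ Cm (κ i/κ (i+1))^k C_lat` (`hD.nch`, `ti_lat_sum`, `2M - Q > k + 1`; fibre the sum over the labels);
first factor: `ti_edge_ge`;  `(1 + d_T z)^(Q - 2 C0) ≤ 1`.   `TDat.amp_le`. -/
theorem ti_cauchy {c : TCls k} (hc : c.Ok) : ∃ C : ℝ, 1 ≤ C ∧ ∀ D : TDat c, D.Good → ∀ (i : ℕ) (g : D.Cl i → (ST k →ᵇ ℂ)) (a : D.Cl i → ℝ), D.Adm i g a → ∀ T : D.Cl (i + 1),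
    D.amp i g T ^ 2 ≤ C * (D.κ i / D.κ (i + 1)) ^ k * ∑ T' : D.Cl i, a T' ^ 2 * D.edge c.Q i T'.1 T.1 := by
  have hk0 : (0 : ℝ) ≤ k := Nat.cast_nonneg k
  have hQ : 0 ≤ c.Q := by linarith [hc.P_gt, hc.P_lt]
  have hχ : 0 ≤ c.Cχ := by linarith [hc.one_le_Cχ]
  have hCc : 0 ≤ c.Cc := by linarith [hc.one_le_Cc]
  obtain ⟨Cl, hCl1, hCl⟩ := ti_lat_sum (k := k) (A := 2 * c.M - c.Q) (by linarith [hc.M_gt])
  have h1Q : 1 ≤ (1 + 2 * c.Cc) ^ c.Q := Real.one_le_rpow (by linarith) hQ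
  refine ⟨c.Cχ ^ 2 * (c.Cm * Cl * (1 + 2 * c.Cc) ^ c.Q), ?_, ?_⟩
  · have h1 : 1 ≤ c.Cχ ^ 2 := one_le_pow₀ hc.one_le_Cχ
    have h2 : 1 ≤ c.Cm * Cl := one_le_mul_of_one_le_of_one_le hc.one_le_Cm hCl1
    exact one_le_mul_of_one_le_of_one_le h1 (one_le_mul_of_one_le_of_one_le h2 h1Q)
  intro D hD i g a h T
  have hr0 : 0 ≤ (D.κ i / D.κ (i + 1)) ^ k := by
    have := hD.one_le_κ i
    have := hD.one_le_κ (i + 1)
    positivity
  set S : ℝ := ∑ T' : D.Cl i, a T' ^ 2 * D.edge c.Q i T'.1 T.1 with hS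
  have hS0 : 0 ≤ S := Finset.sum_nonneg fun T' _ => mul_nonneg (sq_nonneg _) (D.edge_nonneg _ _ _ _)
  set R : ℝ := c.Cm * (D.κ i / D.κ (i + 1)) ^ k * Cl * (1 + 2 * c.Cc) ^ c.Q * S with hR
  have hR0 : 0 ≤ R := by
    have := hc.one_le_Cm
    positivity
  have key : ∀ z, ‖D.pre i g T.1.1 z‖ * D.wA c.C0 (i + 1) T.1 z ≤ Real.sqrt R := by
    intro z
    refine (le_abs_self _).trans (Real.abs_le_sqrt ?_)
    have hd : 0 < 1 + ‖D.X (i + 1) T.1 z‖ := by positivity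
    have h1 : ‖D.pre i g T.1.1 z‖ ≤ ∑ T' : D.Cl i, (if D.par i T'.1.1 = T.1.1 then a T' * D.wA c.M i T'.1 z else 0) := by
      rw [TDat.pre_apply]
      refine (norm_sum_le _ _).trans (Finset.sum_le_sum fun T' _ => ?_)
      split_ifs
      · exact ti_pk_le (h T') z
      · rw [norm_zero]
    have h2 := ti_cs_cells D (Q := c.Q) (M := c.M) hCl i (fun v' => D.par i v' = T.1.1) a z
    have h3 : ∑ T' : D.Cl i, (if D.par i T'.1.1 = T.1.1 then a T' ^ 2 * D.wA c.Q i T'.1 z else 0)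
        ≤ (1 + 2 * c.Cc) ^ c.Q * (1 + ‖D.X (i + 1) T.1 z‖) ^ c.Q * S := by
      rw [hS, Finset.mul_sum]
      refine Finset.sum_le_sum fun T' _ => ?_
      split_ifs with hp
      · calc a T' ^ 2 * D.wA c.Q i T'.1 z ≤ a T' ^ 2 * ((1 + 2 * c.Cc) ^ c.Q * (1 + ‖D.X (i + 1) T.1 z‖) ^ c.Q * D.edge c.Q i T'.1 T.1) :=
              mul_le_mul_of_nonneg_left (ti_edge_ge hc D hD hQ i T'.1 T.1 hp z) (sq_nonneg _)
          _ = _ := by ring
      · exact mul_nonneg (by positivity) (mul_nonneg (sq_nonneg _) (D.edge_nonneg _ _ _ _))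
    have h4 : ((Finset.univ.filter fun v' => D.par i v' = T.1.1).card : ℝ) ≤ c.Cm * (D.κ i / D.κ (i + 1)) ^ k := hD.nch i T.1.1
    have h5 : ‖D.pre i g T.1.1 z‖ ^ 2 ≤ c.Cm * (D.κ i / D.κ (i + 1)) ^ k * Cl * ((1 + 2 * c.Cc) ^ c.Q * (1 + ‖D.X (i + 1) T.1 z‖) ^ c.Q * S) := by
      calc ‖D.pre i g T.1.1 z‖ ^ 2 ≤ (∑ T' : D.Cl i, (if D.par i T'.1.1 = T.1.1 then a T' * D.wA c.M i T'.1 z else 0)) ^ 2 :=
            pow_le_pow_left₀ (norm_nonneg _) h1 2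
        _ ≤ _ := h2
        _ ≤ _ := by
            refine mul_le_mul (mul_le_mul_of_nonneg_right h4 (by linarith)) h3 ?_ (by have := hc.one_le_Cm; positivity)
            refine Finset.sum_nonneg fun T' _ => ?_
            split_ifs
            exacts [mul_nonneg (sq_nonneg _) (D.wA_pos _ _ _ _).le, le_rfl]
    have h6 : (1 + ‖D.X (i + 1) T.1 z‖) ^ c.Q * D.wA c.C0 (i + 1) T.1 z ^ 2 ≤ 1 := by
      unfold TDat.wA
      rw [← Real.rpow_natCast, ← Real.rpow_mul hd.le, ← Real.rpow_add hd]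
      refine Real.rpow_le_one_of_one_le_of_nonpos (by linarith [norm_nonneg (D.X (i + 1) T.1 z)]) ?_
      push_cast
      linarith [hc.C0_ge]
    rw [mul_pow]
    calc ‖D.pre i g T.1.1 z‖ ^ 2 * D.wA c.C0 (i + 1) T.1 z ^ 2
        ≤ c.Cm * (D.κ i / D.κ (i + 1)) ^ k * Cl * ((1 + 2 * c.Cc) ^ c.Q * (1 + ‖D.X (i + 1) T.1 z‖) ^ c.Q * S) * D.wA c.C0 (i + 1) T.1 z ^ 2 :=
          mul_le_mul_of_nonneg_right h5 (sq_nonneg _)
      _ = R * ((1 + ‖D.X (i + 1) T.1 z‖) ^ c.Q * D.wA c.C0 (i + 1) T.1 z ^ 2) := by rw [hR]; ring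
      _ ≤ R * 1 := mul_le_mul_of_nonneg_left h6 hR0
      _ = R := mul_one _
  have h7 := D.amp_le hχ i g T key
  calc D.amp i g T ^ 2 ≤ (c.Cχ * Real.sqrt R) ^ 2 := pow_le_pow_left₀ (D.amp_nonneg hχ i g T) h7 2
    _ = c.Cχ ^ 2 * R := by rw [mul_pow, Real.sq_sqrt hR0]
    _ = _ := by rw [hR]; ring

theorem ti_kappa_anti {c : TCls k} (D : TDat c) (hD : D.Good) {i j : ℕ} (h : i ≤ j) : D.κ j ≤ D.κ i := by
  induction j, h using Nat.le_induction with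
  | base => exact le_rfl
  | succ j _ ih => exact (hD.κ_anti j).trans ih

theorem ti_bin_near_aux {c : TCls k} (hc : c.Ok) (D : TDat c) (hD : D.Good) : ∀ (d i : ℕ), i + d = c.tr → ∀ (v : D.Lb i) (u : D.Lb c.tr), D.bin c.tr u = D.bin i v →
    ‖D.fr i v - D.fr c.tr u‖ ≤ d * c.Cc / D.κ c.tr := by
  intro d
  induction d with
  | zero =>
    intro i hi v u h
    have hi' : i = c.tr := by simpa using hi
    subst hi'
    rw [hD.bin_inj h]
    simp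
  | succ d ih =>
    intro i hi v u h
    have hK : 0 < D.κ c.tr := by linarith [hD.one_le_κ c.tr]
    have hK1 : 0 < D.κ (i + 1) := by linarith [hD.one_le_κ (i + 1)]
    have h1 := ih (i + 1) (by omega) (D.par i v) u (by rw [hD.bin_par i (by omega) v]; exact h)
    have h2 := hD.par_near i v
    have h3 : c.Cc / D.κ (i + 1) ≤ c.Cc / D.κ c.tr :=
      div_le_div_of_nonneg_left (by linarith [hc.one_le_Cc]) hK (ti_kappa_anti D hD (by omega))
    have h4 : ‖D.fr i v - D.fr c.tr u‖ ≤ ‖D.fr i v - D.fr (i + 1) (D.par i v)‖ + ‖D.fr (i + 1) (D.par i v) - D.fr c.tr u‖ := by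
      have := norm_add_le (D.fr i v - D.fr (i + 1) (D.par i v)) (D.fr (i + 1) (D.par i v) - D.fr c.tr u)
      simpa using this
    have e : ((d + 1 : ℕ) : ℝ) * c.Cc / D.κ c.tr = c.Cc / D.κ c.tr + d * c.Cc / D.κ c.tr := by
      push_cast; ring
    rw [e]
    linarith

/-- **LEAF L-257-TI-C6: a label is close to its bin.**   PLAN: induction on `d` for the statement `∀ d i, i + d = tr → …  ≤ d * Cc / κ tr`: `d = 0`: `subst`, `hD.bin_inj`; step: `hD.bin_par`, `hD.par_near`, `κ tr ≤ κ (i+1)` (antitone from `hD.κ_anti`). -/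
theorem ti_bin_near {c : TCls k} (hc : c.Ok) (D : TDat c) (hD : D.Good) (i : ℕ) (hi : i ≤ c.tr) (v : D.Lb i) (u : D.Lb c.tr) (h : D.bin c.tr u = D.bin i v) :
    ‖D.fr i v - D.fr c.tr u‖ ≤ c.ℓ * c.Cc / D.κ c.tr := by
  have hK : 0 < D.κ c.tr := by linarith [hD.one_le_κ c.tr]
  refine (ti_bin_near_aux hc D hD (c.tr - i) i (by omega) v u h).trans ?_
  refine div_le_div_of_nonneg_right (mul_le_mul_of_nonneg_right ?_ (by linarith [hc.one_le_Cc])) hK.le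
  have : c.tr - i ≤ c.ℓ := (Nat.sub_le _ _).trans hc.tr_le
  exact_mod_cast this

theorem ti_pair_le {c : TCls k} (hc : c.Ok) (D : TDat c) (hD : D.Good) (i : ℕ) (hi : i ≤ c.tr) (T : D.Lb i × Lat k) (S : D.Lb c.tr × Lat k)
    (h : D.bin c.tr S.1 = D.bin i T.1) (z : ST k) :
    ‖D.loc c.tr S z‖ * D.wA c.M i T z ≤ c.Cχ * (1 + 2 * (c.ℓ * c.Cc)) ^ c.M * (D.wA c.C0 c.tr S z * D.wA c.M i T (D.ctr c.tr S)) := by
  have hk0 : (0 : ℝ) ≤ k := Nat.cast_nonneg k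
  have hM : 0 ≤ c.M := by linarith [hc.P_gt, hc.P_lt, hc.M_gt]
  have hK : 0 < D.κ c.tr := by linarith [hD.one_le_κ c.tr]
  have hCc : 0 ≤ (c.ℓ : ℝ) * c.Cc := mul_nonneg (Nat.cast_nonneg _) (by linarith [hc.one_le_Cc])
  have hχ : 0 ≤ c.Cχ := by linarith [hc.one_le_Cχ]
  have h1 := ti_pw_peetre hK (ti_kappa_anti D hD hi) hCc hM (ti_bin_near hc D hD i hi T.1 S.1 h) (lat T.2) (D.ctr c.tr S) z
  have e : natX (D.κ c.tr) (D.fr c.tr S.1) (D.ctr c.tr S) = lat S.2 := natX_natI hK.ne' _ _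
  rw [e, norm_sub_rev] at h1
  have h2 : ‖D.loc c.tr S z‖ ≤ c.Cχ * (1 + ‖D.X c.tr S z‖) ^ (-(c.M + c.C0)) := by
    rw [TDat.loc_apply]
    exact hc.χ_dec _
  have hd : 0 < 1 + ‖D.X c.tr S z‖ := by positivity
  have h1' : D.wA c.M i T z ≤ (1 + 2 * (c.ℓ * c.Cc)) ^ c.M * (1 + ‖D.X c.tr S z‖) ^ c.M * D.wA c.M i T (D.ctr c.tr S) := h1
  calc ‖D.loc c.tr S z‖ * D.wA c.M i T z
      ≤ (c.Cχ * (1 + ‖D.X c.tr S z‖) ^ (-(c.M + c.C0))) * ((1 + 2 * (c.ℓ * c.Cc)) ^ c.M * (1 + ‖D.X c.tr S z‖) ^ c.M * D.wA c.M i T (D.ctr c.tr S)) :=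
        mul_le_mul h2 h1' (D.wA_pos _ _ _ _).le (by positivity)
    _ = c.Cχ * (1 + 2 * (c.ℓ * c.Cc)) ^ c.M * (((1 + ‖D.X c.tr S z‖) ^ (-(c.M + c.C0)) * (1 + ‖D.X c.tr S z‖) ^ c.M) * D.wA c.M i T (D.ctr c.tr S)) := by ring
    _ = _ := by
        rw [← Real.rpow_add hd]
        have : -(c.M + c.C0) + c.M = -c.C0 := by ring
        rw [this]
        rfl

theorem ti_pair_sum {c : TCls k} (D : TDat c) (hD : D.Good) {B B' Cl Cl' : ℝ}
    (hCl : ∀ (t : Finset (Lat k)) (X : ST k), ∑ m ∈ t, (1 + ‖X - lat m‖) ^ (-B) ≤ Cl)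
    (hCl' : ∀ (t : Finset (Lat k)) (X : ST k), ∑ m ∈ t, (1 + ‖X - lat m‖) ^ (-B') ≤ Cl') (hCl0 : 0 ≤ Cl) (hCl0' : 0 ≤ Cl') (i : ℕ) (z : ST k) :
    ∑ T : D.Cl i, ∑ S ∈ D.W c.tr, (if D.bin c.tr S.1 = D.bin i T.1.1 then D.wA B' c.tr S z * D.wA B i T.1 (D.ctr c.tr S) else 0)
      ≤ (Fintype.card (D.Lb i) : ℝ) * (Cl * Cl') := by
  set n : D.Lb c.tr → ℝ := fun u => ((Finset.univ.filter fun v : D.Lb i => D.bin c.tr u = D.bin i v).card : ℝ) with hn
  have hn0 : ∀ u, 0 ≤ n u := fun u => Nat.cast_nonneg _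
  have hsum : ∑ u, n u ≤ (Fintype.card (D.Lb i) : ℝ) := by
    have e : ∑ u, n u = ∑ v : D.Lb i, ((Finset.univ.filter fun u : D.Lb c.tr => D.bin c.tr u = D.bin i v).card : ℝ) := by
      simp only [hn, Finset.card_filter]
      push_cast
      exact Finset.sum_comm
    rw [e]
    calc ∑ v : D.Lb i, ((Finset.univ.filter fun u : D.Lb c.tr => D.bin c.tr u = D.bin i v).card : ℝ) ≤ ∑ _v : D.Lb i, (1 : ℝ) := by
          refine Finset.sum_le_sum fun v _ => ?_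
          have : (Finset.univ.filter fun u : D.Lb c.tr => D.bin c.tr u = D.bin i v).card ≤ 1 := by
            rw [Finset.card_le_one]
            intro u hu u' hu'
            rw [Finset.mem_filter] at hu hu'
            exact hD.bin_inj (hu.2.trans hu'.2.symm)
          exact_mod_cast this
      _ = _ := by simp
  calc ∑ T : D.Cl i, ∑ S ∈ D.W c.tr, (if D.bin c.tr S.1 = D.bin i T.1.1 then D.wA B' c.tr S z * D.wA B i T.1 (D.ctr c.tr S) else 0)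
      = ∑ S ∈ D.W c.tr, D.wA B' c.tr S z * ∑ T : D.Cl i, (if D.bin c.tr S.1 = D.bin i T.1.1 then D.wA B i T.1 (D.ctr c.tr S) else 0) := by
        rw [Finset.sum_comm]
        refine Finset.sum_congr rfl fun S _ => ?_
        rw [Finset.mul_sum]
        refine Finset.sum_congr rfl fun T _ => ?_
        split_ifs
        · rfl
        · rw [mul_zero]
    _ ≤ ∑ S ∈ D.W c.tr, D.wA B' c.tr S z * (n S.1 * Cl) :=
        Finset.sum_le_sum fun S _ => mul_le_mul_of_nonneg_left (ti_cell_sum D hCl i (fun v => D.bin c.tr S.1 = D.bin i v) (D.ctr c.tr S)) (D.wA_pos _ _ _ _).le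
    _ ≤ ∑ S ∈ (Finset.univ : Finset (D.Lb c.tr)) ×ˢ (D.W c.tr).image Prod.snd, D.wA B' c.tr S z * (n S.1 * Cl) := by
        refine Finset.sum_le_sum_of_subset_of_nonneg ?_ fun S _ _ => mul_nonneg (D.wA_pos _ _ _ _).le (mul_nonneg (hn0 _) hCl0)
        intro S hS
        exact Finset.mem_product.2 ⟨Finset.mem_univ _, Finset.mem_image_of_mem _ hS⟩
    _ = ∑ u, (∑ m ∈ (D.W c.tr).image Prod.snd, D.wA B' c.tr (u, m) z) * (n u * Cl) := by
        rw [Finset.sum_product]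
        refine Finset.sum_congr rfl fun u _ => ?_
        rw [Finset.sum_mul]
    _ ≤ ∑ u, Cl' * (n u * Cl) :=
        Finset.sum_le_sum fun u _ => mul_le_mul_of_nonneg_right (hCl' ((D.W c.tr).image Prod.snd) (natX (D.κ c.tr) (D.fr c.tr u) z)) (mul_nonneg (hn0 _) hCl0)
    _ = (∑ u, n u) * (Cl * Cl') := by
        rw [Finset.sum_mul]
        refine Finset.sum_congr rfl fun u _ => ?_
        ring
    _ ≤ _ := mul_le_mul_of_nonneg_right hsum (mul_nonneg hCl0 hCl0')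

/-- **LEAF L-257-TI-C7: absolute Cauchy at the root** (gives `cauchy_root` and `junk`).
PLAN.  `i ≥ tr`: `msk = 1`, `ker = wA Q`; Cauchy-Schwarz as in `ti_cauchy`; `∑_T (1 + d_T z)^(-(2M - Q)) ≤ card (Lb i) · C_lat ≤ Cm κ_i^k C_lat` (`hD.nlab`).
`i < tr`: `‖msk i v z‖ ≤ ∑_{S ∈ W tr, bin S = bin v} Cχ (1 + d_S z)^(-(M + C0))`; Cauchy-Schwarz over the PAIRS `(T, S)` with `β = wA Q tr S z * wA Q i T (ctr S)`, `α = Cχ (1 + d_S z)^(-(M+C0)) (1 + d_T z)^(-M)`;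
`1 + d_T (ctr S) ≤ (1 + 2 ℓ Cc) (1 + d_T z) (1 + d_S z)` (`ti_peetre` with the constant `ℓ Cc`, `ti_bin_near`, `TDat.X_ctr`), so `α²/β ≤ C (1 + d_S z)^(-2(M + C0) + 2Q) (1 + d_T z)^(-2M + Q)`;
sum over `S` (ONE label: `hD.bin_inj`): `C_lat`;  sum over `T`: `card (Lb i) C_lat`. -/
theorem ti_abs_root {c : TCls k} (hc : c.Ok) : ∃ C : ℝ, 1 ≤ C ∧ ∀ D : TDat c, D.Good → ∀ (i : ℕ) (g : D.Cl i → (ST k →ᵇ ℂ)) (a : D.Cl i → ℝ), D.Adm i g a → ∀ z : ST k,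
    (∑ T : D.Cl i, ‖D.msk i T.1.1 z‖ * ‖g T z‖) ^ 2 ≤ C * D.κ i ^ k * ∑ T : D.Cl i, a T ^ 2 * D.ker c.Q i T.1 z := by
  have hk0 : (0 : ℝ) ≤ k := Nat.cast_nonneg k
  have hQ : 0 ≤ c.Q := by linarith [hc.P_gt, hc.P_lt]
  have hM : 0 ≤ c.M := by linarith [hc.M_gt]
  have hχ : 0 ≤ c.Cχ := by linarith [hc.one_le_Cχ]
  have hCc : 0 ≤ (c.ℓ : ℝ) * c.Cc := mul_nonneg (Nat.cast_nonneg _) (by linarith [hc.one_le_Cc])
  obtain ⟨Cl, hCl1, hCl⟩ := ti_lat_sum (k := k) (A := 2 * c.M - c.Q) (by linarith [hc.M_gt])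
  obtain ⟨Cl', hCl1', hCl'⟩ := ti_lat_sum (k := k) (A := 2 * c.C0 - c.Q) (by linarith [hc.C0_ge])
  set C₁ : ℝ := c.Cχ * (1 + 2 * (c.ℓ * c.Cc)) ^ c.M with hC₁
  have hC₁1 : 1 ≤ C₁ := one_le_mul_of_one_le_of_one_le hc.one_le_Cχ (Real.one_le_rpow (by linarith) hM)
  have hC₁sq : 1 ≤ C₁ ^ 2 := one_le_pow₀ hC₁1
  have hCC : 1 ≤ Cl * Cl' := one_le_mul_of_one_le_of_one_le hCl1 hCl1'
  refine ⟨C₁ ^ 2 * (c.Cm * (Cl * Cl')), one_le_mul_of_one_le_of_one_le hC₁sq (one_le_mul_of_one_le_of_one_le hc.one_le_Cm hCC), ?_⟩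
  intro D hD i g a h z
  have hκ : 0 ≤ D.κ i ^ k := by
    have := hD.one_le_κ i
    positivity
  have ha : ∀ T, 0 ≤ a T := fun T => ti_pk_nonneg (h T)
  have hS0 : 0 ≤ ∑ T : D.Cl i, a T ^ 2 * D.ker c.Q i T.1 z := Finset.sum_nonneg fun T _ => mul_nonneg (sq_nonneg _) (D.ker_nonneg _ _ _ _)
  by_cases hi : i < c.tr
  · -- below the transition height
    have h1 : ∑ T : D.Cl i, ‖D.msk i T.1.1 z‖ * ‖g T z‖
        ≤ C₁ * ∑ p ∈ (Finset.univ : Finset (D.Cl i)) ×ˢ D.W c.tr,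
            (if D.bin c.tr p.2.1 = D.bin i p.1.1.1 then a p.1 * (D.wA (c.Q / 2) c.tr p.2 z * D.wA (c.Q / 2) i p.1.1 (D.ctr c.tr p.2)) else 0)
              * (if D.bin c.tr p.2.1 = D.bin i p.1.1.1 then D.wA (c.C0 - c.Q / 2) c.tr p.2 z * D.wA (c.M - c.Q / 2) i p.1.1 (D.ctr c.tr p.2) else 0) := by
      rw [Finset.sum_product, Finset.mul_sum]
      refine Finset.sum_le_sum fun T _ => ?_
      rw [Finset.mul_sum]
      have hm : ‖D.msk i T.1.1 z‖ ≤ ∑ S ∈ D.W c.tr, (if D.bin c.tr S.1 = D.bin i T.1.1 then ‖D.loc c.tr S z‖ else 0) := by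
        unfold TDat.msk
        rw [if_pos hi]
        refine (norm_sum_le _ _).trans (Finset.sum_le_sum fun S _ => ?_)
        split_ifs
        · exact le_rfl
        · rw [norm_zero]
      calc ‖D.msk i T.1.1 z‖ * ‖g T z‖
          ≤ (∑ S ∈ D.W c.tr, (if D.bin c.tr S.1 = D.bin i T.1.1 then ‖D.loc c.tr S z‖ else 0)) * (a T * D.wA c.M i T.1 z) :=
            mul_le_mul hm (ti_pk_le (h T) z) (norm_nonneg _) (Finset.sum_nonneg fun S _ => by split_ifs <;> simp)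
        _ = ∑ S ∈ D.W c.tr, (if D.bin c.tr S.1 = D.bin i T.1.1 then ‖D.loc c.tr S z‖ else 0) * (a T * D.wA c.M i T.1 z) := Finset.sum_mul _ _ _
        _ ≤ _ := by
            refine Finset.sum_le_sum fun S _ => ?_
            split_ifs with hb
            · have h2 := ti_pair_le hc D hD i hi.le T.1 S hb z
              calc ‖D.loc c.tr S z‖ * (a T * D.wA c.M i T.1 z) = a T * (‖D.loc c.tr S z‖ * D.wA c.M i T.1 z) := by ring
                _ ≤ a T * (C₁ * (D.wA c.C0 c.tr S z * D.wA c.M i T.1 (D.ctr c.tr S))) := mul_le_mul_of_nonneg_left h2 (ha T)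
                _ = C₁ * (a T * ((D.wA (c.Q / 2) c.tr S z * D.wA (c.C0 - c.Q / 2) c.tr S z) * (D.wA (c.Q / 2) i T.1 (D.ctr c.tr S) * D.wA (c.M - c.Q / 2) i T.1 (D.ctr c.tr S)))) := by
                    rw [ti_wA_mul, ti_wA_mul]
                    have e1 : c.Q / 2 + (c.C0 - c.Q / 2) = c.C0 := by ring
                    have e2 : c.Q / 2 + (c.M - c.Q / 2) = c.M := by ring
                    rw [e1, e2]
                    ring
                _ = _ := by ring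
            · simp
    have h2 := Finset.sum_mul_sq_le_sq_mul_sq ((Finset.univ : Finset (D.Cl i)) ×ˢ D.W c.tr)
      (fun p => if D.bin c.tr p.2.1 = D.bin i p.1.1.1 then a p.1 * (D.wA (c.Q / 2) c.tr p.2 z * D.wA (c.Q / 2) i p.1.1 (D.ctr c.tr p.2)) else 0)
      (fun p => if D.bin c.tr p.2.1 = D.bin i p.1.1.1 then D.wA (c.C0 - c.Q / 2) c.tr p.2 z * D.wA (c.M - c.Q / 2) i p.1.1 (D.ctr c.tr p.2) else 0)
    have e1 : ∑ p ∈ (Finset.univ : Finset (D.Cl i)) ×ˢ D.W c.tr,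
        (if D.bin c.tr p.2.1 = D.bin i p.1.1.1 then a p.1 * (D.wA (c.Q / 2) c.tr p.2 z * D.wA (c.Q / 2) i p.1.1 (D.ctr c.tr p.2)) else 0) ^ 2
        = ∑ T : D.Cl i, a T ^ 2 * D.ker c.Q i T.1 z := by
      rw [Finset.sum_product]
      refine Finset.sum_congr rfl fun T _ => ?_
      unfold TDat.ker
      rw [if_pos hi, Finset.mul_sum]
      refine Finset.sum_congr rfl fun S _ => ?_
      split_ifs
      · rw [mul_pow, mul_pow, sq (D.wA (c.Q / 2) c.tr S z), sq (D.wA (c.Q / 2) i T.1 (D.ctr c.tr S)), ti_wA_mul, ti_wA_mul]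
        have : c.Q / 2 + c.Q / 2 = c.Q := by ring
        rw [this]
      · simp
    have e2 : ∑ p ∈ (Finset.univ : Finset (D.Cl i)) ×ˢ D.W c.tr,
        (if D.bin c.tr p.2.1 = D.bin i p.1.1.1 then D.wA (c.C0 - c.Q / 2) c.tr p.2 z * D.wA (c.M - c.Q / 2) i p.1.1 (D.ctr c.tr p.2) else 0) ^ 2
        = ∑ T : D.Cl i, ∑ S ∈ D.W c.tr, (if D.bin c.tr S.1 = D.bin i T.1.1 then D.wA (2 * c.C0 - c.Q) c.tr S z * D.wA (2 * c.M - c.Q) i T.1 (D.ctr c.tr S) else 0) := by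
      rw [Finset.sum_product]
      refine Finset.sum_congr rfl fun T _ => Finset.sum_congr rfl fun S _ => ?_
      split_ifs
      · rw [mul_pow, sq (D.wA (c.C0 - c.Q / 2) c.tr S z), sq (D.wA (c.M - c.Q / 2) i T.1 (D.ctr c.tr S)), ti_wA_mul, ti_wA_mul]
        have e3 : c.C0 - c.Q / 2 + (c.C0 - c.Q / 2) = 2 * c.C0 - c.Q := by ring
        have e4 : c.M - c.Q / 2 + (c.M - c.Q / 2) = 2 * c.M - c.Q := by ring
        rw [e3, e4]
      · simp
    rw [e1, e2] at h2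
    have h3 := ti_pair_sum D hD hCl hCl' (by linarith) (by linarith) i z
    have h4 : (Fintype.card (D.Lb i) : ℝ) ≤ c.Cm * D.κ i ^ k := hD.nlab i
    have hnn : 0 ≤ ∑ T : D.Cl i, ‖D.msk i T.1.1 z‖ * ‖g T z‖ := Finset.sum_nonneg fun T _ => mul_nonneg (norm_nonneg _) (norm_nonneg _)
    calc (∑ T : D.Cl i, ‖D.msk i T.1.1 z‖ * ‖g T z‖) ^ 2 ≤ (C₁ * _) ^ 2 := pow_le_pow_left₀ hnn h1 2
      _ = C₁ ^ 2 * _ ^ 2 := mul_pow _ _ _
      _ ≤ C₁ ^ 2 * ((∑ T : D.Cl i, a T ^ 2 * D.ker c.Q i T.1 z) * (c.Cm * D.κ i ^ k * (Cl * Cl'))) := by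
          refine mul_le_mul_of_nonneg_left (h2.trans (mul_le_mul_of_nonneg_left (h3.trans ?_) hS0)) (sq_nonneg _)
          exact mul_le_mul_of_nonneg_right h4 (by linarith)
      _ = _ := by ring
  · -- at and above the transition height
    have h1 : ∑ T : D.Cl i, ‖D.msk i T.1.1 z‖ * ‖g T z‖ ≤ ∑ T : D.Cl i, a T * D.wA c.M i T.1 z := by
      refine Finset.sum_le_sum fun T _ => ?_
      unfold TDat.msk
      rw [if_neg hi, norm_one, one_mul]
      exact ti_pk_le (h T) z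
    have h2 := ti_cs_cells D (Q := c.Q) (M := c.M) hCl i (fun _ => True) a z
    simp only [if_true] at h2
    have e1 : ∑ T : D.Cl i, a T ^ 2 * D.wA c.Q i T.1 z = ∑ T : D.Cl i, a T ^ 2 * D.ker c.Q i T.1 z := by
      refine Finset.sum_congr rfl fun T _ => ?_
      unfold TDat.ker
      rw [if_neg hi]
    rw [e1] at h2
    have h4 : ((Finset.univ : Finset (D.Lb i)).card : ℝ) ≤ c.Cm * D.κ i ^ k := hD.nlab i
    have hnn : 0 ≤ ∑ T : D.Cl i, ‖D.msk i T.1.1 z‖ * ‖g T z‖ := Finset.sum_nonneg fun T _ => mul_nonneg (norm_nonneg _) (norm_nonneg _)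
    calc (∑ T : D.Cl i, ‖D.msk i T.1.1 z‖ * ‖g T z‖) ^ 2 ≤ _ := pow_le_pow_left₀ hnn h1 2
      _ ≤ _ := h2
      _ ≤ c.Cm * D.κ i ^ k * Cl * ∑ T : D.Cl i, a T ^ 2 * D.ker c.Q i T.1 z :=
          mul_le_mul_of_nonneg_right (mul_le_mul_of_nonneg_right ((Nat.cast_le.2 (Finset.card_le_card (Finset.subset_univ _))).trans h4) (by linarith)) hS0
      _ ≤ C₁ ^ 2 * (c.Cm * (Cl * Cl')) * D.κ i ^ k * ∑ T : D.Cl i, a T ^ 2 * D.ker c.Q i T.1 z := by
          refine mul_le_mul_of_nonneg_right ?_ hS0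
          have hCm := hc.one_le_Cm
          have h5 : c.Cm * D.κ i ^ k * Cl ≤ c.Cm * D.κ i ^ k * (Cl * Cl') :=
            mul_le_mul_of_nonneg_left (le_mul_of_one_le_right (by linarith) hCl1') (by positivity)
          have h6 : c.Cm * D.κ i ^ k * (Cl * Cl') ≤ C₁ ^ 2 * (c.Cm * D.κ i ^ k * (Cl * Cl')) :=
            le_mul_of_one_le_left (by positivity) hC₁sq
          calc c.Cm * D.κ i ^ k * Cl ≤ C₁ ^ 2 * (c.Cm * D.κ i ^ k * (Cl * Cl')) := h5.trans h6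
            _ = _ := by ring

theorem ti_Ev_asm {c : TCls k} (D : TDat c) (i : ℕ) (g : D.Cl i → (ST k →ᵇ ℂ)) (z : ST k) :
    D.Ev (i + 1) (D.asm i g) z = ∑ T' : D.Cl i, D.msk (i + 1) (D.par i T'.1.1) z * D.ms (i + 1) (D.par i T'.1.1) z * g T' z := by
  have hms : ∀ v : D.Lb (i + 1), D.ms (i + 1) v z = ∑ T : D.Cl (i + 1), if T.1.1 = v then D.loc (i + 1) T.1 z else 0 := by
    intro v
    unfold TDat.ms
    exact (Finset.sum_coe_sort (D.W (i + 1)) (fun T => if T.1 = v then D.loc (i + 1) T z else 0)).symm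
  unfold TDat.Ev
  calc ∑ T : D.Cl (i + 1), D.msk (i + 1) T.1.1 z * D.asm i g T z
      = ∑ T : D.Cl (i + 1), ∑ T' : D.Cl i, (if T.1.1 = D.par i T'.1.1 then D.msk (i + 1) (D.par i T'.1.1) z * D.loc (i + 1) T.1 z * g T' z else 0) := by
        refine Finset.sum_congr rfl fun T _ => ?_
        rw [TDat.asm_apply, TDat.pre_apply, ← TDat.loc_apply, ← mul_assoc, Finset.mul_sum]
        refine Finset.sum_congr rfl fun T' _ => ?_
        by_cases hp : D.par i T'.1.1 = T.1.1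
        · rw [if_pos hp, if_pos hp.symm, hp]
        · rw [if_neg hp, if_neg (fun e => hp e.symm), mul_zero]
    _ = ∑ T' : D.Cl i, ∑ T : D.Cl (i + 1), (if T.1.1 = D.par i T'.1.1 then D.msk (i + 1) (D.par i T'.1.1) z * D.loc (i + 1) T.1 z * g T' z else 0) :=
        Finset.sum_comm
    _ = _ := by
        refine Finset.sum_congr rfl fun T' _ => ?_
        rw [hms, Finset.mul_sum, Finset.sum_mul]
        refine Finset.sum_congr rfl fun T _ => ?_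
        split_ifs
        · rfl
        · rw [mul_zero, zero_mul]

theorem ti_msk_tr {c : TCls k} (D : TDat c) (hD : D.Good) (z : ST k) : ∀ (j : ℕ) (_ : j = c.tr) (u : D.Lb j),
    (∑ S ∈ D.W c.tr, if D.bin c.tr S.1 = D.bin j u then D.loc c.tr S z else 0) = D.ms j u z := by
  intro j hj u
  subst hj
  unfold TDat.ms
  refine Finset.sum_congr rfl fun S _ => ?_
  by_cases h : S.1 = u
  · rw [if_pos h, if_pos (by rw [h])]
  · rw [if_neg h, if_neg (fun e => h (hD.bin_inj e))]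

/-- **LEAF L-257-TI-C8: the junk identity.**
PLAN.  `Ev (i+1) (asm i g) z = ∑_{T ∈ Cl (i+1)} msk (i+1) T.1 z * χ_T z * pre i g T.1 z`; expand `pre` (`TDat.pre_apply`), exchange the sums: `= ∑_{T'} msk (i+1) (par T') z * ms (i+1) (par T') z * g T' z` (`Finset.sum_coe_sort`/`Finset.sum_subtype`, `TDat.ms`).
`i + 1 < tr`: `msk i T' = msk (i+1) (par T')` (`hD.bin_par`).   `i + 1 = tr` (`subst`-free: rewrite the `if`s with `Nat.lt_irrefl`…): `msk (i+1) = 1`, `msk i T' z = ms tr (par T') z` (`hD.bin_par`, `hD.bin_inj`; the sums over `W tr` and `W (i+1)` agree after `obtain rfl`; generalise `c.tr` first: `c` is a variable, so prove the statement for `D` with `htr : i + 1 = c.tr` by `cases`-free rewriting: use `Eq.rec`-free lemma `∀ j (hj : j = c.tr) (u : D.Lb j), …` and `subst hj`).   `tr < i + 1`: both masks are `1`. -/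
theorem ti_junk_id {c : TCls k} (D : TDat c) (hD : D.Good) (i : ℕ) (g : D.Cl i → (ST k →ᵇ ℂ)) (z : ST k) :
    D.Ev i g z - D.Ev (i + 1) (D.asm i g) z =
      if i + 1 = c.tr then 0 else ∑ T' : D.Cl i, D.msk i T'.1.1 z * (1 - D.ms (i + 1) (D.par i T'.1.1) z) * g T' z := by
  rw [ti_Ev_asm]
  unfold TDat.Ev
  rw [← Finset.sum_sub_distrib]
  split_ifs with htr
  · refine Finset.sum_eq_zero fun T' _ => ?_
    have h1 : D.msk (i + 1) (D.par i T'.1.1) z = 1 := by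
      unfold TDat.msk
      rw [if_neg (by omega)]
    have h2 : D.msk i T'.1.1 z = D.ms (i + 1) (D.par i T'.1.1) z := by
      unfold TDat.msk
      rw [if_pos (by omega), ← ti_msk_tr D hD z (i + 1) htr (D.par i T'.1.1), hD.bin_par i (by omega)]
    rw [h1, h2, one_mul, sub_self]
  · refine Finset.sum_congr rfl fun T' _ => ?_
    have h1 : D.msk (i + 1) (D.par i T'.1.1) z = D.msk i T'.1.1 z := by
      unfold TDat.msk
      by_cases h : i + 1 < c.tr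
      · rw [if_pos h, if_pos (by omega), hD.bin_par i (by omega)]
      · rw [if_neg h, if_neg (by omega)]
    rw [h1]
    ring

end

end Claimed.Agent.R257.Tree
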