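import Claimed.Agent.R257.Tree.GridPow
import Claimed.Agent.R257.PK1.WTree
import Claimed.Agent.R257.PK2.NcOut

/-!
# ROW 257, unit INST, file 14: THE EXITS OF INST + GRID PLUGGED INTO `FR3.ft_core`      (helper155)

The three analytic contracts hold for EVERY class `c.Ok` (`pkw_wtAt`, `pkw_l2At` of PK1, `nc_ncAt` of PK2); the power case of GRID is `ti_rawexit_pow`.
`ti_core` : `CoreStmt k` from the five grid-level tests and `RawExitSub` (helper238, `FR3/TopGrid.lean`).       No sorry in this file.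
-/

set_option autoImplicit false

namespace Claimed.Agent.R257.Tree

open Claimed.Agent.R257 Claimed.Agent.R257.FR2 Claimed.Agent.R257.FR1 Claimed.Agent.R257.FR3

variable {k : ℕ}

theorem ti_exit_W (c : TCls k) (hc : c.Ok) : WtAt k (qk k) c.Q c.M := by
  have hk0 : (0 : ℝ) < k := by exact_mod_cast hc.k_pos
  have h1 := hc.P_gt
  have h2 := hc.P_lt
  have h3 := hc.M_gt
  refine pkw_wtAt (ti_qk_gt hc.k_pos).le ?_ (by linarith) (by linarith) (by linarith)
  unfold qk
  rw [div_mul_cancel₀ _ hk0.ne']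

theorem ti_exit_2 (c : TCls k) (hc : c.Ok) : L2At k c.M := by
  have hk0 : (0 : ℝ) < k := by exact_mod_cast hc.k_pos
  have h1 := hc.P_gt
  have h2 := hc.P_lt
  have h3 := hc.M_gt
  exact pkw_l2At (by linarith)

theorem ti_exit_N (c : TCls k) (hc : c.Ok) : NcAt k c.Q c.M := by
  have hk0 : (0 : ℝ) < k := by exact_mod_cast hc.k_pos
  have h1 := hc.P_gt
  have h2 := hc.P_lt
  have h3 := hc.M_gt
  exact nc_ncAt hc.k_pos (by linarith) (by linarith)

/-- **the core of the frame theorem** from the five grid-level tests and the subpower exit of GRID -/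
theorem ti_core (hk : 1 ≤ k) (hB : GTestB k) (hM : GTestM k) (hX : GTestX k) (hL : GTestL k) (hF : GTestF k)
    (hRs : ∀ c : TCls k, c.Ok → FR1.Room c → c.ℓ = 1 → c.tr = 1 → RawExitSub c) : FR1.CoreStmt k :=
  ft_core hk hB hM hX hL hF ti_exit_W ti_exit_2 ti_exit_N (fun _ hc hr hℓ htr _ _ hσ hc' => ti_rawexit_pow hk hc hr hℓ htr hσ hc') hRs

end Claimed.Agent.R257.Tree
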