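import Claimed.Agent.R257.FR1.Defs
import Claimed.Agent.R257.FR2.Restr
import Claimed.Agent.R257.Tree.TG

/-!
# ROW 257, unit INST / GRID, file 1: REFINEMENT OF A TWO-HEIGHT TREE TO A FINITE GRID OF SCALES: DEFINITIONS      (architect helper155)

NOTHING is sorried in this file.   Paper: H `frame.tex` l.578-600 ("Finite scale trees": the actual fine endpoint and the original transition masks are included in every tree; physical lattices need not be nested; frequency labels retain their ASSIGNED ancestors).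
INPUT  = the export of FR1 (`FR1/Defs.lean`, `NCfg k c`): trees `D : TDat c` with `c.ℓ = c.tr = 1` (height `0` = leaves, height `1` = retained original transition masks).
OUTPUT = `D.grid ℓ tr Cm s : TDat (c.gr ℓ tr Cm)`: heights `0 … ℓ`, transition height `tr`, scales `s.κ` (`s.κ 0 = D.κ 0`, `s.κ tr = D.κ 1`), enlargements `s.G`, windows `s.Wn`, defect `s.ηw`: ALL FREE (`GSp.Ok`).
* the class `c.gr ℓ tr Cm`: same orders `P, Q, M, C0`, same localiser; `Cc' = Cc + k`; `Cm` = any number `≥ Cm₀(k, Cc, Cm)`:  THE ORDERS AND CONSTANTS DO NOT DEPEND ON THE GRID (`FR3.ordOf`).   Only the Fourier radii `ρ i` grow with the height.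
* LABELS.  One universal type `D.GLab = Lb 0 ⊕ (Option (Lb 1) × ℤ^k)`;  the labels of height `j` are the elements of the finite set `gS j` = the ASSIGNED ANCESTORS of the leaf labels which occur in `D.W 0`:
    height `0`: `inl v`;      `0 < j < tr`: `inr (some b, n)` = (bin, lattice point), frequency `n / κ_j`;      `j = tr`: `inr (some b, 0)`, frequency `D.fr 1 b`;     `tr < j ≤ ℓ`: `inr (none, n)`, frequency `n / κ_j`;     `j ≥ ℓ`: frozen (`par = id`).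
    parent = (same bin, ROUNDING of `κ_{j+1} ·` frequency).     The rounding errors `k/(2 κ_i)` add up to `≤ k / κ_j` because the grid is LACUNARY (`GSp.Ok.lac`; not required at the steps which touch the heights `0` and `tr`).
* CELLS.  height `0`: `D.W 0`;   height `tr`: the masks of `D.W 1` whose bin has a leaf;   other heights: all labels × the window `s.Wn j`.
* `D.restr Y₀`: restriction of the witnesses; `ti_restr_sys : (D.restr Y₀).sys = D.sys.restr Y₀`, `ti_restr_good`.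
* `D.Two`: the hypotheses `Good` of a two-height tree with the LITERAL heights `0`, `1` (no dependent rewriting along `c.tr = 1` in the leaves); `ti_two`.
* `NCfg.GOk`, `GPow`, `GSub`: the properties `NCfg.Ok`, `Pow`, `Sub` of FR1 for a general class (`c.tr` in place of `1`); `𝔫.grid` the refinement of a configuration.
-/

set_option autoImplicit false

namespace Claimed.Agent.R257.Tree

open Claimed.Agent.R257 Claimed.Agent.R257.FR2 Claimed.Agent.R257.FR1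
open scoped BigOperators Classical BoundedContinuousFunction

noncomputable section

variable {k : ℕ}

/-! ## the class -/

/-- the Fourier radii of the refined class -/
def grρ (c : TCls k) : ℕ → ℝ
  | 0 => c.ρ 0
  | i + 1 => (1 + 2 * (c.Cc + k)) * grρ c i + (c.Cc + k) + (c.Cc + k) ^ 2 + c.ρχ

/-- the class of the refined trees -/
def TCls.gr (c : TCls k) (ℓ tr : ℕ) (Cm : ℝ) : TCls k where
  ℓ := ℓ
  tr := tr
  P := c.P
  Q := c.Q
  M := c.M
  C0 := c.C0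
  ρ := grρ c
  χ := c.χ
  ρχ := c.ρχ
  Cχ := c.Cχ
  Cc := c.Cc + k
  Cm := Cm

theorem ti_grρ_nonneg {c : TCls k} (hc : c.Ok) (i : ℕ) : 0 ≤ grρ c i := by
  have h1 := hc.one_le_Cc
  have h2 := hc.ρχ_nonneg
  have hk : (0 : ℝ) ≤ k := Nat.cast_nonneg k
  induction i with
  | zero => exact hc.ρ_nonneg 0
  | succ i ih =>
    show 0 ≤ (1 + 2 * (c.Cc + k)) * grρ c i + (c.Cc + k) + (c.Cc + k) ^ 2 + c.ρχ
    positivity

/-- **the refined class is a class** -/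
theorem ti_gr_ok {c : TCls k} (hc : c.Ok) {ℓ tr : ℕ} (h : tr ≤ ℓ) {Cm : ℝ} (hCm : 1 ≤ Cm) : (c.gr ℓ tr Cm).Ok where
  k_pos := hc.k_pos
  tr_le := h
  P_gt := hc.P_gt
  P_lt := hc.P_lt
  M_gt := hc.M_gt
  C0_ge := hc.C0_ge
  ρ_nonneg := ti_grρ_nonneg hc
  ρχ_nonneg := hc.ρχ_nonneg
  one_le_Cχ := hc.one_le_Cχ
  one_le_Cc := by
    show 1 ≤ c.Cc + k
    have := hc.one_le_Cc
    have hk : (0 : ℝ) ≤ k := Nat.cast_nonneg k
    linarith
  one_le_Cm := hCm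
  χ_fs := hc.χ_fs
  χ_dec := hc.χ_dec
  χ_pou := hc.χ_pou
  ρ_step := fun _ => le_refl _
  room_M := hc.room_M
  room_C0 := hc.room_C0

/-! ## rounding (lattice vectors: `latE` of `Tree/GeoK.lean`) -/

/-- coordinatewise rounding -/
def rnd (x : E k) : Fin k → ℤ := fun j => round (x j)

/-- the free parameters of a refinement -/
structure GSp (k : ℕ) where
  /-- the scales -/
  κ : ℕ → ℝ
  /-- the enlargements -/
  G : ℕ → ℝ
  /-- the defect of the windows -/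
  ηw : ℝ
  /-- the windows (heights `≠ 0, tr`) -/
  Wn : ℕ → Finset (Lat k)

namespace TDat

variable {c : TCls k} (D : TDat c) (ℓ tr : ℕ) (κ : ℕ → ℝ)

/-- the universal type of labels -/
abbrev GLab : Type := D.Lb 0 ⊕ (Option (D.Lb 1) × (Fin k → ℤ))

/-- the bin of a label -/
def gbin : D.GLab → Option (D.Lb 1)
  | .inl v => some (D.par 0 v)
  | .inr p => p.1

/-- the frequency of a label, seen at the height `j` -/
def gfr (j : ℕ) : D.GLab → E k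
  | .inl v => D.fr 0 v
  | .inr (some b, n) => if tr ≤ j then D.fr 1 b else (κ j)⁻¹ • latE n
  | .inr (none, n) => (κ j)⁻¹ • latE n

/-- the assigned parent (from the height `j` to the height `j + 1`) -/
def gpar (j : ℕ) (x : D.GLab) : D.GLab :=
  if ℓ ≤ j then x
  else if j + 1 < tr then .inr (D.gbin x, rnd (κ (j + 1) • D.gfr tr κ j x))
  else if j + 1 = tr then .inr (D.gbin x, 0)
  else .inr (none, rnd (κ (j + 1) • D.gfr tr κ j x))

/-- the labels of height `j` -/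
def gS : ℕ → Finset D.GLab
  | 0 => (D.W 0).image fun T => Sum.inl T.1
  | j + 1 => (gS j).image (D.gpar ℓ tr κ j)

/-- the assigned ancestor of height `j` -/
def ganc : ℕ → D.GLab → D.GLab
  | 0 => id
  | j + 1 => fun x => D.gpar ℓ tr κ j (ganc j x)

/-- the lattice points which occur in the cells of height `j` -/
def gN (Wn : ℕ → Finset (Lat k)) (j : ℕ) : Finset (Lat k) :=
  if j = 0 then (D.W 0).image Prod.snd else if j = tr then (D.W 1).image Prod.snd else Wn j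

/-- `(x, m)` is a cell of height `j` -/
def gmem (j : ℕ) (x : D.GLab) (m : Lat k) : Prop :=
  if j = 0 then ∃ v, x = Sum.inl v ∧ (v, m) ∈ D.W 0
  else if j = tr then ∃ b n, x = Sum.inr (some b, n) ∧ (b, m) ∈ D.W 1
  else True

/-- the cells of height `j` -/
def gW (Wn : ℕ → Finset (Lat k)) (j : ℕ) : Finset ({x : D.GLab // x ∈ D.gS ℓ tr κ j} × Lat k) :=
  (Finset.univ ×ˢ D.gN tr Wn j).filter fun T => D.gmem tr j T.1.1 T.2

/-- the leaves -/
def gg0 : D.GLab → Lat k → (ST k →ᵇ ℂ)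
  | .inl v, m => D.g0 (v, m)
  | .inr _, _ => 0

/-- the sizes of the leaves -/
def gs0 : D.GLab → Lat k → ℝ
  | .inl v, m => D.s0 (v, m)
  | .inr _, _ => 0

/-- **the refined tree** -/
def grid (Cm : ℝ) (s : GSp k) : TDat (c.gr ℓ tr Cm) where
  κ := s.κ
  Lb := fun j => {x : D.GLab // x ∈ D.gS ℓ tr s.κ j}
  fLb := fun _ => inferInstance
  fr := fun j x => D.gfr tr s.κ j x.1
  par := fun j x => ⟨D.gpar ℓ tr s.κ j x.1, Finset.mem_image_of_mem _ x.2⟩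
  W := D.gW ℓ tr s.κ s.Wn
  Bin := Option (D.Lb 1)
  bin := fun _ x => D.gbin x.1
  Y := D.Y
  fY := D.fY
  pt := D.pt
  g0 := fun T => D.gg0 T.1.1 T.2
  s0 := fun T => D.gs0 T.1.1 T.2
  G := s.G
  Mc := D.Mc
  ηw := s.ηw
  ϖ := D.ϖ

/-- **restriction of the witnesses** -/
def restr (Y₀ : Finset D.Y) : TDat c where
  κ := D.κ
  Lb := D.Lb
  fLb := D.fLb
  fr := D.fr
  par := D.par
  W := D.W
  Bin := D.Bin
  bin := D.bin
  Y := {y : D.Y // y ∈ Y₀}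
  fY := inferInstance
  pt := fun y => D.pt y.1
  g0 := D.g0
  s0 := D.s0
  G := D.G
  Mc := D.Mc
  ηw := D.ηw
  ϖ := D.ϖ

theorem ti_restr_bb (Y₀ : Finset D.Y) : ∀ i, (D.restr Y₀).bb i = D.bb i := by
  intro i
  induction i with
  | zero => rfl
  | succ i ih =>
    funext T
    show Real.sqrt (∑ T' : D.Cl i, (D.restr Y₀).bb i T' ^ 2 * D.edge c.P i T'.1 T.1) = Real.sqrt (∑ T' : D.Cl i, D.bb i T' ^ 2 * D.edge c.P i T'.1 T.1)
    rw [ih]

/-- the system of the restricted data is the restricted system -/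
theorem ti_restr_sys (Y₀ : Finset D.Y) : (D.restr Y₀).sys = D.sys.restr Y₀ := by
  have h : (D.restr Y₀).bb = D.bb := funext (D.ti_restr_bb Y₀)
  show ({ (D.sys.restr Y₀) with b := (D.restr Y₀).bb } : TSys) = D.sys.restr Y₀
  rw [h]
  rfl

theorem ti_restr_tp (Y₀ : Finset D.Y) (C ε L0 Rm : ℝ) : (D.restr Y₀).tp C ε L0 Rm = D.tp C ε L0 Rm := rfl

/-- the hypotheses on the data are inherited -/
theorem ti_restr_good (hD : D.Good) (Y₀ : Finset D.Y) : (D.restr Y₀).Good where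
  one_le_κ := hD.one_le_κ
  κ_anti := hD.κ_anti
  par_near := hD.par_near
  top_bdd := hD.top_bdd
  mult := hD.mult
  nlab := hD.nlab
  nch := hD.nch
  bin_par := hD.bin_par
  bin_inj := hD.bin_inj
  leaf := hD.leaf
  sep := fun y y' h => hD.sep y.1 y'.1 fun h' => h (Subtype.ext h')
  ηw_nonneg := hD.ηw_nonneg
  win := fun i hi h y v => hD.win i hi h y.1 v
  one_le_G := hD.one_le_G
  G_step := hD.G_step
  one_le_ϖ := hD.one_le_ϖ
  Mc_pos := hD.Mc_pos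
  sq0 := fun y => hD.sq0 y.1
  ret := hD.ret
  clip := fun y => hD.clip y.1

/-- the part of `Good` which mentions the heights `c.ℓ = c.tr = 1`, with literal heights -/
structure Two : Prop where
  top1 : ∀ b : D.Lb 1, ‖D.fr 1 b‖ ≤ c.Cc
  bin1 : ∀ v, D.bin 1 (D.par 0 v) = D.bin 0 v
  inj1 : Function.Injective (D.bin 1)
  ker0 : ∀ (A : ℝ) (T : D.Lb 0 × Lat k) (z : ST k),
    D.ker A 0 T z = ∑ S ∈ D.W 1, if D.bin 1 S.1 = D.bin 0 T.1 then D.wA A 1 S z * D.wA A 0 T (D.ctr 1 S) else 0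
  msk0 : ∀ (v : D.Lb 0) (z : ST k), D.msk 0 v z = ∑ T ∈ D.W 1, if D.bin 1 T.1 = D.bin 0 v then D.loc 1 T z else 0
  ret1 : ∀ S ∈ D.W 1, D.eb (D.bin 1 S.1) (D.ctr 1 S) ≤ D.Mc
  clip1 : ∀ y, ∑ v : D.Lb 1, min (D.eb (D.bin 1 v) (D.pt y)) D.Mc ≤ D.ϖ

end TDat

/-- a good two-height tree, literal heights -/
theorem ti_two {c : TCls k} (h1 : c.ℓ = 1) (h2 : c.tr = 1) (D : TDat c) (hD : D.Good) : D.Two := by
  obtain ⟨ℓ0, tr0, P, Q, M, C0, ρ, χ, ρχ, Cχ, Cc, Cm⟩ := c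
  simp only at h1 h2
  subst h1 h2
  exact
    { top1 := hD.top_bdd
      bin1 := fun v => hD.bin_par 0 (le_refl _) v
      inj1 := hD.bin_inj
      ker0 := fun A T z => by
        unfold TDat.ker
        rw [if_pos (by norm_num)]
      msk0 := fun v z => by
        unfold TDat.msk
        rw [if_pos (by norm_num)]
      ret1 := hD.ret
      clip1 := hD.clip }

/-- **the conditions on the free parameters** -/
structure GSp.Ok {c : TCls k} (s : GSp k) (D : TDat c) (ℓ tr : ℕ) : Prop where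
  tr_pos : 1 ≤ tr
  tr_le : tr ≤ ℓ
  κ_zero : s.κ 0 = D.κ 0
  κ_tr : s.κ tr = D.κ 1
  one_le_κ : ∀ i, 1 ≤ s.κ i
  κ_anti : ∀ i, s.κ (i + 1) ≤ s.κ i
  κ_top : ∀ i, ℓ ≤ i → s.κ i = s.κ ℓ
  /-- the grid is lacunary, except at the steps which touch the heights `0` and `tr` -/
  lac : ∀ i, i + 1 ≤ ℓ → i ≠ 0 → i ≠ tr → i + 1 ≠ tr → 2 * s.κ (i + 1) ≤ s.κ i
  one_le_G : ∀ i, i ≤ ℓ → 1 ≤ s.G i
  G_step : ∀ i, i < ℓ → 2 * (1 + 2 * (c.Cc + k)) * s.G (i + 1) ≤ s.G i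
  ηw_nonneg : 0 ≤ s.ηw
  /-- the windows are large -/
  win : ∀ i, i < ℓ → i + 1 ≠ tr → ∀ x ∈ D.gS ℓ tr s.κ (i + 1), ∀ y,
    ‖1 - ∑ m ∈ s.Wn (i + 1), c.χ (natX (s.κ (i + 1)) (D.gfr tr s.κ (i + 1) x) (D.pt y) - lat m)‖ ≤ s.ηw

/-! ## configurations on a general grid -/

end

end Claimed.Agent.R257.Tree

namespace Claimed.Agent.R257.FR1.NCfg

open Claimed.Agent.R257 Claimed.Agent.R257.FR2 Claimed.Agent.R257.Tree
open scoped BigOperators Classical BoundedContinuousFunction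

noncomputable section

variable {k : ℕ} {c : TCls k} (𝔫 : NCfg k c)

/-- the transition scale `H_i` -/
def gH (i : Fin (k + 1)) : ℝ := (𝔫.D i).κ c.tr

/-- number of witnesses in the enlargement of native radius `r` of the mask `T` -/
def gocc (i : Fin (k + 1)) (r : ℝ) (T : (𝔫.D i).Lb c.tr × Lat k) : ℕ := (Finset.univ.filter fun y : 𝔫.Y => ‖(𝔫.D i).X c.tr T (𝔫.pt i y)‖ ≤ r).card

/-- **the common properties on a general grid** (`NCfg.Ok` with `c.tr` in place of `1`; in addition: all the labels are assigned ancestors of leaf labels, UNIFORMLY close to them) -/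
structure GOk : Prop where
  good : ∀ i, (𝔫.D i).Good
  nonempty : Nonempty 𝔫.Y
  one_le_K : 1 ≤ 𝔫.K
  same : ∀ i j y, ‖𝔫.pt i y - 𝔫.pt j y‖ ≤ k
  high : ∀ i y, 𝔫.gH i ^ ((k : ℝ) / 2) ≤ 𝔫.K * ‖𝔫.root i (𝔫.pt i y)‖
  bal_le : ∀ i, (Fintype.card 𝔫.Y : ℝ) * 𝔫.gH i ^ (k + 2) ≤ 𝔫.K * 𝔫.En i
  le_bal : ∀ i, 𝔫.En i ≤ 𝔫.K * ((Fintype.card 𝔫.Y : ℝ) * 𝔫.gH i ^ (k + 2))
  H_cmp : ∀ i j, 𝔫.gH i ≤ 𝔫.K * 𝔫.gH j
  masks : (((𝔫.D 𝔫.i₀).W c.tr).card : ℝ) * 𝔫.S ^ 2 ≤ 𝔫.K * ((Fintype.card 𝔫.Y : ℝ) * 𝔫.gH 𝔫.i₀ ^ k)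
  /-- transversality of ALL the leaf labels -/
  trans : ∀ lb : ∀ i, (𝔫.D i).Lb 0, Transv 𝔫.K (fun i => (𝔫.D i).fr 0 (lb i))
  ϖ_le : ∀ i, (𝔫.D i).ϖ ≤ 𝔫.K
  κ_le : ∀ i, (𝔫.D i).κ 0 ≤ 𝔫.h
  /-- every label is an assigned ancestor of a leaf label -/
  anc_surj : ∀ i j, Function.Surjective ((𝔫.D i).anc j)
  /-- … uniformly close to it (no factor `ℓ`) -/
  anc_near : ∀ i j ω, ‖(𝔫.D i).fr 0 ω - (𝔫.D i).fr j ((𝔫.D i).anc j ω)‖ ≤ c.Cc / (𝔫.D i).κ j

/-- **power case** on a general grid -/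
structure GPow (σ c' C₁ β Λ₀ : ℝ) : Prop extends 𝔫.GOk where
  big : Λ₀ ≤ 𝔫.h
  loss : 𝔫.K ≤ 𝔫.h ^ β
  S_ge : 𝔫.h ^ σ ≤ 𝔫.S
  S_le : 𝔫.S ≤ 𝔫.h ^ C₁
  leaf : ∀ i, (𝔫.D i).κ 0 = 𝔫.h
  H_ge : ∀ i, 𝔫.h ^ c' ≤ 𝔫.gH i

/-- **subpower case** on a general grid -/
structure GSub (C₁ β E Λ₀ : ℝ) : Prop extends 𝔫.GOk where
  big : Λ₀ ≤ 𝔫.S
  loss : 𝔫.K ≤ 𝔫.S ^ β
  H_ge : ∀ i, 𝔫.S ^ E ≤ 𝔫.gH i
  leaf : ∀ i, (𝔫.D i).κ 0 ≤ 𝔫.gH i * 𝔫.S ^ C₁
  Mc_le : ∀ i, (𝔫.D i).Mc ≤ 𝔫.gH i ^ (-(k : ℝ)) * 𝔫.S ^ C₁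
  le_Mc : ∀ i, 𝔫.gH i ^ (-(k : ℝ)) ≤ (𝔫.D i).Mc
  occ_le : ∀ i, ∀ T ∈ (𝔫.D i).W c.tr, (𝔫.gocc i 𝔫.S T : ℝ) ≤ 𝔫.S ^ C₁

/-- **the refinement of a configuration** (one grid `ℓ`, `tr`; free parameters `s i` of the field `i`) -/
def grid (ℓ tr : ℕ) (Cm : ℝ) (s : Fin (k + 1) → GSp k) : NCfg k (c.gr ℓ tr Cm) where
  D := fun i => (𝔫.D i).grid ℓ tr Cm (s i)
  Y := 𝔫.Y
  fY := 𝔫.fY
  wy := 𝔫.wy
  h := 𝔫.h
  S := 𝔫.S
  i₀ := 𝔫.i₀
  K := 𝔫.K

end

end Claimed.Agent.R257.FR1.NCfg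

namespace Claimed.Agent.R257.Tree

theorem ti_griddefs_eqns_cite : True := by
  have := @grρ.eq_1
  have := @grρ.eq_2
  have := @TCls.gr.eq_1
  have := @rnd.eq_1
  have := @TDat.gbin.eq_1
  have := @TDat.gbin.eq_2
  have := @TDat.gfr.eq_1
  have := @TDat.gfr.eq_2
  have := @TDat.gfr.eq_3
  have := @TDat.gpar.eq_1
  have := @TDat.gS.eq_1
  have := @TDat.gS.eq_2
  have := @TDat.ganc.eq_1
  have := @TDat.ganc.eq_2
  have := @TDat.gN.eq_1
  have := @TDat.gmem.eq_1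
  have := @TDat.gW.eq_1
  have := @TDat.gg0.eq_1
  have := @TDat.gg0.eq_2
  have := @TDat.gs0.eq_1
  have := @TDat.gs0.eq_2
  have := @TDat.grid.eq_1
  have := @TDat.restr.eq_1
  have := @FR1.NCfg.gH.eq_1
  have := @FR1.NCfg.gocc.eq_1
  have := @FR1.NCfg.grid.eq_1
  trivial

end Claimed.Agent.R257.Tree
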