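import Claimed.Agent.R257.Tree.GridRaw
import Claimed.Agent.R257.Tree.Full

/-!
# ROW 257, unit INST / GRID, file 5: THE POWER CASE: A FAILING `CorePow` PRODUCES A RAW TOWER      (architect helper155)          CONTRACT

EXIT  `ti_rawexit_pow : RawExitPow c σ c'`  (`FR3/TopRaw.lean`), for every two-height class `c`.       PAPER-FREE (real powers, logarithms, limits along `uf`).   Paper: H `frame.tex` l.578-590.
THE GRID.  `h` = original scale, `H_j = h^{x_j}` = transition scale of the field `j` (`x_j = log_h H_j ∈ [c', 1]`).    NODES  `gnP ℓ tr x i`:   `1 - (i/tr)(1 - x)` for `i ≤ tr`,    `x (ℓ + 1 - i)/(ℓ + 1 - tr)` for `tr ≤ i ≤ ℓ`, constant above `ℓ`.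
SCALES `κ_j i = h ^ gnP ℓ tr x_j i`:  `κ_j 0 = h`, `κ_j tr = H_j`, `κ_j ℓ = H_j^{1/(ℓ+1-tr)}`.    Steps of the nodes: `(1 - x)/tr` above the seam, `x/(ℓ + 1 - tr)` below.
LAYERS.  1. `gnP` (elementary).   2. ONE CONFIGURATION: `PowNum` (explicit numerical conditions) ⟹ `GSp.Ok` ⟹ `(powF …).Raw m` (`ti_grid_main`, `ti_raw`).   3. ASYMPTOTICS: the conditions `PowNum` hold eventually along the countersequence.
4. THE TOWER: `sH = ulim log_h H_0`; grid number `N`: `tr = N + 1` (`tr = 1` if `sH = 1`), `ℓ = tr + N + 1`, mesh `1/(N+1)`.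
Every `sorry` is a leaf `L-257-GP-*` (name in the docstring): prove IN PLACE, statement verbatim (defect: one line to helper155), auxiliary lemmas with prefix `tgp_` directly above.
-/

set_option autoImplicit false

namespace Claimed.Agent.R257.Tree

open Filter Topology
open Claimed.Agent.R255 Claimed.Agent.R257 Claimed.Agent.R257.FR2 Claimed.Agent.R257.FR1 Claimed.Agent.R257.FR3
open scoped BigOperators Classical BoundedContinuousFunction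

noncomputable section

variable {k : ℕ}

/-! ## 1. the nodes -/

/-- the nodes of the power grid -/
def gnP (ℓ tr : ℕ) (x : ℝ) (i : ℕ) : ℝ :=
  if i ≤ tr then 1 - (i : ℝ) / tr * (1 - x) else x * ((ℓ : ℝ) + 1 - (min i ℓ : ℕ)) / ((ℓ : ℝ) + 1 - tr)

/-- **LEAF L-257-GP-N1.**  (`unfold gnP`; `simp`.) -/
theorem ti_gnP_zero (ℓ tr : ℕ) (x : ℝ) : gnP ℓ tr x 0 = 1 := by
  unfold gnP
  simp

/-- **LEAF L-257-GP-N2.**  (`if_pos le_rfl`; `div_self`.) -/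
theorem ti_gnP_tr (ℓ : ℕ) {tr : ℕ} (h1 : 1 ≤ tr) (x : ℝ) : gnP ℓ tr x tr = x := by
  unfold gnP
  have h0 : (tr : ℝ) ≠ 0 := by
    have : (1 : ℝ) ≤ tr := by exact_mod_cast h1
    linarith
  rw [if_pos le_rfl, div_self h0]
  ring

/-- **LEAF L-257-GP-N3.**  The step above the seam. -/
theorem ti_gnP_up (ℓ : ℕ) {tr i : ℕ} (h : i < tr) (x : ℝ) : gnP ℓ tr x i - gnP ℓ tr x (i + 1) = (1 - x) / tr := by
  unfold gnP
  have h0 : (tr : ℝ) ≠ 0 := by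
    have : (0 : ℝ) < tr := by exact_mod_cast (Nat.zero_lt_of_lt h)
    linarith
  rw [if_pos h.le, if_pos (Nat.succ_le_of_lt h)]
  push_cast
  field_simp
  ring

/-- **LEAF L-257-GP-N4.**  The step below the seam.   (`i = tr`: first branch at `i` (N2), second at `i + 1`; `tr < i`: second branch twice; `min (i+1) ℓ = i + 1`; `field_simp`, the denominator is `≥ 1`.) -/
theorem ti_gnP_dn {ℓ tr i : ℕ} (h1 : 1 ≤ tr) (h2 : tr ≤ i) (h3 : i < ℓ) (x : ℝ) : gnP ℓ tr x i - gnP ℓ tr x (i + 1) = x / ((ℓ : ℝ) + 1 - tr) := by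
  have hd : ((ℓ : ℝ) + 1 - tr) ≠ 0 := by
    have : (tr : ℝ) ≤ ℓ := by exact_mod_cast (h2.trans h3.le)
    linarith
  have hB : gnP ℓ tr x (i + 1) = x * ((ℓ : ℝ) + 1 - ((i : ℝ) + 1)) / ((ℓ : ℝ) + 1 - tr) := by
    unfold gnP
    rw [if_neg (by omega), min_eq_left (Nat.succ_le_of_lt h3)]
    push_cast
    rfl
  have hA : gnP ℓ tr x i = x * ((ℓ : ℝ) + 1 - (i : ℝ)) / ((ℓ : ℝ) + 1 - tr) := by
    rcases Nat.eq_or_lt_of_le h2 with h | h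
    · subst h
      rw [ti_gnP_tr ℓ h1 x]
      field_simp
    · unfold gnP
      rw [if_neg (by omega), min_eq_left h3.le]
  rw [hA, hB]
  field_simp
  ring

/-- **LEAF L-257-GP-N5.**  The bottom node, and the nodes above `ℓ`.   (`i = tr = ℓ`: first branch; otherwise second branch with `min i ℓ = ℓ`.) -/
theorem ti_gnP_top {ℓ tr i : ℕ} (h1 : 1 ≤ tr) (h2 : tr ≤ ℓ) (h3 : ℓ ≤ i) (x : ℝ) : gnP ℓ tr x i = x / ((ℓ : ℝ) + 1 - tr) := by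
  rcases Nat.eq_or_lt_of_le (h2.trans h3) with h | h
  · have h4 : ℓ = tr := by omega
    subst h
    subst h4
    rw [ti_gnP_tr _ h1 x]
    simp
  · unfold gnP
    rw [if_neg (by omega), min_eq_right h3]
    congr 1
    ring

/-- **LEAF L-257-GP-N6.**  The nodes decrease and stay in `[0, 1]`.   (N3, N4, N5 by cases `i < tr`, `tr ≤ i < ℓ`, `ℓ ≤ i`; nonnegativity: both branches are `≥ 0`.) -/
theorem ti_gnP_anti {ℓ tr : ℕ} (h1 : 1 ≤ tr) (h2 : tr ≤ ℓ) {x : ℝ} (hx0 : 0 ≤ x) (hx1 : x ≤ 1) (i : ℕ) : gnP ℓ tr x (i + 1) ≤ gnP ℓ tr x i ∧ 0 ≤ gnP ℓ tr x i := by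
  have ht : (0 : ℝ) < tr := by exact_mod_cast h1
  have hd : (0 : ℝ) < (ℓ : ℝ) + 1 - tr := by
    have : (tr : ℝ) ≤ ℓ := by exact_mod_cast h2
    linarith
  constructor
  · rcases Nat.lt_or_ge i tr with h | h
    · have := ti_gnP_up ℓ h x
      have h5 : 0 ≤ (1 - x) / tr := div_nonneg (by linarith) ht.le
      linarith
    · rcases Nat.lt_or_ge i ℓ with h' | h'
      · have := ti_gnP_dn h1 h h' x
        have h5 : 0 ≤ x / ((ℓ : ℝ) + 1 - tr) := div_nonneg hx0 hd.le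
        linarith
      · rw [ti_gnP_top h1 h2 h' x, ti_gnP_top h1 h2 (h'.trans (Nat.le_succ i)) x]
  · unfold gnP
    split_ifs with h
    · have h6 : (i : ℝ) / tr ≤ 1 := by
        rw [div_le_one ht]
        exact_mod_cast h
      have h7 : 0 ≤ (i : ℝ) / tr := by positivity
      have h8 : (i : ℝ) / tr * (1 - x) ≤ 1 * (1 - x) := mul_le_mul_of_nonneg_right h6 (by linarith)
      linarith
    · apply div_nonneg _ hd.le
      apply mul_nonneg hx0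
      have : ((min i ℓ : ℕ) : ℝ) ≤ ℓ := by exact_mod_cast (min_le_right i ℓ)
      linarith

/-! ## 2. one configuration -/

/-- the explicit numerical conditions on one member of the countersequence (`x j = log_h H_j`, `η` = defect of the windows) -/
structure PowNum (k ℓ tr m : ℕ) (Cc h K η : ℝ) (x : Fin (k + 1) → ℝ) : Prop where
  x_pos : ∀ j, 0 < x j
  x_le : ∀ j, x j ≤ 1
  up : tr = 1 ∨ ∀ j, 2 ≤ h ^ ((1 - x j) / tr)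
  dn : ∀ j, 2 ≤ h ^ (x j / ((ℓ : ℝ) + 1 - tr))
  tp : ∀ j, 2 * (K * (Cc + k)) ≤ h ^ (x j / ((ℓ : ℝ) + 1 - tr))
  KH : ∀ j, K ≤ h ^ (x j * ((k : ℝ) / 2))
  big : (m : ℝ) + 3 ≤ h
  Km : (2 * K ^ 7) ^ m ≤ h
  win : η * h ^ k * h ^ m ≤ 1

variable {c : TCls k}

/-- the defect of the windows of the member number `n` -/
def powη (k : ℕ) (h : ℝ) (n : ℕ) : ℝ := ((1 + |h|) ^ (k + n))⁻¹

theorem ti_powη_pos (k : ℕ) (h : ℝ) (n : ℕ) : 0 < powη k h n := by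
  unfold powη
  positivity

/-- the scales of the field `j` -/
def powκ (𝔫 : NCfg k c) (ℓ tr : ℕ) (j : Fin (k + 1)) (i : ℕ) : ℝ := 𝔫.h ^ gnP ℓ tr (Real.logb 𝔫.h (𝔫.H j)) i

/-- the free parameters of the field `j` -/
def powS (hc : c.Ok) (𝔫 : NCfg k c) (ℓ tr n : ℕ) (j : Fin (k + 1)) : GSp k where
  κ := powκ 𝔫 ℓ tr j
  G := fun i => (2 * (1 + 2 * (c.Cc + k))) ^ (ℓ - i)
  ηw := powη k 𝔫.h n
  Wn := Classical.choose (ti_full_win hc (𝔫.D j) ℓ tr (powκ 𝔫 ℓ tr j) (ti_powη_pos k 𝔫.h n))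

/-- the windows are nested (`Tree/Full.lean`, helper162) -/
theorem ti_powS_full (hc : c.Ok) (𝔫 : NCfg k c) (ℓ tr n : ℕ) (j : Fin (k + 1)) (Cm : ℝ) : ((𝔫.D j).grid ℓ tr Cm (powS hc 𝔫 ℓ tr n j)).Full :=
  ti_grid_full (𝔫.D j) ℓ tr Cm (powS hc 𝔫 ℓ tr n j) (Classical.choose_spec (ti_full_win hc (𝔫.D j) ℓ tr (powκ 𝔫 ℓ tr j) (ti_powη_pos k 𝔫.h n))).2

/-- **the raw configuration** of the member `𝔫` (number `n`) on the grid `(ℓ, tr)` -/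
def powF (hc : c.Ok) (𝔫 : NCfg k c) (ℓ tr n : ℕ) (Cm : ℝ) : FCfg k := (𝔫.grid ℓ tr Cm (powS hc 𝔫 ℓ tr n)).toF k 𝔫.h (fun _ => 1)

theorem tgp_h_gt {ℓ tr m : ℕ} {Cc h K η : ℝ} {x : Fin (k + 1) → ℝ} (hn : PowNum k ℓ tr m Cc h K η x) : 1 < h := by
  have := hn.big
  have hm : (0 : ℝ) ≤ m := Nat.cast_nonneg m
  linarith

theorem tgp_step {ℓ tr m : ℕ} {Cc h K η : ℝ} {x : Fin (k + 1) → ℝ} (h1 : 1 ≤ tr) (hn : PowNum k ℓ tr m Cc h K η x) (j : Fin (k + 1)) (i : ℕ) (hi1 : 1 ≤ i) (hi : i < ℓ) :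
    2 * h ^ gnP ℓ tr (x j) (i + 1) ≤ h ^ gnP ℓ tr (x j) i := by
  have hh : 0 < h := by linarith [tgp_h_gt hn]
  have key : ∀ st : ℝ, gnP ℓ tr (x j) i - gnP ℓ tr (x j) (i + 1) = st → 2 ≤ h ^ st → 2 * h ^ gnP ℓ tr (x j) (i + 1) ≤ h ^ gnP ℓ tr (x j) i := by
    intro st e h2
    have e' : gnP ℓ tr (x j) i = st + gnP ℓ tr (x j) (i + 1) := by linarith
    rw [e', Real.rpow_add hh]
    exact mul_le_mul_of_nonneg_right h2 (by positivity)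
  by_cases hc : i < tr
  · refine key _ (ti_gnP_up ℓ hc (x j)) ?_
    rcases hn.up with h | h
    · omega
    · exact h j
  · exact key _ (ti_gnP_dn h1 (by omega) hi (x j)) (hn.dn j)

/-- **LEAF L-257-GP-C1: the free parameters are admissible.**
PLAN.  `h > 1` (`hn.big`), `H_j = h^{x_j}` (`Real.rpow_logb`, `H_j ≥ 1 > 0`: `(hP.good j).one_le_κ 1`).   `κ_zero`: N1, `Real.rpow_one`, `hP.leaf j`.   `κ_tr`: N2.   `one_le_κ`: `Real.one_le_rpow` + N6.   `κ_anti`: `Real.rpow_le_rpow_of_exponent_le` + N6.   `κ_top`: N5 twice.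
`lac` (`i ≠ 0`, `i ≠ tr`, `i + 1 ≠ tr`, `i + 1 ≤ ℓ`): `κ i = κ (i+1) * h^{step}` (`← Real.rpow_add`), step by N3 (`i < tr`; then `tr ≠ 1`, so `hn.up` gives `2 ≤ h^{(1-x)/tr}`) or N4 (`hn.dn`).
`one_le_G`: `one_le_pow₀`.   `G_step`: `ℓ - i = (ℓ - (i+1)) + 1`, `pow_succ`.   `win`: `Classical.choose_spec`. -/
theorem ti_powS_ok (hc : c.Ok) {𝔫 : NCfg k c} {σ c' C₁ β Λ₀ : ℝ} (hP : 𝔫.Pow σ c' C₁ β Λ₀) {ℓ tr m n : ℕ} (h1 : 1 ≤ tr) (h2 : tr ≤ ℓ)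
    (hn : PowNum k ℓ tr m c.Cc 𝔫.h 𝔫.K (powη k 𝔫.h n) (fun j => Real.logb 𝔫.h (𝔫.H j))) (j : Fin (k + 1)) : (powS hc 𝔫 ℓ tr n j).Ok (𝔫.D j) ℓ tr := by
  have hh1 : 1 < 𝔫.h := tgp_h_gt hn
  have hh0 : 0 < 𝔫.h := by linarith
  have hx0 : 0 ≤ Real.logb 𝔫.h (𝔫.H j) := (hn.x_pos j).le
  have hx1 : Real.logb 𝔫.h (𝔫.H j) ≤ 1 := hn.x_le j
  have hH : 0 < 𝔫.H j := lt_of_lt_of_le one_pos ((hP.good j).one_le_κ 1)
  have hbase : (1 : ℝ) ≤ 2 * (1 + 2 * (c.Cc + k)) := by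
    have := hc.one_le_Cc
    have hk : (0 : ℝ) ≤ k := Nat.cast_nonneg k
    linarith
  refine ⟨h1, h2, ?_, ?_, fun i => ?_, fun i => ?_, fun i hi => ?_, fun i hi hi0 _ _ => ?_, fun i _ => ?_, fun i hi => ?_, (ti_powη_pos k 𝔫.h n).le, fun i _ _ x hx y => ?_⟩
  · show 𝔫.h ^ gnP ℓ tr (Real.logb 𝔫.h (𝔫.H j)) 0 = (𝔫.D j).κ 0
    rw [ti_gnP_zero, Real.rpow_one, hP.leaf j]
  · show 𝔫.h ^ gnP ℓ tr (Real.logb 𝔫.h (𝔫.H j)) tr = (𝔫.D j).κ 1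
    rw [ti_gnP_tr ℓ h1, Real.rpow_logb hh0 hh1.ne' hH]
    rfl
  · show 1 ≤ 𝔫.h ^ gnP ℓ tr (Real.logb 𝔫.h (𝔫.H j)) i
    exact Real.one_le_rpow hh1.le (ti_gnP_anti h1 h2 hx0 hx1 i).2
  · show 𝔫.h ^ gnP ℓ tr (Real.logb 𝔫.h (𝔫.H j)) (i + 1) ≤ 𝔫.h ^ gnP ℓ tr (Real.logb 𝔫.h (𝔫.H j)) i
    exact Real.rpow_le_rpow_of_exponent_le hh1.le (ti_gnP_anti h1 h2 hx0 hx1 i).1
  · show 𝔫.h ^ gnP ℓ tr (Real.logb 𝔫.h (𝔫.H j)) i = 𝔫.h ^ gnP ℓ tr (Real.logb 𝔫.h (𝔫.H j)) ℓ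
    rw [ti_gnP_top h1 h2 hi, ti_gnP_top h1 h2 le_rfl]
  · exact tgp_step h1 hn j i (by omega) (by omega)
  · show 1 ≤ (2 * (1 + 2 * (c.Cc + k))) ^ (ℓ - i)
    exact one_le_pow₀ hbase
  · show 2 * (1 + 2 * (c.Cc + k)) * (2 * (1 + 2 * (c.Cc + k))) ^ (ℓ - (i + 1)) ≤ (2 * (1 + 2 * (c.Cc + k))) ^ (ℓ - i)
    have e : ℓ - i = (ℓ - (i + 1)) + 1 := by omega
    rw [e, pow_succ']
  · exact (Classical.choose_spec (ti_full_win hc (𝔫.D j) ℓ tr (powκ 𝔫 ℓ tr j) (ti_powη_pos k 𝔫.h n))).1 (i + 1) x hx y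

/-- **LEAF L-257-GP-C2: the numerical conditions (n1)-(n8) of `ti_raw`.**   `𝔫' = 𝔫.grid ℓ tr Cm (powS …)`; by `rfl`: `(𝔫'.D j).κ i = powκ 𝔫 ℓ tr j i`, `𝔫'.K = 𝔫.K`, `𝔫'.gH j = powκ 𝔫 ℓ tr j tr`, `(𝔫'.D j).ηw = powη k 𝔫.h n`, `(c.gr ℓ tr Cm).Cc = c.Cc + k`.
PLAN.  `κ tr = h^{x_j}` (N2), `κ 0 = h` (N1), `κ ℓ = h^{x_j/(ℓ+1-tr)} ≥ 1` (N5).   (n1): `(h^x)^{k/2} = h^{x k/2}` (`← Real.rpow_mul`), `hn.KH`.   (n4): `κ 0/κ ℓ ≤ h`.   (n5): `K² ≤ (h^{x})^k` from (n1) squared (`NCfg.ti_H_sq`).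
(n6): as `lac` in C1, now for ALL `1 ≤ i < ℓ` (if `i < tr` then `tr ≥ 2`).   (n7): `hn.win`.   (n8): `hn.tp`. -/
theorem ti_pow_num {𝔫 : NCfg k c} {σ c' C₁ β Λ₀ : ℝ} (hP : 𝔫.Pow σ c' C₁ β Λ₀) {ℓ tr m n : ℕ} (h1 : 1 ≤ tr) (h2 : tr ≤ ℓ)
    (hn : PowNum k ℓ tr m c.Cc 𝔫.h 𝔫.K (powη k 𝔫.h n) (fun j => Real.logb 𝔫.h (𝔫.H j))) :
    (∀ j, 𝔫.K ≤ powκ 𝔫 ℓ tr j tr ^ ((k : ℝ) / 2)) ∧ (∀ j, (powκ 𝔫 ℓ tr j 0 / powκ 𝔫 ℓ tr j ℓ) ^ k ≤ 𝔫.h ^ k) ∧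
    (∀ j, powκ 𝔫 ℓ tr j 0 ^ k * 𝔫.K ^ 2 ≤ 𝔫.h ^ k * powκ 𝔫 ℓ tr j tr ^ k) ∧ (∀ j i, 1 ≤ i → i < ℓ → 2 * powκ 𝔫 ℓ tr j (i + 1) ≤ powκ 𝔫 ℓ tr j i) ∧
    (∀ j, powη k 𝔫.h n * powκ 𝔫 ℓ tr j 0 ^ k * 𝔫.h ^ m ≤ 1) ∧ ∀ j, 2 * (𝔫.K * (c.Cc + k)) ≤ powκ 𝔫 ℓ tr j ℓ := by
  have hh1 : 1 < 𝔫.h := tgp_h_gt hn
  have hh0 : 0 < 𝔫.h := by linarith
  have hK0 : 0 ≤ 𝔫.K := by linarith [hP.one_le_K]
  have e0 : ∀ j, powκ 𝔫 ℓ tr j 0 = 𝔫.h := fun j => by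
    unfold powκ
    rw [ti_gnP_zero, Real.rpow_one]
  have etr : ∀ j, powκ 𝔫 ℓ tr j tr = 𝔫.h ^ Real.logb 𝔫.h (𝔫.H j) := fun j => by
    unfold powκ
    rw [ti_gnP_tr ℓ h1]
  have eℓ : ∀ j, powκ 𝔫 ℓ tr j ℓ = 𝔫.h ^ (Real.logb 𝔫.h (𝔫.H j) / ((ℓ : ℝ) + 1 - tr)) := fun j => by
    unfold powκ
    rw [ti_gnP_top h1 h2 le_rfl]
  have n1 : ∀ j, 𝔫.K ≤ powκ 𝔫 ℓ tr j tr ^ ((k : ℝ) / 2) := fun j => by
    rw [etr, ← Real.rpow_mul hh0.le]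
    exact hn.KH j
  refine ⟨n1, fun j => ?_, fun j => ?_, fun j i hi1 hi => tgp_step h1 hn j i hi1 hi, fun j => ?_, fun j => ?_⟩
  · have hℓ1 : 1 ≤ powκ 𝔫 ℓ tr j ℓ := by
      have := hn.dn j
      rw [eℓ]
      linarith
    refine pow_le_pow_left₀ (by rw [e0]; positivity) ?_ k
    rw [e0]
    exact div_le_self hh0.le hℓ1
  · rw [e0]
    refine mul_le_mul_of_nonneg_left ?_ (by positivity)
    have hpos : 0 < powκ 𝔫 ℓ tr j tr := by rw [etr]; positivity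
    rw [← NCfg.ti_H_sq hpos]
    exact pow_le_pow_left₀ hK0 (n1 j) 2
  · rw [e0]
    exact hn.win
  · rw [eℓ]
    exact hn.tp j

theorem tgp_env0 (hc : c.Ok) {𝔫 : NCfg k c} {σ c' C₁ β Λ₀ : ℝ} (hP : 𝔫.Pow σ c' C₁ β Λ₀) (ℓ tr n : ℕ) (Cm : ℝ) (j : Fin (k + 1)) (y : (𝔫.D j).Y) :
    ∑ T ∈ ((𝔫.D j).grid ℓ tr Cm (powS hc 𝔫 ℓ tr n j)).W 0, ((𝔫.D j).grid ℓ tr Cm (powS hc 𝔫 ℓ tr n j)).s0 T ^ 2 *
        ((𝔫.D j).grid ℓ tr Cm (powS hc 𝔫 ℓ tr n j)).wA c.P 0 T ((𝔫.D j).pt y) ≤ 2 * 𝔫.K ^ 7 := by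
  have hκ : (powS hc 𝔫 ℓ tr n j).κ 0 = (𝔫.D j).κ 0 := by
    show 𝔫.h ^ gnP ℓ tr (Real.logb 𝔫.h (𝔫.H j)) 0 = (𝔫.D j).κ 0
    rw [ti_gnP_zero, Real.rpow_one, hP.leaf j]
  have h1 := ti_grid_sum0 (𝔫.D j) ℓ tr Cm (powS hc 𝔫 ℓ tr n j) (fun x m =>
    (𝔫.D j).gs0 x m ^ 2 * (1 + ‖natX ((powS hc 𝔫 ℓ tr n j).κ 0) ((𝔫.D j).gfr tr (powS hc 𝔫 ℓ tr n j).κ 0 x) ((𝔫.D j).pt y) - lat m‖) ^ (-c.P))
  have h2 := hP.env0 j ((𝔫.wy j).symm y)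
  have h3 : 𝔫.pt j ((𝔫.wy j).symm y) = (𝔫.D j).pt y := by
    unfold NCfg.pt
    rw [Equiv.apply_symm_apply]
  rw [h3] at h2
  have hK : 𝔫.K ≤ 2 * 𝔫.K ^ 7 := by
    have h4 := hP.one_le_K
    have h5 : 𝔫.K ^ 1 ≤ 𝔫.K ^ 7 := pow_le_pow_right₀ h4 (by norm_num)
    rw [pow_one] at h5
    have : 0 ≤ 𝔫.K ^ 7 := by positivity
    linarith
  refine le_trans (le_of_eq ?_) (h2.trans hK)
  refine Eq.trans h1 ?_
  refine Finset.sum_congr rfl fun T _ => ?_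
  rw [hκ]
  rfl

/-- **LEAF L-257-GP-ENV0 (new): the full leaf envelope is unchanged by the refinement.**   PLAN: `ti_grid_sum0` with `F x m = gs0 x m ^ 2 * (weight)`; the cells of height `0` are those of `D.W 0` with the same `κ 0` (`hs.κ_zero`), `fr`, `s0` (as `ti_grid_sq0`); then `hP.env0 j` (`𝔫.pt j ((𝔫.wy j).symm y)`), `K ≤ 2 K^7`. -/
theorem ti_powF_env0 (hc : c.Ok) {𝔫 : NCfg k c} {σ c' C₁ β Λ₀ : ℝ} (hP : 𝔫.Pow σ c' C₁ β Λ₀) (ℓ tr n : ℕ) (Cm : ℝ) (j : Fin (k + 1)) (y : ((powF hc 𝔫 ℓ tr n Cm).D j).Y) :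
    ∑ T ∈ ((powF hc 𝔫 ℓ tr n Cm).D j).W 0, ((powF hc 𝔫 ℓ tr n Cm).D j).s0 T ^ 2 * ((powF hc 𝔫 ℓ tr n Cm).D j).wA (powF hc 𝔫 ℓ tr n Cm).c.P 0 T (((powF hc 𝔫 ℓ tr n Cm).D j).pt y)
      ≤ (powF hc 𝔫 ℓ tr n Cm).K := by
  exact tgp_env0 hc hP ℓ tr n Cm j y

/-- **one configuration** (glue): under the numerical conditions the configuration `powF` is raw of quality `m` -/
theorem ti_powF_raw (hk : 1 ≤ k) (Cc Cm : ℝ) : ∃ Cm₀ : ℝ, 1 ≤ Cm₀ ∧ ∀ (c : TCls k) (hc : c.Ok), c.ℓ = 1 → c.tr = 1 → c.Cc = Cc → c.Cm = Cm → ∀ (𝔫 : NCfg k c) (σ c' C₁ β Λ₀ : ℝ), 0 ≤ σ → 𝔫.Pow σ c' C₁ β Λ₀ →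
    ∀ (ℓ tr m n : ℕ), 1 ≤ tr → tr ≤ ℓ → PowNum k ℓ tr m c.Cc 𝔫.h 𝔫.K (powη k 𝔫.h n) (fun j => Real.logb 𝔫.h (𝔫.H j)) →
    ∀ Cm' : ℝ, Cm₀ ≤ Cm' → (powF hc 𝔫 ℓ tr n Cm').Raw m := by
  obtain ⟨Cm₀, hCm₀, hmain⟩ := NCfg.ti_grid_main k Cc Cm
  refine ⟨Cm₀, hCm₀, ?_⟩
  intro c hc hℓ htr hCc hCm 𝔫 σ c' C₁ β Λ₀ hσ hP ℓ tr m n h1 h2 hn Cm' hCm'
  have hs := fun j => ti_powS_ok hc hP h1 h2 hn j
  have hG := (hmain c hc hℓ htr hCc hCm 𝔫 ℓ tr (powS hc 𝔫 ℓ tr n) hs Cm' hCm').1 hP.toOk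
  obtain ⟨n1, n4, n5, n6, n7, n8⟩ := ti_pow_num hP h1 h2 hn
  have hh : 0 ≤ 𝔫.h := by
    have := hn.big
    have hm : (0 : ℝ) ≤ m := Nat.cast_nonneg m
    linarith
  have hS : 0 ≤ 𝔫.S := (Real.rpow_nonneg hh σ).trans hP.S_ge
  exact NCfg.ti_raw hk (ti_gr_ok hc h2 (hCm₀.trans hCm')) hG hS k m 𝔫.h (fun _ => 1) (fun _ => one_pos) n1 hn.big hn.Km n4 n5 n6 n7 n8 (fun j => ti_powS_full hc 𝔫 ℓ tr n j Cm')

/-- **LEAF L-257-GP-C3: the nodes of `powF` in closed form.**   (`FCfg.s`, `κr = 1`, `div_one`, `Real.logb_rpow` with `0 < h`, `h ≠ 1`.) -/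
theorem ti_powF_s (hc : c.Ok) (𝔫 : NCfg k c) (hh : 1 < 𝔫.h) (ℓ tr n : ℕ) (Cm : ℝ) (j : Fin (k + 1)) (i : ℕ) :
    (powF hc 𝔫 ℓ tr n Cm).s j i = gnP ℓ tr (Real.logb 𝔫.h (𝔫.H j)) i := by
  show Real.logb 𝔫.h (𝔫.h ^ gnP ℓ tr (Real.logb 𝔫.h (𝔫.H j)) i / 1) = _
  rw [div_one, Real.logb_rpow (by linarith) hh.ne']

/-- **LEAF L-257-GP-C4: the threshold of `powF`.**   (`A j = κ_tr^{k/2}/K`, `κ_tr = h^{x}` (N2); `Real.logb_div`, `Real.logb_rpow`, `← Real.rpow_mul`.) -/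
theorem ti_powF_A (hc : c.Ok) (𝔫 : NCfg k c) (hh : 1 < 𝔫.h) (hK : 1 ≤ 𝔫.K) (ℓ : ℕ) {tr : ℕ} (h1 : 1 ≤ tr) (n : ℕ) (Cm : ℝ) (j : Fin (k + 1)) :
    Real.logb 𝔫.h ((powF hc 𝔫 ℓ tr n Cm).A j) = (k : ℝ) / 2 * Real.logb 𝔫.h (𝔫.H j) - Real.logb 𝔫.h 𝔫.K := by
  have hh0 : 0 < 𝔫.h := by linarith
  show Real.logb 𝔫.h ((𝔫.h ^ gnP ℓ tr (Real.logb 𝔫.h (𝔫.H j)) tr) ^ ((k : ℝ) / 2) / 𝔫.K) = _
  rw [ti_gnP_tr ℓ h1, ← Real.rpow_mul hh0.le, Real.logb_div (by positivity) (by linarith), Real.logb_rpow hh0 hh.ne']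
  ring

/-! ## 3. asymptotics along a countersequence -/

/-- the numerical data of a countersequence of the power case -/
structure PowSeq (k : ℕ) (c' : ℝ) (h K : ℕ → ℝ) (x : ℕ → Fin (k + 1) → ℝ) : Prop where
  h_ge : ∀ n : ℕ, (n : ℝ) + 3 ≤ h n
  one_le_K : ∀ n, 1 ≤ K n
  K_le : ∀ n : ℕ, K n ≤ h n ^ (1 / ((n : ℝ) + 1))
  x_ge : ∀ n j, c' ≤ x n j
  x_le : ∀ n j, x n j ≤ 1
  x_cmp : ∀ (n : ℕ) i j, x n i ≤ x n j + 1 / ((n : ℝ) + 1)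

/-- **LEAF L-257-GP-A1: all the `x_j` have the same limit.**   (`UBdd.of_le c' 1`, `ulim_tendsto`; `|x n j - x n 0| ≤ 1/(n+1) → 0` along `atTop`, hence along `uf` (`uf_le_atTop`); `tendsto_one_div_add_atTop_nhds_zero_nat`; squeeze.) -/
theorem ti_powseq_lim {c' : ℝ} {h K : ℕ → ℝ} {x : ℕ → Fin (k + 1) → ℝ} (hq : PowSeq k c' h K x) (j : Fin (k + 1)) :
    Tendsto (fun n => x n j) uf (𝓝 (ulim fun n => x n 0)) ∧ c' ≤ (ulim fun n => x n 0) ∧ (ulim fun n => x n 0) ≤ 1 := by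
  have hb : UBdd (fun n => x n 0) := UBdd.of_le c' 1 (Eventually.of_forall fun n => ⟨hq.x_ge n 0, hq.x_le n 0⟩)
  have h0 := ulim_tendsto _ hb
  have hz : Tendsto (fun n : ℕ => 1 / ((n : ℝ) + 1)) uf (𝓝 0) :=
    tendsto_one_div_add_atTop_nhds_zero_nat.mono_left uf_le_atTop
  refine ⟨?_, const_le_ulim _ _ hb (Eventually.of_forall fun n => hq.x_ge n 0),
    ulim_le_const _ _ hb (Eventually.of_forall fun n => hq.x_le n 0)⟩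
  have hlo : Tendsto (fun n : ℕ => x n 0 - 1 / ((n : ℝ) + 1)) uf (𝓝 (ulim fun n => x n 0)) := by
    have := h0.sub hz
    rwa [sub_zero] at this
  have hhi : Tendsto (fun n : ℕ => x n 0 + 1 / ((n : ℝ) + 1)) uf (𝓝 (ulim fun n => x n 0)) := by
    have := h0.add hz
    rwa [add_zero] at this
  refine tendsto_of_tendsto_of_tendsto_of_le_of_le hlo hhi (fun n => ?_) (fun n => ?_)
  · have := hq.x_cmp n 0 j
    show x n 0 - 1 / ((n : ℝ) + 1) ≤ x n j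
    linarith
  · exact hq.x_cmp n j 0

/-- **LEAF L-257-GP-A2: `log_h K → 0`.**   (`0 ≤ logb h K ≤ 1/(n+1)`: `Real.logb_le_logb_of_le`/`Real.logb_rpow`; squeeze; `uf_le_atTop`.) -/
theorem ti_powseq_K {c' : ℝ} {h K : ℕ → ℝ} {x : ℕ → Fin (k + 1) → ℝ} (hq : PowSeq k c' h K x) : Tendsto (fun n => Real.logb (h n) (K n)) uf (𝓝 0) := by
  have hz : Tendsto (fun n : ℕ => 1 / ((n : ℝ) + 1)) uf (𝓝 0) :=
    tendsto_one_div_add_atTop_nhds_zero_nat.mono_left uf_le_atTop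
  refine tendsto_of_tendsto_of_tendsto_of_le_of_le tendsto_const_nhds hz (fun n => ?_) (fun n => ?_)
  · have hn : (0 : ℝ) ≤ n := Nat.cast_nonneg n
    have hh : 1 < h n := by linarith [hq.h_ge n]
    exact Real.logb_nonneg hh (hq.one_le_K n)
  · have hn : (0 : ℝ) ≤ n := Nat.cast_nonneg n
    have hh : 1 < h n := by linarith [hq.h_ge n]
    have hK : 0 < K n := by linarith [hq.one_le_K n]
    show Real.logb (h n) (K n) ≤ 1 / ((n : ℝ) + 1)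
    calc Real.logb (h n) (K n) ≤ Real.logb (h n) (h n ^ (1 / ((n : ℝ) + 1))) :=
          Real.logb_le_logb_of_le hh hK (hq.K_le n)
      _ = 1 / ((n : ℝ) + 1) := Real.logb_rpow (by linarith) hh.ne'

/-- **LEAF L-257-GP-A3: a fixed positive power of `h_n` beats every constant.**   (`h n ≥ n`, `Real.rpow_le_rpow`, `tendsto_rpow_atTop`; or: `n ≥ B^{1/δ}`.) -/
theorem ti_powseq_big {h : ℕ → ℝ} (hh : ∀ n : ℕ, (n : ℝ) + 3 ≤ h n) {δ : ℝ} (hδ : 0 < δ) (B : ℝ) : ∀ᶠ n in atTop, B ≤ h n ^ δ := by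
  have h1 : Tendsto (fun n : ℕ => (n : ℝ) ^ δ) atTop atTop := (tendsto_rpow_atTop hδ).comp tendsto_natCast_atTop_atTop
  filter_upwards [h1.eventually_ge_atTop B] with n hn
  have hn0 : (0 : ℝ) ≤ n := Nat.cast_nonneg n
  exact hn.trans (Real.rpow_le_rpow hn0 (by linarith [hh n]) hδ.le)

/-- **LEAF L-257-GP-A4: the numerical conditions hold eventually.**
PLAN (`L = ℓ + 1 - tr ≥ 1`; all but `up` along `atTop`, then `uf_le_atTop`; combine with `Filter.Eventually.and`/`filter_upwards`).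
`x_pos`, `x_le`: `hq`.    `up`: if `tr ≠ 1` then `sH < 1` (`htr`); by A1 eventually `x n j ≤ (1 + sH)/2` for all `j` (`eventually_all`), so `(1 - x)/tr ≥ δ := (1 - sH)/(2 tr)`, A3 with `B = 2`, monotonicity of `h^·` (`1 ≤ h`).
`dn`: `x/L ≥ c'/L`, A3.      `tp`: `K ≤ h^{1/(n+1)} ≤ h^{c'/(2L)}` for `n` large, `2 (Cc + k) ≤ h^{c'/(2L)}` (A3), product `= h^{c'/L}`.      `KH`: `1/(n+1) ≤ c' k/2` for `n` large (`hk`).      `big`: `n ≥ m`.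
`Km`: `K^{7m} ≤ h^{7m/(n+1)} ≤ h^{1/2}`, `2^m ≤ h^{1/2}` (A3).        `win`: `h^k h^m = h^{k+m} ≤ (1 + |h|)^{k+n}` for `n ≥ m`. -/
theorem ti_pownum_ev (hk : 1 ≤ k) {c' : ℝ} (hc' : 0 < c') {h K : ℕ → ℝ} {x : ℕ → Fin (k + 1) → ℝ} (hq : PowSeq k c' h K x) (Cc : ℝ) {ℓ tr : ℕ} (h1 : 1 ≤ tr) (h2 : tr ≤ ℓ)
    (htr : tr = 1 ∨ (ulim fun n => x n 0) < 1) (m : ℕ) : ∀ᶠ n in uf, PowNum k ℓ tr m Cc (h n) (K n) (powη k (h n) n) (x n) := by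
  have hL : (1 : ℝ) ≤ (ℓ : ℝ) + 1 - tr := by
    have : (tr : ℝ) ≤ ℓ := by exact_mod_cast h2
    linarith
  obtain ⟨L, hLdef⟩ : ∃ L : ℝ, L = (ℓ : ℝ) + 1 - tr := ⟨_, rfl⟩
  rw [← hLdef] at hL
  have hL0 : 0 < L := by linarith
  have htr0 : (0 : ℝ) < tr := by exact_mod_cast h1
  have hz : Tendsto (fun n : ℕ => 1 / ((n : ℝ) + 1)) atTop (𝓝 0) := tendsto_one_div_add_atTop_nhds_zero_nat
  have E1 : ∀ᶠ n : ℕ in uf, m ≤ n := uf_le_atTop (eventually_ge_atTop m)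
  have E2 : ∀ᶠ n : ℕ in uf, 1 / ((n : ℝ) + 1) ≤ c' / (2 * L) := uf_le_atTop (hz.eventually_le_const (by positivity))
  have E3 : ∀ᶠ n in uf, 2 ≤ h n ^ (c' / L) := uf_le_atTop (ti_powseq_big hq.h_ge (by positivity) 2)
  have E4 : ∀ᶠ n in uf, 2 * (Cc + k) ≤ h n ^ (c' / (2 * L)) := uf_le_atTop (ti_powseq_big hq.h_ge (by positivity) _)
  have E5 : ∀ᶠ n : ℕ in uf, 14 * m ≤ n := uf_le_atTop (eventually_ge_atTop (14 * m))
  have E6 : ∀ᶠ n in uf, (2 : ℝ) ^ m ≤ h n ^ ((1 : ℝ) / 2) := uf_le_atTop (ti_powseq_big hq.h_ge (by norm_num) _)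
  have E7 : ∀ᶠ n in uf, tr = 1 ∨ ∀ j, 2 ≤ h n ^ ((1 - x n j) / tr) := by
    rcases htr with h | hs
    · exact Eventually.of_forall fun _ => Or.inl h
    · obtain ⟨sH, hsH⟩ : ∃ sH : ℝ, sH = ulim fun n => x n 0 := ⟨_, rfl⟩
      rw [← hsH] at hs
      have hδ : 0 < (1 - sH) / (2 * tr) := by
        have : 0 < 1 - sH := by linarith
        positivity
      have a1 : ∀ᶠ n in uf, ∀ j, x n j < (1 + sH) / 2 := by
        rw [eventually_all]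
        intro j
        have := (ti_powseq_lim hq j).1
        rw [← hsH] at this
        exact this.eventually_lt_const (by linarith)
      have a2 : ∀ᶠ n in uf, 2 ≤ h n ^ ((1 - sH) / (2 * tr)) := uf_le_atTop (ti_powseq_big hq.h_ge hδ 2)
      filter_upwards [a1, a2] with n b1 b2
      refine Or.inr fun j => b2.trans ?_
      have hn : (0 : ℝ) ≤ n := Nat.cast_nonneg n
      have hh : 1 ≤ h n := by linarith [hq.h_ge n]
      refine Real.rpow_le_rpow_of_exponent_le hh ?_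
      rw [div_le_div_iff₀ (by positivity) htr0]
      have := b1 j
      nlinarith
  filter_upwards [E1, E2, E3, E4, E5, E6, E7] with n e1 e2 e3 e4 e5 e6 e7
  have hn : (0 : ℝ) ≤ n := Nat.cast_nonneg n
  have hh3 := hq.h_ge n
  have hh : 1 ≤ h n := by linarith
  have hh0 : 0 < h n := by linarith
  have hK1 := hq.one_le_K n
  have hK0 : 0 ≤ K n := by linarith
  have hxL : ∀ j, c' / L ≤ x n j / L := fun j => div_le_div_of_nonneg_right (hq.x_ge n j) hL0.le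
  have hKP : K n ≤ h n ^ (c' / (2 * L)) := (hq.K_le n).trans (Real.rpow_le_rpow_of_exponent_le hh e2)
  rw [hLdef] at hxL
  exact
    { x_pos := fun j => lt_of_lt_of_le hc' (hq.x_ge n j)
      x_le := hq.x_le n
      up := e7
      dn := fun j => by
        rw [hLdef] at e3
        exact e3.trans (Real.rpow_le_rpow_of_exponent_le hh (hxL j))
      tp := fun j => by
        have hP0 : 0 ≤ h n ^ (c' / (2 * L)) := (Real.rpow_pos_of_pos hh0 _).le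
        have a1 : 2 * (K n * (Cc + k)) ≤ h n ^ (c' / (2 * L)) * h n ^ (c' / (2 * L)) := by
          calc 2 * (K n * (Cc + k)) = K n * (2 * (Cc + k)) := by ring
            _ ≤ K n * h n ^ (c' / (2 * L)) := mul_le_mul_of_nonneg_left e4 hK0
            _ ≤ h n ^ (c' / (2 * L)) * h n ^ (c' / (2 * L)) := mul_le_mul_of_nonneg_right hKP hP0
        rw [← Real.rpow_add hh0] at a1
        refine a1.trans (Real.rpow_le_rpow_of_exponent_le hh ?_)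
        have : c' / (2 * L) + c' / (2 * L) = c' / L := by field_simp; ring
        rw [this, hLdef]
        exact hxL j
      KH := fun j => by
        refine hKP.trans (Real.rpow_le_rpow_of_exponent_le hh ?_)
        have hk' : (1 : ℝ) ≤ k := by exact_mod_cast hk
        have a1 : c' / (2 * L) ≤ c' / 2 :=
          div_le_div_of_nonneg_left hc'.le (by norm_num) (by linarith)
        have a2 : c' / 2 ≤ x n j * ((k : ℝ) / 2) := by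
          have := hq.x_ge n j
          nlinarith
        linarith
      big := by
        have : (m : ℝ) ≤ n := by exact_mod_cast e1
        linarith
      Km := by
        rw [mul_pow, ← pow_mul]
        have a1 : K n ^ (7 * m) ≤ h n ^ ((1 : ℝ) / 2) := by
          calc K n ^ (7 * m) ≤ (h n ^ (1 / ((n : ℝ) + 1))) ^ (7 * m) := pow_le_pow_left₀ hK0 (hq.K_le n) _
            _ = h n ^ (1 / ((n : ℝ) + 1) * ((7 * m : ℕ) : ℝ)) := by rw [Real.rpow_mul hh0.le, Real.rpow_natCast]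
            _ ≤ h n ^ ((1 : ℝ) / 2) := by
              refine Real.rpow_le_rpow_of_exponent_le hh ?_
              have : ((14 * m : ℕ) : ℝ) ≤ n := by exact_mod_cast e5
              push_cast at this ⊢
              rw [div_mul_eq_mul_div, div_le_div_iff₀ (by positivity) (by norm_num)]
              linarith
        calc (2 : ℝ) ^ m * K n ^ (7 * m) ≤ h n ^ ((1 : ℝ) / 2) * h n ^ ((1 : ℝ) / 2) :=
              mul_le_mul e6 a1 (by positivity) (Real.rpow_pos_of_pos hh0 _).le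
          _ = h n := by rw [← Real.rpow_add hh0]; norm_num
      win := by
        unfold powη
        rw [abs_of_pos hh0, mul_assoc, ← pow_add, inv_mul_le_iff₀ (by positivity), mul_one]
        calc h n ^ (k + m) ≤ (1 + h n) ^ (k + m) := pow_le_pow_left₀ hh0.le (by linarith) _
          _ ≤ (1 + h n) ^ (k + n) := pow_le_pow_right₀ (by linarith) (by omega) }

/-! ## 4. the tower -/

/-- the countersequence of a failing `CorePow` -/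
theorem ti_pow_seq {σ c' : ℝ} (h : ¬ CorePow c σ c') : ∃ (C₁ : ℝ) (𝔫 : ℕ → NCfg k c), ∀ n : ℕ, (𝔫 n).Pow σ c' C₁ (1 / ((n : ℝ) + 1)) ((n : ℝ) + 3) := by
  unfold CorePow at h
  push Not at h
  obtain ⟨C₁, hC⟩ := h
  have h1 : ∀ n : ℕ, ∃ 𝔫 : NCfg k c, 𝔫.Pow σ c' C₁ (1 / ((n : ℝ) + 1)) ((n : ℝ) + 3) := fun n => hC _ _ (by positivity)
  choose 𝔫 h𝔫 using h1
  exact ⟨C₁, 𝔫, h𝔫⟩

/-- **LEAF L-257-GP-T1: the numerical data of the countersequence.**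
PLAN (`h = (𝔫 n).h ≥ 3`, `H_j = (𝔫 n).H j = κ 1 ≥ 1`).   `h_ge`: `big`.   `K_le`: `loss`.   `x_ge`: `Real.le_logb_iff_rpow_le` + `H_ge`.   `x_le`: `H_j = κ 1 ≤ κ 0 = h` (`(good j).κ_anti 0`, `leaf j`), `Real.logb_le_iff_le_rpow`/`Real.logb_self_eq_one`.
`x_cmp`: `H_i ≤ K H_j ≤ h^{1/(n+1)} H_j` (`H_cmp`, `loss`); `Real.logb_le_logb_of_le`, `Real.logb_mul`, `Real.logb_rpow`. -/
theorem ti_pow_powseq {σ c' C₁ : ℝ} {𝔫 : ℕ → NCfg k c} (h : ∀ n : ℕ, (𝔫 n).Pow σ c' C₁ (1 / ((n : ℝ) + 1)) ((n : ℝ) + 3)) :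
    PowSeq k c' (fun n => (𝔫 n).h) (fun n => (𝔫 n).K) (fun n j => Real.logb (𝔫 n).h ((𝔫 n).H j)) := by
  have hh3 : ∀ n : ℕ, (n : ℝ) + 3 ≤ (𝔫 n).h := fun n => (h n).big
  have hh1 : ∀ n, 1 < (𝔫 n).h := fun n => by
    have := hh3 n
    have hn : (0 : ℝ) ≤ n := Nat.cast_nonneg n
    linarith
  have hH1 : ∀ n j, 1 ≤ (𝔫 n).H j := fun n j => ((h n).good j).one_le_κ 1
  have hH0 : ∀ n j, 0 < (𝔫 n).H j := fun n j => by linarith [hH1 n j]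
  refine ⟨hh3, fun n => (h n).one_le_K, fun n => (h n).loss, ?_, ?_, ?_⟩
  · intro n j
    exact (Real.le_logb_iff_rpow_le (hh1 n) (hH0 n j)).2 ((h n).H_ge j)
  · intro n j
    have h1 : (𝔫 n).H j ≤ (𝔫 n).h := by
      have := ((h n).good j).κ_anti 0
      rw [(h n).leaf j] at this
      exact this
    show Real.logb (𝔫 n).h ((𝔫 n).H j) ≤ 1
    rw [Real.logb_le_iff_le_rpow (hh1 n) (hH0 n j), Real.rpow_one]
    exact h1
  · intro n i j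
    have h0 : 0 < (𝔫 n).h := by linarith [hh1 n]
    have h1 : (𝔫 n).H i ≤ (𝔫 n).h ^ (1 / ((n : ℝ) + 1)) * (𝔫 n).H j :=
      ((h n).H_cmp i j).trans (mul_le_mul_of_nonneg_right (h n).loss (hH0 n j).le)
    have h2 := Real.logb_le_logb_of_le (hh1 n) (hH0 n i) h1
    rw [Real.logb_mul (Real.rpow_pos_of_pos h0 _).ne' (hH0 n j).ne', Real.logb_rpow h0 (hh1 n).ne'] at h2
    show Real.logb (𝔫 n).h ((𝔫 n).H i) ≤ Real.logb (𝔫 n).h ((𝔫 n).H j) + 1 / ((n : ℝ) + 1)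
    linarith

/-- the transition height of the grid number `N` -/
def powTr (sH : ℝ) (N : ℕ) : ℕ := if sH < 1 then N + 1 else 1

/-- the top height of the grid number `N` -/
def powL (sH : ℝ) (N : ℕ) : ℕ := powTr sH N + N + 1

theorem ti_powTr_pos (sH : ℝ) (N : ℕ) : 1 ≤ powTr sH N := by
  unfold powTr
  split_ifs <;> omega

theorem ti_powTr_le (sH : ℝ) (N : ℕ) : powTr sH N ≤ powL sH N := by
  unfold powL
  omega

theorem ti_powL_sub (sH : ℝ) (N : ℕ) : ((powL sH N : ℕ) : ℝ) + 1 - (powTr sH N : ℕ) = (N : ℝ) + 2 := by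
  unfold powL
  push_cast
  ring

/-- **the raw tower of a countersequence** -/
def powT (hc : c.Ok) (𝔫 : ℕ → NCfg k c) (sH Cm : ℝ) : Tower k where
  F := fun N n => powF hc (𝔫 n) (powL sH N) (powTr sH N) n Cm
  cN := fun N => c.gr (powL sH N) (powTr sH N) Cm
  cx := fun _ => k
  μ := fun N => 1 / ((N : ℝ) + 1)
  o := ⟨c.P, c.Q, c.M, c.C0, c.Cχ, c.Cc + k, Cm⟩

/-- **LEAF L-257-GP-T2: the mesh.**   `x n j := logb h H_j`, `sH = ulim x n 0`.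
PLAN: C3 (`1 < h` from `h_ge`).   `i < tr`: N3: step `(1 - x)/tr`.   If `sH < 1`: `tr = N + 1`, `0 ≤ x`.   If not: `tr = 1`, `sH = 1` (A1: `sH ≤ 1`), and `1 - x n j → 0` (A1), so eventually `≤ 1/(N+1)` for all `j` (`eventually_all`).
`tr ≤ i < ℓ`: N4 + `ti_powL_sub`: step `x/(N+2) ≤ 1/(N+1)`. -/
theorem ti_powT_mesh (hc : c.Ok) {c' : ℝ} (hc' : 0 < c') {𝔫 : ℕ → NCfg k c} (hq : PowSeq k c' (fun n => (𝔫 n).h) (fun n => (𝔫 n).K) (fun n j => Real.logb (𝔫 n).h ((𝔫 n).H j))) (Cm : ℝ) (N : ℕ) :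
    ∀ᶠ n in uf, ∀ j i, i < powL (ulim fun n => Real.logb (𝔫 n).h ((𝔫 n).H 0)) N →
      (powF hc (𝔫 n) (powL (ulim fun n => Real.logb (𝔫 n).h ((𝔫 n).H 0)) N) (powTr (ulim fun n => Real.logb (𝔫 n).h ((𝔫 n).H 0)) N) n Cm).s j i
        - (powF hc (𝔫 n) (powL (ulim fun n => Real.logb (𝔫 n).h ((𝔫 n).H 0)) N) (powTr (ulim fun n => Real.logb (𝔫 n).h ((𝔫 n).H 0)) N) n Cm).s j (i + 1) ≤ 1 / ((N : ℝ) + 1) := by
  have hlim := fun j => ti_powseq_lim hq j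
  obtain ⟨sH, hsH⟩ : ∃ sH, sH = ulim fun n => Real.logb (𝔫 n).h ((𝔫 n).H 0) := ⟨_, rfl⟩
  rw [← hsH] at hlim ⊢
  have hh1 : ∀ n, 1 < (𝔫 n).h := fun n => by
    have := hq.h_ge n
    have hn : (0 : ℝ) ≤ n := Nat.cast_nonneg n
    linarith
  have hN : (0 : ℝ) < (N : ℝ) + 1 := by positivity
  have hup : ∀ᶠ n in uf, ∀ j, (1 - Real.logb (𝔫 n).h ((𝔫 n).H j)) / (powTr sH N : ℕ) ≤ 1 / ((N : ℝ) + 1) := by
    by_cases hs : sH < 1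
    · refine Eventually.of_forall fun n j => ?_
      have h1 : powTr sH N = N + 1 := if_pos hs
      rw [h1]
      push_cast
      have hx : 0 ≤ Real.logb (𝔫 n).h ((𝔫 n).H j) := hc'.le.trans (hq.x_ge n j)
      exact div_le_div_of_nonneg_right (by linarith) hN.le
    · have h1 : powTr sH N = 1 := if_neg hs
      have hs1 : sH = 1 := le_antisymm (hlim 0).2.2 (not_lt.1 hs)
      rw [h1, eventually_all]
      intro j
      have h2 : Tendsto (fun n => Real.logb (𝔫 n).h ((𝔫 n).H j)) uf (𝓝 1) := hs1 ▸ (hlim j).1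
      have h3 : (1 : ℝ) - 1 / ((N : ℝ) + 1) < 1 := by
        have : 0 < 1 / ((N : ℝ) + 1) := by positivity
        linarith
      have h4 : ∀ᶠ n in uf, 1 - 1 / ((N : ℝ) + 1) < Real.logb (𝔫 n).h ((𝔫 n).H j) := h2.eventually (lt_mem_nhds h3)
      filter_upwards [h4] with n hn
      rw [Nat.cast_one, div_one]
      linarith
  filter_upwards [hup] with n hn j i hi
  rw [ti_powF_s hc (𝔫 n) (hh1 n), ti_powF_s hc (𝔫 n) (hh1 n)]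
  by_cases hit : i < powTr sH N
  · rw [ti_gnP_up _ hit]
    exact hn j
  · rw [ti_gnP_dn (ti_powTr_pos sH N) (not_lt.1 hit) hi, ti_powL_sub]
    have hx1 : Real.logb (𝔫 n).h ((𝔫 n).H j) ≤ 1 := hq.x_le n j
    calc Real.logb (𝔫 n).h ((𝔫 n).H j) / ((N : ℝ) + 2) ≤ 1 / ((N : ℝ) + 2) := div_le_div_of_nonneg_right hx1 (by positivity)
      _ ≤ 1 / ((N : ℝ) + 1) := one_div_le_one_div_of_le hN (by linarith)

/-- **LEAF L-257-GP-T3: the excess is a fixed power of the base.**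
PLAN: `σo² A² = S²/K²`: as `NCfg.ti_raw_exc` (its proof uses only `0 < gH i₀` and `0 < K`; here `gH i₀ = powκ … tr = h^{…} > 0`: copy the computation).   `S ≥ h^σ` (`S_ge`), `K² ≤ h^{2/(n+1)} ≤ h^σ` for `n + 1 ≥ 2/σ`;  `h^σ K² ≤ h^{2σ} ≤ S²`. -/
theorem ti_powF_exc (hc : c.Ok) {σ c' C₁ : ℝ} (hσ : 0 < σ) {𝔫 : ℕ → NCfg k c} (h : ∀ n : ℕ, (𝔫 n).Pow σ c' C₁ (1 / ((n : ℝ) + 1)) ((n : ℝ) + 3)) (ℓ tr : ℕ) (Cm : ℝ) :
    ∀ᶠ n in uf, (powF hc (𝔫 n) ℓ tr n Cm).Λ ^ σ ≤ (powF hc (𝔫 n) ℓ tr n Cm).σo ^ 2 * (powF hc (𝔫 n) ℓ tr n Cm).A (powF hc (𝔫 n) ℓ tr n Cm).j0 ^ 2 := by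
  have hev : ∀ᶠ n : ℕ in atTop, 2 / σ ≤ (n : ℝ) + 1 := by
    filter_upwards [(tendsto_natCast_atTop_atTop (R := ℝ)).eventually_ge_atTop (2 / σ)] with n hn
    linarith
  filter_upwards [hev.filter_mono uf_le_atTop] with n hn
  obtain ⟨𝔪, h𝔪⟩ : ∃ 𝔪, 𝔪 = 𝔫 n := ⟨_, rfl⟩
  have hP := h n
  rw [← h𝔪] at hP ⊢
  have hn0 : (0 : ℝ) ≤ n := Nat.cast_nonneg n
  have hh1 : 1 < 𝔪.h := by
    have := hP.big
    linarith
  have hh0 : 0 < 𝔪.h := by linarith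
  have hK1 : 1 ≤ 𝔪.K := hP.one_le_K
  have hK0 : 0 < 𝔪.K := by linarith
  obtain ⟨g, hg⟩ : ∃ g, g = powκ 𝔪 ℓ tr 𝔪.i₀ tr := ⟨_, rfl⟩
  have hg0 : 0 < g := by
    rw [hg]
    exact Real.rpow_pos_of_pos hh0 _
  have hgoal : (powF hc 𝔪 ℓ tr n Cm).σo ^ 2 * (powF hc 𝔪 ℓ tr n Cm).A (powF hc 𝔪 ℓ tr n Cm).j0 ^ 2
      = (𝔪.S * g ^ (-((k : ℝ) / 2))) ^ 2 * (g ^ ((k : ℝ) / 2) / 𝔪.K) ^ 2 := by
    rw [hg]
    rfl
  rw [hgoal]
  show 𝔪.h ^ σ ≤ _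
  have h1 : g ^ (-((k : ℝ) / 2)) * g ^ ((k : ℝ) / 2) = 1 := by
    rw [← Real.rpow_add hg0]
    simp
  have h2 : (𝔪.S * g ^ (-((k : ℝ) / 2))) ^ 2 * (g ^ ((k : ℝ) / 2) / 𝔪.K) ^ 2
      = 𝔪.S ^ 2 * (g ^ (-((k : ℝ) / 2)) * g ^ ((k : ℝ) / 2)) ^ 2 / 𝔪.K ^ 2 := by
    field_simp
  rw [h2, h1, one_pow, mul_one, le_div_iff₀ (by positivity)]
  have hexp : 1 / ((n : ℝ) + 1) ≤ σ / 2 := by
    rw [div_le_div_iff₀ (by positivity) (by norm_num)]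
    have := (div_le_iff₀ hσ).1 hn
    linarith
  have hKs : 𝔪.K ^ 2 ≤ 𝔪.h ^ σ := by
    have h3 : 𝔪.K ≤ 𝔪.h ^ (σ / 2) := hP.loss.trans (Real.rpow_le_rpow_of_exponent_le hh1.le hexp)
    calc 𝔪.K ^ 2 ≤ (𝔪.h ^ (σ / 2)) ^ 2 := pow_le_pow_left₀ hK0.le h3 2
      _ = 𝔪.h ^ σ := by
        rw [← Real.rpow_natCast, ← Real.rpow_mul hh0.le]
        congr 1
        push_cast
        ring
  have hS : 𝔪.h ^ σ ≤ 𝔪.S := hP.S_ge
  have hp : 0 < 𝔪.h ^ σ := Real.rpow_pos_of_pos hh0 _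
  calc 𝔪.h ^ σ * 𝔪.K ^ 2 ≤ 𝔪.h ^ σ * 𝔪.h ^ σ := mul_le_mul_of_nonneg_left hKs hp.le
    _ ≤ 𝔪.S * 𝔪.S := mul_le_mul hS hS hp.le (hp.le.trans hS)
    _ = 𝔪.S ^ 2 := by ring

/-- **LEAF L-257-GP-T4: the grids reach down to the root.**   (C3, N5, `ti_powL_sub`: `s j ℓ = x/(N+2) ≤ 1/(N+2) ≤ a` for `N ≥ 1/a`: `eventually_ge_atTop`, `uf_le_atTop`; the inner `∀ᶠ n` holds for ALL `n`: `Eventually.of_forall`.) -/
theorem ti_powT_bot (hc : c.Ok) {c' : ℝ} {𝔫 : ℕ → NCfg k c} (hq : PowSeq k c' (fun n => (𝔫 n).h) (fun n => (𝔫 n).K) (fun n j => Real.logb (𝔫 n).h ((𝔫 n).H j))) (sH Cm : ℝ) {a : ℝ} (ha : 0 < a) :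
    ∀ᶠ N in uf, ∀ᶠ n in uf, ∀ j, (powF hc (𝔫 n) (powL sH N) (powTr sH N) n Cm).s j (powL sH N) ≤ a := by
  have hev : ∀ᶠ N : ℕ in atTop, 1 / a ≤ (N : ℝ) + 2 := by
    filter_upwards [(tendsto_natCast_atTop_atTop (R := ℝ)).eventually_ge_atTop (1 / a)] with N hN
    linarith
  filter_upwards [hev.filter_mono uf_le_atTop] with N hN
  refine Eventually.of_forall fun n j => ?_
  have hh1 : 1 < (𝔫 n).h := by
    have := hq.h_ge n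
    have hn : (0 : ℝ) ≤ n := Nat.cast_nonneg n
    linarith
  rw [ti_powF_s hc (𝔫 n) hh1, ti_gnP_top (ti_powTr_pos sH N) (ti_powTr_le sH N) le_rfl, ti_powL_sub]
  have hx1 : Real.logb (𝔫 n).h ((𝔫 n).H j) ≤ 1 := hq.x_le n j
  have hN2 : (0 : ℝ) < (N : ℝ) + 2 := by positivity
  calc Real.logb (𝔫 n).h ((𝔫 n).H j) / ((N : ℝ) + 2) ≤ 1 / ((N : ℝ) + 2) := div_le_div_of_nonneg_right hx1 hN2.le
    _ ≤ a := by
      rw [div_le_iff₀ hN2]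
      have := (div_le_iff₀ ha).1 hN
      linarith

/-- **the raw tower** (glue) -/
theorem ti_powT_raw (hk : 1 ≤ k) (hc : c.Ok) (hr : FR1.Room c) (hℓ : c.ℓ = 1) (htr : c.tr = 1) {σ c' C₁ : ℝ} (hσ : 0 < σ) (hc' : 0 < c') {𝔫 : ℕ → NCfg k c}
    (h : ∀ n : ℕ, (𝔫 n).Pow σ c' C₁ (1 / ((n : ℝ) + 1)) ((n : ℝ) + 3)) :
    ∃ Cm : ℝ, (powT hc 𝔫 (ulim fun n => Real.logb (𝔫 n).h ((𝔫 n).H 0)) Cm).RawPow (ulim fun n => Real.logb (𝔫 n).h ((𝔫 n).H 0)) := by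
  obtain ⟨Cm₀, hCm₀, hraw⟩ := ti_powF_raw hk c.Cc c.Cm
  refine ⟨Cm₀, ?_⟩
  have hq := ti_pow_powseq h
  obtain ⟨sH, hsH⟩ : ∃ sH, sH = ulim fun n => Real.logb (𝔫 n).h ((𝔫 n).H 0) := ⟨_, rfl⟩
  have hlim := fun j => ti_powseq_lim hq j
  have hh1 : ∀ n, 1 < (𝔫 n).h := fun n => by
    have := hq.h_ge n
    have hn : (0 : ℝ) ≤ n := Nat.cast_nonneg n
    linarith
  rw [← hsH] at hlim ⊢
  have htr' : ∀ N, powTr sH N = 1 ∨ sH < 1 := fun N => by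
    unfold powTr
    by_cases h1 : sH < 1
    · exact Or.inr h1
    · exact Or.inl (if_neg h1)
  exact
    { cls := fun _ _ => rfl
      cxs := fun _ _ => rfl
      ord := fun _ => rfl
      room := hr
      clsok := fun N => ti_gr_ok hc (ti_powTr_le sH N) hCm₀
      raw := fun N m => by
        have h1 := ti_pownum_ev hk hc' hq c.Cc (ti_powTr_pos sH N) (ti_powTr_le sH N) (by rw [← hsH]; exact htr' N) m
        filter_upwards [h1] with n hn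
        exact hraw c hc hℓ htr rfl rfl (𝔫 n) σ c' C₁ _ _ hσ.le (h n) _ _ m n (ti_powTr_pos sH N) (ti_powTr_le sH N) hn Cm₀ le_rfl
      μ_pos := fun N => by
        show 0 < 1 / ((N : ℝ) + 1)
        positivity
      μ_lim := tendsto_one_div_add_atTop_nhds_zero_nat.mono_left uf_le_atTop
      mesh := fun N => by
        have := ti_powT_mesh hc hc' hq Cm₀ N
        rw [← hsH] at this
        exact this
      exc := ⟨σ, hσ, fun N => ti_powF_exc hc hσ h _ _ Cm₀⟩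
      pow := fun N => Eventually.of_forall fun n =>
        { κr_one := fun _ => rfl
          leaf := fun j => by
            show (𝔫 n).h ^ gnP _ _ _ 0 = (𝔫 n).h
            rw [ti_gnP_zero, Real.rpow_one]
          env0 := fun j y => ti_powF_env0 hc (h n) _ _ n Cm₀ j y }
      sH_pos := lt_of_lt_of_le hc' (hlim 0).2.1
      sH_le := (hlim 0).2.2
      bot := fun a ha => ti_powT_bot hc hq sH Cm₀ ha
      seam := fun N j => by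
        have h1 : (fun n => (powF hc (𝔫 n) (powL sH N) (powTr sH N) n Cm₀).s j (powTr sH N)) = fun n => Real.logb (𝔫 n).h ((𝔫 n).H j) := by
          funext n
          rw [ti_powF_s hc (𝔫 n) (hh1 n), ti_gnP_tr _ (ti_powTr_pos sH N)]
        show Tendsto (fun n => (powF hc (𝔫 n) (powL sH N) (powTr sH N) n Cm₀).s j (powTr sH N)) uf (𝓝 sH)
        rw [h1]
        exact (hlim j).1
      thr := fun N j => by
        have h1 : (fun n => Real.logb (𝔫 n).h ((powF hc (𝔫 n) (powL sH N) (powTr sH N) n Cm₀).A j))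
            = fun n => (k : ℝ) / 2 * Real.logb (𝔫 n).h ((𝔫 n).H j) - Real.logb (𝔫 n).h (𝔫 n).K := by
          funext n
          exact ti_powF_A hc (𝔫 n) (hh1 n) (hq.one_le_K n) _ (ti_powTr_pos sH N) n Cm₀ j
        show Tendsto (fun n => Real.logb (𝔫 n).h ((powF hc (𝔫 n) (powL sH N) (powTr sH N) n Cm₀).A j)) uf (𝓝 ((k : ℝ) / 2 * sH))
        rw [h1]
        have h2 := ((hlim j).1.const_mul ((k : ℝ) / 2)).sub (ti_powseq_K hq)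
        rwa [sub_zero] at h2 }

/-- **EXIT: the power case of GRID** -/
theorem ti_rawexit_pow (hk : 1 ≤ k) (hc : c.Ok) (hr : FR1.Room c) (hℓ : c.ℓ = 1) (htr : c.tr = 1) {σ c' : ℝ} (hσ : 0 < σ) (hc' : 0 < c') : RawExitPow c σ c' := by
  intro hne
  obtain ⟨C₁, 𝔫, h𝔫⟩ := ti_pow_seq hne
  obtain ⟨Cm, hT⟩ := ti_powT_raw hk hc hr hℓ htr hσ hc' h𝔫
  exact ⟨_, rfl, rfl, _, hT⟩

theorem ti_gridpow_eqns_cite : True := by
  have := @gnP.eq_1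
  have := @powη.eq_1
  have := @powκ.eq_1
  have := @powS.eq_1
  have := @powF.eq_1
  have := @powTr.eq_1
  have := @powL.eq_1
  have := @powT.eq_1
  trivial

end

end Claimed.Agent.R257.Tree
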