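import Claimed.Agent.R257.Tree.GridX
import Claimed.Agent.R257.FR3.TopRaw

/-!
# ROW 257, unit INST / GRID, file 4: FROM A CONFIGURATION ON A GRID TO A RAW CONFIGURATION OF `FR3/TopRaw.lean`      (helper155)

`𝔫.toF cx Λ κr : FR3.FCfg k` for `𝔫 : NCfg k c` on a general grid:  thresholds `A_j = H_j^{k/2} / K`, raw loss `2 K^7`, original amplitudes `ao = σo = S H^{-k/2}`; the fields which are junk before the selection are `1`, `∅`.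
`ti_raw` : `𝔫.GOk` + the NUMERICAL conditions (n1)-(n8)  ⟹  `(𝔫.toF cx Λ κr).Raw m`.     `ti_raw_exc` : `σo² A² = S² / K²`.     `ti_raw_sub` : `FCfg.Sub`.      No sorry in this file.
-/

set_option autoImplicit false

namespace Claimed.Agent.R257.FR1.NCfg

open Claimed.Agent.R257 Claimed.Agent.R257.FR2 Claimed.Agent.R257.Tree Claimed.Agent.R257.FR3
open scoped BigOperators Classical BoundedContinuousFunction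

noncomputable section

variable {k : ℕ} {c : TCls k}

/-- the raw configuration of a configuration on a grid -/
def toF (𝔫 : NCfg k c) (cx : ℕ) (Λ : ℝ) (κr : Fin (k + 1) → ℝ) : FCfg k where
  c := c
  cx := cx
  D := 𝔫.D
  Qc := 𝔫.Y
  fQ := 𝔫.fY
  e := 𝔫.wy
  Λ := Λ
  A := fun j => 𝔫.gH j ^ ((k : ℝ) / 2) / 𝔫.K
  κr := κr
  Cp := 1
  εp := 1
  L0 := fun _ => 1
  Rm := 1
  S := fun _ _ => ∅
  r := fun _ _ => 1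
  K := 2 * 𝔫.K ^ 7
  Go := 1
  j0 := 𝔫.i₀
  ao := fun _ => 𝔫.S * 𝔫.gH 𝔫.i₀ ^ (-((k : ℝ) / 2))
  σo := 𝔫.S * 𝔫.gH 𝔫.i₀ ^ (-((k : ℝ) / 2))

theorem ti_toF_eqns_cite : True := by
  have := @toF.eq_1
  trivial

variable {𝔫 : NCfg k c}

theorem ti_gH_ge (h : 𝔫.GOk) (j : Fin (k + 1)) : 1 ≤ 𝔫.gH j := (h.good j).one_le_κ _

theorem ti_qk_le (hk : 1 ≤ k) : qk k ≤ 6 := by
  unfold qk
  have : (1 : ℝ) ≤ k := by exact_mod_cast hk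
  rw [div_le_iff₀ (by linarith)]
  linarith

/-- `(H^{k/2})^q = H^{k+2}` -/
theorem ti_H_q (hk : 1 ≤ k) {H : ℝ} (hH : 0 < H) : (H ^ ((k : ℝ) / 2)) ^ qk k = H ^ (k + 2) := by
  have hk0 : (k : ℝ) ≠ 0 := by
    have : (1 : ℝ) ≤ k := by exact_mod_cast hk
    linarith
  rw [← Real.rpow_mul hH.le, ← Real.rpow_natCast]
  congr 1
  unfold qk
  push_cast
  field_simp

/-- `(H^{k/2})² = H^k` -/
theorem ti_H_sq {H : ℝ} (hH : 0 < H) : (H ^ ((k : ℝ) / 2)) ^ 2 = H ^ k := by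
  rw [← Real.rpow_natCast (H ^ ((k : ℝ) / 2)) 2, ← Real.rpow_mul hH.le, ← Real.rpow_natCast H k]
  congr 1
  push_cast
  ring

/-- `A_j^q = H_j^{k+2} / K^q` -/
theorem ti_A_q (hk : 1 ≤ k) (h : 𝔫.GOk) (cx : ℕ) (Λ : ℝ) (κr : Fin (k + 1) → ℝ) (j : Fin (k + 1)) :
    (𝔫.toF cx Λ κr).A j ^ qk k = 𝔫.gH j ^ (k + 2) / 𝔫.K ^ qk k := by
  have hH : 0 < 𝔫.gH j := by linarith [ti_gH_ge h j]
  have hK : 0 < 𝔫.K := by linarith [h.one_le_K]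
  show (𝔫.gH j ^ ((k : ℝ) / 2) / 𝔫.K) ^ qk k = _
  rw [Real.div_rpow (Real.rpow_nonneg hH.le _) hK.le, ti_H_q hk hH]

/-- `A_j² = H_j^k / K²` -/
theorem ti_A_sq (h : 𝔫.GOk) (cx : ℕ) (Λ : ℝ) (κr : Fin (k + 1) → ℝ) (j : Fin (k + 1)) : (𝔫.toF cx Λ κr).A j ^ 2 = 𝔫.gH j ^ k / 𝔫.K ^ 2 := by
  have hH : 0 < 𝔫.gH j := by linarith [ti_gH_ge h j]
  show (𝔫.gH j ^ ((k : ℝ) / 2) / 𝔫.K) ^ 2 = _
  rw [div_pow, ti_H_sq hH]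

theorem ti_K_q_le (hk : 1 ≤ k) (h : 𝔫.GOk) : 𝔫.K ^ qk k ≤ 𝔫.K ^ 6 := by
  rw [← Real.rpow_natCast 𝔫.K 6]
  exact Real.rpow_le_rpow_of_exponent_le h.one_le_K (by exact_mod_cast ti_qk_le hk)

theorem ti_sysD_En (𝔫 : NCfg k c) (j : Fin (k + 1)) : (𝔫.D j).sys.D = 𝔫.En j := ti_sysD (𝔫.D j)

/-- **the excess**: `σo² A² = S² / K²` -/
theorem ti_raw_exc (h : 𝔫.GOk) (cx : ℕ) (Λ : ℝ) (κr : Fin (k + 1) → ℝ) :
    (𝔫.toF cx Λ κr).σo ^ 2 * (𝔫.toF cx Λ κr).A (𝔫.toF cx Λ κr).j0 ^ 2 = 𝔫.S ^ 2 / 𝔫.K ^ 2 := by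
  have hH : 0 < 𝔫.gH 𝔫.i₀ := by linarith [ti_gH_ge h 𝔫.i₀]
  have hK : 0 < 𝔫.K := by linarith [h.one_le_K]
  show (𝔫.S * 𝔫.gH 𝔫.i₀ ^ (-((k : ℝ) / 2))) ^ 2 * (𝔫.gH 𝔫.i₀ ^ ((k : ℝ) / 2) / 𝔫.K) ^ 2 = _
  have h1 : 𝔫.gH 𝔫.i₀ ^ (-((k : ℝ) / 2)) * 𝔫.gH 𝔫.i₀ ^ ((k : ℝ) / 2) = 1 := by
    rw [← Real.rpow_add hH]
    simp
  have h2 : (𝔫.S * 𝔫.gH 𝔫.i₀ ^ (-((k : ℝ) / 2))) ^ 2 * (𝔫.gH 𝔫.i₀ ^ ((k : ℝ) / 2) / 𝔫.K) ^ 2
      = 𝔫.S ^ 2 * (𝔫.gH 𝔫.i₀ ^ (-((k : ℝ) / 2)) * 𝔫.gH 𝔫.i₀ ^ ((k : ℝ) / 2)) ^ 2 / 𝔫.K ^ 2 := by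
    field_simp
  rw [h2, h1]
  ring

/-- **a configuration on a grid is a raw configuration of quality `m`**, under the numerical conditions -/
theorem ti_raw (hk : 1 ≤ k) (hc : c.Ok) (h : 𝔫.GOk) (hS : 0 ≤ 𝔫.S) (cx m : ℕ) (Λ : ℝ) (κr : Fin (k + 1) → ℝ) (hκr : ∀ j, 0 < κr j)
    (n1 : ∀ j, 𝔫.K ≤ 𝔫.gH j ^ ((k : ℝ) / 2)) (n2 : (m : ℝ) + 3 ≤ Λ) (n3 : (2 * 𝔫.K ^ 7) ^ m ≤ Λ)
    (n4 : ∀ j, ((𝔫.D j).κ 0 / (𝔫.D j).κ c.ℓ) ^ k ≤ Λ ^ cx) (n5 : ∀ j, (𝔫.D j).κ 0 ^ k * 𝔫.K ^ 2 ≤ Λ ^ cx * 𝔫.gH j ^ k)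
    (n6 : ∀ j i, 1 ≤ i → i < c.ℓ → 2 * (𝔫.D j).κ (i + 1) ≤ (𝔫.D j).κ i) (n7 : ∀ j, (𝔫.D j).ηw * (𝔫.D j).κ 0 ^ k * Λ ^ m ≤ 1)
    (n8 : ∀ j, 2 * (𝔫.K * c.Cc) ≤ (𝔫.D j).κ c.ℓ) (n9 : ∀ j, (𝔫.D j).Full) : (𝔫.toF cx Λ κr).Raw m := by
  have hK1 := h.one_le_K
  have hK0 : 0 < 𝔫.K := by linarith
  have hH1 := ti_gH_ge h
  have hH0 : ∀ j, 0 < 𝔫.gH j := fun j => by linarith [hH1 j]
  have hκ1 : ∀ j i, 1 ≤ (𝔫.D j).κ i := fun j i => (h.good j).one_le_κ i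
  have hκ0 : ∀ j i, 0 < (𝔫.D j).κ i := fun j i => by linarith [hκ1 j i]
  have hanti : ∀ j, Antitone (𝔫.D j).κ := fun j => antitone_nat_of_succ_le (h.good j).κ_anti
  have hKp : ∀ a b : ℕ, a ≤ b → 𝔫.K ^ a ≤ 𝔫.K ^ b := fun a b hab => pow_le_pow_right₀ hK1 hab
  have hK7 : (1 : ℝ) ≤ 𝔫.K ^ 7 := one_le_pow₀ hK1
  have hKr : ∀ a : ℕ, a ≤ 7 → 𝔫.K ^ a ≤ 2 * 𝔫.K ^ 7 := fun a ha => by linarith [hKp a 7 ha]
  have hKq : 𝔫.K ^ qk k ≤ 𝔫.K ^ 6 := ti_K_q_le hk h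
  have hKq0 : 0 < 𝔫.K ^ qk k := Real.rpow_pos_of_pos hK0 _
  have hcard : (1 : ℝ) ≤ Fintype.card 𝔫.Y := by
    have := h.nonempty
    exact_mod_cast Fintype.card_pos
  have hEn : ∀ j, 0 < 𝔫.En j := fun j => by
    have h1 := h.bal_le j
    have h2 : 0 < (Fintype.card 𝔫.Y : ℝ) * 𝔫.gH j ^ (k + 2) := mul_pos (by linarith) (pow_pos (hH0 j) _)
    by_contra hne
    have h3 : 𝔫.K * 𝔫.En j ≤ 0 := mul_nonpos_of_nonneg_of_nonpos hK0.le (not_lt.1 hne)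
    linarith
  have hratio : ∀ j i, i < c.ℓ → (𝔫.D j).κ i / (𝔫.D j).κ (i + 1) ≤ (𝔫.D j).κ 0 / (𝔫.D j).κ c.ℓ := fun j i hi =>
    div_le_div₀ (hκ0 j 0).le (hanti j (Nat.zero_le i)) (hκ0 j _) (hanti j hi)
  have hspan1 : ∀ j, 1 ≤ (𝔫.D j).κ 0 / (𝔫.D j).κ c.ℓ := fun j => by
    rw [le_div_iff₀ (hκ0 j _), one_mul]
    exact hanti j (Nat.zero_le _)
  exact
    { cls := hc
      good := h.good
      ne := h.nonempty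
      one_le_A := fun j => by
        show 1 ≤ 𝔫.gH j ^ ((k : ℝ) / 2) / 𝔫.K
        rw [le_div_iff₀ hK0, one_mul]
        exact n1 j
      D_pos := fun j => by
        show 0 < (𝔫.D j).sys.D
        rw [ti_sysD_En]
        exact hEn j
      high := fun j y => by
        have key : ∀ y : (𝔫.D j).Y, 𝔫.gH j ^ ((k : ℝ) / 2) / 𝔫.K ≤ ‖(𝔫.D j).sys.Ev 0 (𝔫.D j).sys.g0 y‖ := by
          intro y
          have h1 := h.high j ((𝔫.wy j).symm y)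
          have h2 : 𝔫.root j (𝔫.pt j ((𝔫.wy j).symm y)) = (𝔫.D j).sys.Ev 0 (𝔫.D j).sys.g0 y := by
            unfold NCfg.root NCfg.pt
            rw [Equiv.apply_symm_apply]
            rfl
          rw [h2] at h1
          rw [div_le_iff₀ hK0, mul_comm]
          exact h1
        exact key y
      bal := fun j => by
        show (𝔫.D j).sys.D ≤ 2 * 𝔫.K ^ 7 * ((Fintype.card 𝔫.Y : ℝ) * (𝔫.toF cx Λ κr).A j ^ qk k)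
        rw [ti_sysD_En, ti_A_q hk h]
        refine (h.le_bal j).trans ?_
        have h1 : 0 ≤ (Fintype.card 𝔫.Y : ℝ) * 𝔫.gH j ^ (k + 2) := mul_nonneg (by linarith) (pow_pos (hH0 j) _).le
        have h2 : 2 * 𝔫.K ^ 7 * ((Fintype.card 𝔫.Y : ℝ) * (𝔫.gH j ^ (k + 2) / 𝔫.K ^ qk k)) = (2 * 𝔫.K ^ 7 / 𝔫.K ^ qk k) * ((Fintype.card 𝔫.Y : ℝ) * 𝔫.gH j ^ (k + 2)) := by
          field_simp
        rw [h2]
        refine mul_le_mul_of_nonneg_right ?_ h1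
        rw [le_div_iff₀ hKq0]
        calc 𝔫.K * 𝔫.K ^ qk k ≤ 𝔫.K * 𝔫.K ^ 6 := mul_le_mul_of_nonneg_left hKq hK0.le
          _ = 𝔫.K ^ 7 := by ring
          _ ≤ 2 * 𝔫.K ^ 7 := by linarith
      κr_pos := hκr
      Λ_ge := n2
      two_le_K := by
        show 2 ≤ 2 * 𝔫.K ^ 7
        linarith
      K_Λ := n3
      ϖ_le := fun j => (h.ϖ_le j).trans (by
        show 𝔫.K ≤ 2 * 𝔫.K ^ 7
        have := hKr 1 (by norm_num)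
        rwa [pow_one] at this)
      step_le := fun j i hi => by
        refine le_trans ?_ (n4 j)
        exact pow_le_pow_left₀ (div_pos (hκ0 j _) (hκ0 j _)).le (hratio j i hi) k
      span_le := fun j => by
        refine le_trans ?_ (n4 j)
        exact le_self_pow₀ (hspan1 j) (by omega)
      root_le := fun j i _ => by
        show (𝔫.D j).κ i ^ k ≤ Λ ^ cx * (𝔫.toF cx Λ κr).A j ^ 2
        rw [ti_A_sq h, ← mul_div_assoc, le_div_iff₀ (pow_pos hK0 2)]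
        refine le_trans ?_ (n5 j)
        exact mul_le_mul_of_nonneg_right (pow_le_pow_left₀ (hκ0 j i).le (hanti j (Nat.zero_le i)) k) (pow_pos hK0 2).le
      lac := n6
      win := n7
      trans := fun lb => by
        have h1 := ti_gok_trans h c.ℓ n8 lb
        intro t
        refine (h1 t).trans (mul_le_mul_of_nonneg_right ?_ (by positivity))
        show 2 * 𝔫.K ≤ 2 * 𝔫.K ^ 7
        have := hKp 1 7 (by norm_num)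
        rw [pow_one] at this
        linarith
      trans0 := fun lb => by
        intro t
        refine (h.trans lb t).trans (mul_le_mul_of_nonneg_right ?_ (by positivity))
        show 𝔫.K ≤ 2 * 𝔫.K ^ 7
        have := hKp 1 7 (by norm_num)
        rw [pow_one] at this
        linarith
      full := n9
      cube := fun q j j' => by
        have := h.same j j' q
        show ‖𝔫.pt j q - 𝔫.pt j' q‖ ≤ (k : ℝ) + 1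
        linarith
      tr_vol := fun j => by
        show (𝔫.toF cx Λ κr).A j ^ qk k ≤ 2 * 𝔫.K ^ 7 * 𝔫.gH j ^ (k + 2)
        rw [ti_A_q hk h, div_le_iff₀ hKq0]
        have h1 : 0 < 𝔫.gH j ^ (k + 2) := pow_pos (hH0 j) _
        have h2 : 1 ≤ 𝔫.K ^ qk k := Real.one_le_rpow hK1 (by linarith [ti_qk_gt hk])
        have h3 : 1 ≤ 2 * 𝔫.K ^ 7 * 𝔫.K ^ qk k := by nlinarith
        calc 𝔫.gH j ^ (k + 2) = 1 * 𝔫.gH j ^ (k + 2) := (one_mul _).symm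
          _ ≤ (2 * 𝔫.K ^ 7 * 𝔫.K ^ qk k) * 𝔫.gH j ^ (k + 2) := mul_le_mul_of_nonneg_right h3 h1.le
          _ = 2 * 𝔫.K ^ 7 * 𝔫.gH j ^ (k + 2) * 𝔫.K ^ qk k := by ring
      vol_tr := fun j => by
        show 𝔫.gH j ^ (k + 2) ≤ 2 * 𝔫.K ^ 7 * (𝔫.toF cx Λ κr).A j ^ qk k
        rw [ti_A_q hk h, ← mul_div_assoc, le_div_iff₀ hKq0]
        have h1 : 0 < 𝔫.gH j ^ (k + 2) := pow_pos (hH0 j) _
        have h2 : 𝔫.K ^ qk k ≤ 2 * 𝔫.K ^ 7 := hKq.trans (hKr 6 (by norm_num))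
        nlinarith
      σo_nonneg := mul_nonneg hS (Real.rpow_nonneg (hH0 _).le _)
      ao_ge := fun _ => le_refl _
      ao_en := by
        show 𝔫.gH 𝔫.i₀ ^ (k + 2) * ∑ _T : (𝔫.D 𝔫.i₀).Cl c.tr, (𝔫.S * 𝔫.gH 𝔫.i₀ ^ (-((k : ℝ) / 2))) ^ 2 ≤ 2 * 𝔫.K ^ 7 * (𝔫.D 𝔫.i₀).sys.D
        rw [ti_sysD_En, Finset.sum_const, Finset.card_univ, Fintype.card_coe, nsmul_eq_mul]
        have hH := hH0 𝔫.i₀
        have h1 : (𝔫.gH 𝔫.i₀ ^ (-((k : ℝ) / 2))) ^ 2 * 𝔫.gH 𝔫.i₀ ^ k = 1 := by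
          rw [← ti_H_sq hH, ← mul_pow, ← Real.rpow_add hH]
          simp
        have h2 : 𝔫.gH 𝔫.i₀ ^ (k + 2) * ((((𝔫.D 𝔫.i₀).W c.tr).card : ℝ) * (𝔫.S * 𝔫.gH 𝔫.i₀ ^ (-((k : ℝ) / 2))) ^ 2)
            = 𝔫.gH 𝔫.i₀ ^ 2 * ((((𝔫.D 𝔫.i₀).W c.tr).card : ℝ) * 𝔫.S ^ 2) * ((𝔫.gH 𝔫.i₀ ^ (-((k : ℝ) / 2))) ^ 2 * 𝔫.gH 𝔫.i₀ ^ k) := by
          ring
        rw [h2, h1, mul_one]
        calc 𝔫.gH 𝔫.i₀ ^ 2 * ((((𝔫.D 𝔫.i₀).W c.tr).card : ℝ) * 𝔫.S ^ 2)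
            ≤ 𝔫.gH 𝔫.i₀ ^ 2 * (𝔫.K * ((Fintype.card 𝔫.Y : ℝ) * 𝔫.gH 𝔫.i₀ ^ k)) := mul_le_mul_of_nonneg_left h.masks (by positivity)
          _ = 𝔫.K * ((Fintype.card 𝔫.Y : ℝ) * 𝔫.gH 𝔫.i₀ ^ (k + 2)) := by ring
          _ ≤ 𝔫.K * (𝔫.K * 𝔫.En 𝔫.i₀) := mul_le_mul_of_nonneg_left (h.bal_le _) hK0.le
          _ = 𝔫.K ^ 2 * 𝔫.En 𝔫.i₀ := by ring
          _ ≤ 2 * 𝔫.K ^ 7 * 𝔫.En 𝔫.i₀ := mul_le_mul_of_nonneg_right (hKr 2 (by norm_num)) (hEn _).le }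

/-- **the normalisations of the subpower case** for the raw configuration (`Λ = S`, `κr j = H_j`) -/
theorem ti_raw_sub {C₁ β E Λ₀ : ℝ} (h : 𝔫.GSub C₁ β E Λ₀) (cx m : ℕ) (hgap : ∀ j, 𝔫.S ^ m ≤ (𝔫.D j).κ c.ℓ) : (𝔫.toF cx 𝔫.S 𝔫.gH).Sub m C₁ C₁ := by
  have hK1 := h.one_le_K
  have hK0 : 0 < 𝔫.K := by linarith
  have hH0 : ∀ j, 0 < 𝔫.gH j := fun j => by linarith [ti_gH_ge h.toGOk j]
  have hK7 : 𝔫.K ^ 2 ≤ 2 * 𝔫.K ^ 7 := by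
    have := pow_le_pow_right₀ hK1 (show 2 ≤ 7 by norm_num)
    have h7 : (0 : ℝ) ≤ 𝔫.K ^ 7 := by positivity
    linarith
  exact
    { thr_le := fun j => by
        rw [ti_A_sq h.toGOk]
        exact div_le_self (pow_pos (hH0 j) _).le (one_le_pow₀ hK1)
      le_thr := fun j => by
        rw [ti_A_sq h.toGOk]
        show 𝔫.gH j ^ k ≤ 2 * 𝔫.K ^ 7 * (𝔫.gH j ^ k / 𝔫.K ^ 2)
        rw [← mul_div_assoc, le_div_iff₀ (pow_pos hK0 2)]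
        have := pow_pos (hH0 j) k
        nlinarith
      seam := fun _ => rfl
      gap := hgap
      ratio := fun j j' => by
        refine (h.H_cmp j j').trans (mul_le_mul_of_nonneg_right ?_ (hH0 j').le)
        show 𝔫.K ≤ 2 * 𝔫.K ^ 7
        have := pow_le_pow_right₀ hK1 (show 1 ≤ 7 by norm_num)
        rw [pow_one] at this
        have h7 : (0 : ℝ) ≤ 𝔫.K ^ 7 := by positivity
        linarith
      clip := fun j => by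
        have h1 := h.Mc_le j
        show (𝔫.D j).Mc * 𝔫.gH j ^ k ≤ 𝔫.S ^ C₁
        have h2 : 𝔫.gH j ^ (-(k : ℝ)) * 𝔫.gH j ^ k = 1 := by
          rw [← Real.rpow_natCast (𝔫.gH j) k, ← Real.rpow_add (hH0 j)]
          simp
        calc (𝔫.D j).Mc * 𝔫.gH j ^ k ≤ (𝔫.gH j ^ (-(k : ℝ)) * 𝔫.S ^ C₁) * 𝔫.gH j ^ k := mul_le_mul_of_nonneg_right h1 (pow_pos (hH0 j) _).le
          _ = 𝔫.S ^ C₁ * (𝔫.gH j ^ (-(k : ℝ)) * 𝔫.gH j ^ k) := by ring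
          _ = 𝔫.S ^ C₁ := by rw [h2, mul_one]
      occ0 := fun j T hT => by
        have h1 := h.occ_le j T hT
        refine le_trans ?_ h1
        have h2 : (Finset.univ.filter fun y : (𝔫.D j).Y => ‖(𝔫.D j).X c.tr T ((𝔫.D j).pt y)‖ ≤ 𝔫.S).card ≤ 𝔫.gocc j 𝔫.S T := by
          unfold NCfg.gocc
          refine Finset.card_le_card_of_injOn (fun y => (𝔫.wy j).symm y) ?_ ?_
          · intro y hy
            have hy' := (Finset.mem_filter.1 (Finset.mem_coe.1 hy)).2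
            refine Finset.mem_coe.2 (Finset.mem_filter.2 ⟨Finset.mem_univ _, ?_⟩)
            unfold NCfg.pt
            rw [Equiv.apply_symm_apply]
            exact hy'
          · intro y _ y' _ hyy
            exact (𝔫.wy j).symm.injective hyy
        exact_mod_cast h2 }

end

end Claimed.Agent.R257.FR1.NCfg
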