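import Claimed.Agent.R257.Tree.Grid

/-!
# ROW 257, unit INST / GRID, file 3: THE REFINED TREE IN THE LANGUAGE OF THE ABSTRACT SYSTEMS      (helper155)

For the consumer `FR3/TopGrid.lean` (helper41).   `D' = D.grid ℓ tr Cm s`.   By `rfl`: `D'.Y = D.Y`, `D'.pt = D.pt`, `D'.Mc = D.Mc`, `D'.ϖ = D.ϖ`, `D'.κ = s.κ`, `D'.G = s.G`, `D'.ηw = s.ηw`.
`ti_grid_sysD` (leaf energy), `ti_grid_sysEv0` (masked leaf field at the witnesses), `ti_grid_occ_tr` (occupancy of the masks), `NCfg.ti_grid_card_tr` (`Tree/Grid.lean`: number of masks).     No sorry in this file.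
-/

set_option autoImplicit false

namespace Claimed.Agent.R257.Tree

open Claimed.Agent.R257 Claimed.Agent.R257.FR2 Claimed.Agent.R257.FR1
open scoped BigOperators Classical BoundedContinuousFunction

noncomputable section

variable {k : ℕ} {c : TCls k} {D : TDat c} {ℓ tr : ℕ} {s : GSp k}

/-- the leaf energy of a tree -/
theorem ti_sysD (D : TDat c) : D.sys.D = D.κ 0 ^ (k + 2) * ∑ T ∈ D.W 0, D.s0 T ^ 2 := by
  show ∑ T : D.Cl 0, D.κ 0 ^ (k + 2) * D.s0 T.1 ^ 2 = _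
  rw [Finset.sum_coe_sort (D.W 0) (fun T => D.κ 0 ^ (k + 2) * D.s0 T ^ 2), Finset.mul_sum]

/-- **the leaf energy is unchanged** -/
theorem ti_grid_sysD (hs : s.Ok D ℓ tr) (Cm : ℝ) : (D.grid ℓ tr Cm s).sys.D = D.sys.D := by
  rw [ti_sysD, ti_sysD]
  have h1 := ti_grid_sum0 D ℓ tr Cm s (fun x m => D.gs0 x m ^ 2)
  show s.κ 0 ^ (k + 2) * ∑ T ∈ (D.grid ℓ tr Cm s).W 0, D.gs0 T.1.1 T.2 ^ 2 = D.κ 0 ^ (k + 2) * ∑ T ∈ D.W 0, D.s0 T ^ 2
  rw [h1, hs.κ_zero]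
  rfl

/-- the masked leaf field in the language of the systems -/
theorem ti_sysEv0 (D : TDat c) (y : D.Y) : D.sys.Ev 0 D.sys.g0 y = D.Ev 0 (fun T => D.g0 T.1) (D.pt y) := rfl

/-- **the masked leaf field at the witnesses is unchanged** -/
theorem ti_grid_sysEv0 (h2 : D.Two) (hs : s.Ok D ℓ tr) (Cm : ℝ) (y : D.Y) : (D.grid ℓ tr Cm s).sys.Ev 0 (D.grid ℓ tr Cm s).sys.g0 y = D.sys.Ev 0 D.sys.g0 y :=
  ti_grid_Ev0 h2 hs Cm (D.pt y)

/-- **the occupancy of a mask is unchanged**: every cell of the height `tr` is an old mask with the same native coordinates -/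
theorem ti_grid_occ_tr (hs : s.Ok D ℓ tr) (Cm : ℝ) (T : (D.grid ℓ tr Cm s).Lb tr × Lat k) (hT : T ∈ (D.grid ℓ tr Cm s).W tr) :
    ∃ S ∈ D.W 1, ∀ z, (D.grid ℓ tr Cm s).X tr T z = D.X 1 S z := by
  obtain ⟨b, hb, hbW⟩ := (ti_grid_celltr D Cm s hs.tr_pos hs.tr_le T).1 hT
  exact ⟨(b, T.2), hbW, ((ti_grid_X hs Cm).2 T b 0 hb).1⟩

end

end Claimed.Agent.R257.Tree
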